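import Vale.Agent.P065.UB.Pick

/-!
# P065, upper bound, front end: OUT1 with the threshold `s0` (helper266)

For every prescribed constant `C0` the windows can be chosen with a common number `s0`, of order
`N / lam`, such that the windows have at most `s0 / 32` boundary edges and at least
`8 C0 s0 ^ (4/3)` inner edges.
-/

set_option autoImplicit false

namespace Vale.Agent.P065.UB

open Finset

/-- `Plane` with the threshold `s0`. -/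
structure Plane2 (C0 lam K : ℝ) (s0 : ℕ) (P : Finset Pt) (k : ℕ) (Q : Finset Pt) {ι : Type}
    (W : Finset ι) (I : ι → Set ℝ) (T : ι → Finset Pt) : Prop
    extends Plane lam K P k Q W I T where
  s0_low : (#Q : ℝ) ≤ K * lam * s0
  s0_up : lam * s0 ≤ #Q
  s0_bd : ∀ w ∈ W, 32 * (#(EdBd P k Q (I w)) + 1) ≤ s0
  s0_ed : ∀ w ∈ W, 8 * C0 * (s0 : ℝ) ^ (4 / 3 : ℝ) ≤ #(EdIn P k Q (I w))
  ed_up : ∀ w ∈ W, (#(EdIn P k Q (I w)) : ℝ) ≤ (#Q / lam) ^ (4 / 3 : ℝ)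

/-- **OUT2** -/
def StOut2 : Prop :=
  ∀ C0 : ℝ, 1 ≤ C0 →
  ∃ C : ℝ, 0 < C ∧ ∀ ε : ℝ, 0 < ε → ε < 1 / C → ∃ n₀ : ℕ, ∀ (P : Finset Pt) (k : ℕ), Good P →
    n₀ ≤ #P → (#P : ℝ) ^ (4 / 3 - ε) ≤ #(Ed P k) →
    ∀ lam : ℝ, (#P : ℝ) ^ (C * ε) ≤ lam → lam ≤ (#P : ℝ) ^ (1 / 4 - C * ε) →
    ∃ (s0 : ℕ) (Q : Finset Pt) (W : Finset ℕ) (I : ℕ → Set ℝ) (T : ℕ → Finset Pt),
      Plane2 C0 lam ((#P : ℝ) ^ (C * ε)) s0 P k Q W I T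

namespace Out2266

open Win266

theorem no_small2 {C K a κ e : ℝ} (hC : 1 ≤ C) (hK : 2 ≤ K)
    (hκ : 603 * C ^ 2 * K ^ 2 ≤ κ) (hap : 0 < a)
    (h3 : e * κ ^ 4 ≤ 43 * C * a)
    (h4 : a ≤ 14 * C * K ^ 2 * κ ^ 3 * e) : False := by
  have hκ0 : 0 < κ := lt_of_lt_of_le (by positivity) hκ
  have he : 0 < e := by
    by_contra hh
    push Not at hh
    have h6 : 0 ≤ 14 * C * K ^ 2 * κ ^ 3 := by positivity
    have : 14 * C * K ^ 2 * κ ^ 3 * e ≤ 0 := mul_nonpos_of_nonneg_of_nonpos h6 hh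
    linarith
  have h5 : e * κ ^ 4 ≤ 43 * C * (14 * C * K ^ 2 * κ ^ 3 * e) :=
    h3.trans (mul_le_mul_of_nonneg_left h4 (by positivity))
  have h6 : κ * (e * κ ^ 3) ≤ (602 * C ^ 2 * K ^ 2) * (e * κ ^ 3) := by
    calc κ * (e * κ ^ 3) = e * κ ^ 4 := by ring
      _ ≤ _ := h5
      _ = _ := by ring
  have h7 : κ ≤ 602 * C ^ 2 * K ^ 2 := le_of_mul_le_mul_right h6 (by positivity)
  have : 0 < C ^ 2 * K ^ 2 := by positivity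
  linarith

theorem v0_pow {a κ : ℝ} {v0 : ℕ} (ha : 0 < a) (hκ : 0 < κ) (hv : (v0 : ℝ) ≤ a / κ ^ 3) :
    (v0 : ℝ) ^ (4 / 3 : ℝ) * κ ^ 4 ≤ a ^ (4 / 3 : ℝ) := by
  have h3 : (v0 : ℝ) ^ (4 / 3 : ℝ) ≤ (a / κ ^ 3) ^ (4 / 3 : ℝ) :=
    rp_mono (by positivity) hv _ (by norm_num)
  have h4 : (a / κ ^ 3) ^ (4 / 3 : ℝ) = a ^ (4 / 3 : ℝ) / κ ^ 4 := by
    rw [Real.div_rpow ha.le (by positivity)]
    congr 1
    rw [← Real.rpow_natCast, ← Real.rpow_mul (by positivity), ← Real.rpow_natCast]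
    norm_num
  rw [h4] at h3
  rwa [le_div_iff₀ (by positivity)] at h3

/-- the lower bound of the edges against `s0 = 64 v0` -/
theorem s0_bound {C C0 K a κ e : ℝ} {v0 : ℕ} (hC : 1 ≤ C) (hC0 : 1 ≤ C0)
    (hκ : 28672 * C0 * C ^ 2 * K ^ 2 ≤ κ) (hK : 2 ≤ K) (ha : 0 < a)
    (hv : (v0 : ℝ) ≤ a / κ ^ 3)
    (h4 : a ^ (4 / 3 : ℝ) ≤ 14 * C * K ^ 2 * κ ^ 3 * e) :
    8 * C0 * ((64 * v0 : ℕ) : ℝ) ^ (4 / 3 : ℝ) ≤ e := by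
  have hκ0 : 0 < κ := lt_of_lt_of_le (by positivity) hκ
  have hap : 0 < a ^ (4 / 3 : ℝ) := Real.rpow_pos_of_pos ha _
  have he : 0 < e := by
    by_contra hh
    push Not at hh
    have h6 : 0 ≤ 14 * C * K ^ 2 * κ ^ 3 := by positivity
    have : 14 * C * K ^ 2 * κ ^ 3 * e ≤ 0 := mul_nonpos_of_nonneg_of_nonpos h6 hh
    linarith
  have h1 := v0_pow ha hκ0 hv
  have h2 : ((64 * v0 : ℕ) : ℝ) ^ (4 / 3 : ℝ) = 256 * (v0 : ℝ) ^ (4 / 3 : ℝ) := by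
    push_cast
    rw [Real.mul_rpow (by norm_num) (by positivity)]
    congr 1
    rw [show (64 : ℝ) = 4 ^ (3 : ℕ) by norm_num, ← Real.rpow_natCast, ← Real.rpow_mul (by norm_num)]
    norm_num
  rw [h2]
  have h5 : (8 * C0 * (256 * (v0 : ℝ) ^ (4 / 3 : ℝ))) * κ ^ 4 ≤ e * κ ^ 4 := by
    calc (8 * C0 * (256 * (v0 : ℝ) ^ (4 / 3 : ℝ))) * κ ^ 4
        = 2048 * C0 * ((v0 : ℝ) ^ (4 / 3 : ℝ) * κ ^ 4) := by ring
      _ ≤ 2048 * C0 * (14 * C * K ^ 2 * κ ^ 3 * e) :=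
          mul_le_mul_of_nonneg_left (h1.trans h4) (by positivity)
      _ = (28672 * C0 * C * K ^ 2) * (κ ^ 3 * e) := by ring
      _ ≤ (28672 * C0 * C ^ 2 * K ^ 2) * (κ ^ 3 * e) := by
          have : C ≤ C ^ 2 := by nlinarith
          gcongr
      _ ≤ κ * (κ ^ 3 * e) := by gcongr
      _ = e * κ ^ 4 := by ring
  exact le_of_mul_le_mul_right h5 (by positivity)

theorem floor_card {K lam : ℝ} {g1 g2 b : ℝ} (hK : 2 ≤ K) (hb : 0 ≤ b) (hg : 0 ≤ g2)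
    (h1 : lam ^ 2 ≤ 2 * K * g1) (h2 : b * (4 * K ^ 2) ≤ lam ^ 2) (h4 : g2 + b = g1) :
    lam ^ 2 ≤ 4 * K * g2 := by
  have h6 : 0 ≤ (K * b) * (K - 2) := mul_nonneg (mul_nonneg (by linarith) hb) (by linarith)
  have h7 : 8 * (K * b) ≤ lam ^ 2 := by
    calc 8 * (K * b) ≤ b * (4 * K ^ 2) := by linarith
      _ ≤ lam ^ 2 := h2
  rw [← h4] at h1
  have h9 : 0 ≤ K * g2 := by positivity
  linarith

/-- the pure counting part of the windows. -/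
theorem pick_windows2 {C C0 K lam a : ℝ} (hC : 1 ≤ C) (hC0 : 1 ≤ C0) (hK : 2 ≤ K)
    (ha : 0 < a)
    {κ : ℝ} (hκ : κ = 28672 * C0 * C ^ 2 * K ^ 2) (R : Finset ℕ) (Vj Ej wj Sj : ℕ → ℕ) (v0 : ℕ)
    (hv1 : 1 ≤ v0) (hv0 : (v0 : ℝ) ≤ a / κ ^ 3) (hl : 1 ≤ lam)
    (hV : ∀ j ∈ R, Vj j ≤ v0) (hE : ∀ j ∈ R, (Ej j : ℝ) ≤ a ^ (4 / 3 : ℝ))
    (dey : ∀ j ∈ R, (Ej j : ℝ) ≤ C * ((wj j : ℝ) * (wj j + Vj j)) ^ (2 / 3 : ℝ))
    (rank : ∀ j ∈ R, 8 * (Vj j + 1) ≤ wj j → wj j ^ 2 ≤ 64 * Sj j)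
    (hS : ((∑ j ∈ R, Sj j : ℕ) : ℝ) ≤ (lam * a) ^ 2)
    (hR : (#R : ℝ) ≤ 7 * C * K * κ ^ 3 * lam ^ 2)
    (hsum : lam ^ 2 * a ^ (4 / 3 : ℝ) ≤ K * ((∑ j ∈ R, Ej j : ℕ) : ℝ)) :
    ∃ G ⊆ R, lam ^ 2 ≤ 4 * K * (#G : ℝ) ∧ ∀ j ∈ G, 8 * (Vj j + 1) ≤ wj j ∧
      wj j ^ 2 ≤ 64 * Sj j ∧ (wj j : ℝ) ≤ 16 * K * a ∧ a ≤ 28 * C ^ 2 * K ^ 2 * κ ^ 3 * wj j ∧
      (wj j : ℝ) ^ (4 / 3 : ℝ) ≤ 3584 * C * K ^ 4 * κ ^ 3 * Ej j ∧
      8 * C0 * ((64 * v0 : ℕ) : ℝ) ^ (4 / 3 : ℝ) ≤ Ej j := by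
  classical
  have hκ0 : 0 < κ := by rw [hκ]; positivity
  have hCK : 1 ≤ C ^ 2 * K ^ 2 :=
    one_le_mul_of_one_le_of_one_le (one_le_pow₀ hC) (one_le_pow₀ (by linarith))
  have hCK0 : 1 ≤ C0 * (C ^ 2 * K ^ 2) := one_le_mul_of_one_le_of_one_le hC0 hCK
  have hκ1 : 1 ≤ κ := by
    rw [hκ]
    linarith
  have hκ603 : 603 * C ^ 2 * K ^ 2 ≤ κ := by
    have : C ^ 2 * K ^ 2 ≤ C0 * (C ^ 2 * K ^ 2) := le_mul_of_one_le_left (by positivity) hC0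
    rw [hκ]
    linarith
  have hap : 0 < a ^ (4 / 3 : ℝ) := Real.rpow_pos_of_pos ha _
  set E : ℝ := ((∑ j ∈ R, Ej j : ℕ) : ℝ) with hEdef
  have hEpos : 0 < E := by
    by_contra hc
    push Not at hc
    have : 0 < lam ^ 2 * a ^ (4 / 3 : ℝ) := by positivity
    nlinarith
  have hEsum : E = ∑ j ∈ R, (Ej j : ℝ) := by rw [hEdef]; push_cast; rfl
  have hRne : R.Nonempty := by
    rw [nonempty_iff_ne_empty]
    rintro rfl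
    simp [hEsum] at hEpos
  set G1 : Finset ℕ := {j ∈ R | (∑ j ∈ R, (Ej j : ℝ)) ≤ 2 * #R * (Ej j : ℝ)} with hG1
  have hhalf : E / 2 ≤ ∑ j ∈ G1, (Ej j : ℝ) := by
    rw [hEsum]
    exact rich_half R Ej hRne
  have hG1card : lam ^ 2 ≤ 2 * K * #G1 := by
    have h1 : ∑ j ∈ G1, (Ej j : ℝ) ≤ #G1 * a ^ (4 / 3 : ℝ) := by
      rw [← nsmul_eq_mul, ← sum_const]
      exact sum_le_sum fun j hj => hE j (mem_filter.1 hj).1
    have h2 : lam ^ 2 * a ^ (4 / 3 : ℝ) ≤ (2 * K * #G1) * a ^ (4 / 3 : ℝ) := by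
      nlinarith
    exact le_of_mul_le_mul_right h2 hap
  -- the least number of edges
  have hmin : ∀ j ∈ G1, a ^ (4 / 3 : ℝ) ≤ 14 * C * K ^ 2 * κ ^ 3 * Ej j := by
    intro j hj
    have h1 : E ≤ 2 * #R * (Ej j : ℝ) := by
      rw [hEsum]
      exact (mem_filter.1 hj).2
    have h2 : lam ^ 2 * a ^ (4 / 3 : ℝ) ≤ K * (2 * (7 * C * K * κ ^ 3 * lam ^ 2) * Ej j) := by
      refine hsum.trans (mul_le_mul_of_nonneg_left (h1.trans ?_) (by linarith))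
      gcongr
    have h3 : a ^ (4 / 3 : ℝ) * lam ^ 2 ≤ (14 * C * K ^ 2 * κ ^ 3 * Ej j) * lam ^ 2 := by
      linarith
    exact le_of_mul_le_mul_right h3 (by positivity)
  -- boundary
  have hbd : ∀ j ∈ G1, 8 * (Vj j + 1) ≤ wj j := by
    intro j hj
    by_contra hc
    push Not at hc
    have hjR := (mem_filter.1 hj).1
    have h1 := arith_small (C := C) (a := a) (κ := κ) hC ha hκ0 hv1 hv0 (hV j hjR) hc
    have h2 := dey j hjR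
    have h3 : (Ej j : ℝ) * κ ^ 4 ≤ 43 * C * a ^ (4 / 3 : ℝ) :=
      (mul_le_mul_of_nonneg_right h2 (by positivity)).trans h1
    exact no_small2 hC hK hκ603 hap h3 (hmin j hj)
  have hsw : ∀ j ∈ G1, wj j ^ 2 ≤ 64 * Sj j := fun j hj =>
    rank j (mem_filter.1 hj).1 (hbd j hj)
  set G2 : Finset ℕ := {j ∈ G1 | (wj j : ℝ) ≤ 16 * K * a} with hG2
  have hG2sub : G2 ⊆ G1 := filter_subset _ _
  refine ⟨G2, hG2sub.trans (filter_subset _ _), ?_, ?_⟩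
  · have h2 := few_large hK ha R G1 (filter_subset _ _) wj Sj hsw hS
    have h4 : (#G2 : ℝ) + #{j ∈ G1 | ¬ ((wj j : ℝ) ≤ 16 * K * a)} = #G1 := by
      exact_mod_cast card_filter_add_card_filter_not (s := G1)
        (fun j => (wj j : ℝ) ≤ 16 * K * a)
    exact floor_card hK (by positivity) (by positivity) hG1card h2 h4
  · intro j hj
    have hj1 : j ∈ G1 := hG2sub hj
    have hjR := (mem_filter.1 hj1).1
    have hw : (wj j : ℝ) ≤ 16 * K * a := (mem_filter.1 hj).2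
    have hb := hbd j hj1
    refine ⟨hb, hsw j hj1, hw, ?_, ?_, ?_⟩
    · have h1 := (dey j hjR).trans (arith_large hC (show Vj j ≤ wj j by omega))
      have h2 := hmin j hj1
      have h3 : a ^ (4 / 3 : ℝ)
          ≤ (28 * C ^ 2 * K ^ 2 * κ ^ 3) * (wj j : ℝ) ^ (4 / 3 : ℝ) := by
        calc a ^ (4 / 3 : ℝ) ≤ 14 * C * K ^ 2 * κ ^ 3 * Ej j := h2
          _ ≤ 14 * C * K ^ 2 * κ ^ 3 * (2 * C * (wj j : ℝ) ^ (4 / 3 : ℝ)) := by gcongr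
          _ = _ := by ring
      refine arith_inv ha.le (by positivity) ?_ h3
      have e3 : (1 : ℝ) ≤ κ ^ 3 := one_le_pow₀ hκ1
      have e5 : 1 ≤ C ^ 2 * K ^ 2 * κ ^ 3 := one_le_mul_of_one_le_of_one_le hCK e3
      linarith
    · have h1 := arith_fwd ha.le (Nat.cast_nonneg (wj j)) (show 1 ≤ 16 * K by linarith) hw
      have h2 := hmin j hj1
      calc (wj j : ℝ) ^ (4 / 3 : ℝ) ≤ (16 * K) ^ 2 * a ^ (4 / 3 : ℝ) := h1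
        _ ≤ (16 * K) ^ 2 * (14 * C * K ^ 2 * κ ^ 3 * Ej j) := by gcongr
        _ = _ := by ring
    · exact s0_bound hC hC0 hκ.ge hK ha hv0 (hmin j hj1)

/-- comparison of all the constants with one power of `K`. -/
theorem arith_const2 (C C0 : ℝ) : ∃ A : ℕ, ∀ K : ℝ, 2 ≤ K →
    3584 * C ^ 2 * K ^ 4 * (28672 * C0 * C ^ 2 * K ^ 2) ^ 3 ≤ K ^ A := by
  obtain ⟨B, hB⟩ := pow_unbounded_of_one_lt (3584 * 28672 ^ 3 * C0 ^ 3 * C ^ 8)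
    (show (1 : ℝ) < 2 by norm_num)
  refine ⟨B + 10, fun K hK => ?_⟩
  have h1 : (2 : ℝ) ^ B ≤ K ^ B := pow_le_pow_left₀ (by norm_num) hK B
  have h2 : 0 < K ^ 10 := by positivity
  calc 3584 * C ^ 2 * K ^ 4 * (28672 * C0 * C ^ 2 * K ^ 2) ^ 3
      = (3584 * 28672 ^ 3 * C0 ^ 3 * C ^ 8) * K ^ 10 := by ring
    _ ≤ K ^ B * K ^ 10 := mul_le_mul_of_nonneg_right (hB.le.trans h1) h2.le
    _ = K ^ (B + 10) := (pow_add K B 10).symm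

/-- comparison of constants -/
theorem consts {C C0 K κ X : ℝ} (hC : 1 ≤ C) (hC0 : 1 ≤ C0) (hK : 2 ≤ K)
    (hκ : κ = 28672 * C0 * C ^ 2 * K ^ 2)
    (hX : 3584 * C ^ 2 * K ^ 4 * κ ^ 3 ≤ X) :
    1 ≤ κ ∧ 4 * K ≤ X ∧ 7 * C * K * κ ^ 3 ≤ X ∧ 16 * K ≤ X ∧ 28 * C ^ 2 * K ^ 2 * κ ^ 3 ≤ X ∧
      3584 * C * K ^ 4 * κ ^ 3 ≤ X ∧ 2 * κ ^ 3 ≤ X := by
  have hCK : 1 ≤ C0 * (C ^ 2 * K ^ 2) :=
    one_le_mul_of_one_le_of_one_le hC0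
      (one_le_mul_of_one_le_of_one_le (one_le_pow₀ hC) (one_le_pow₀ (by linarith)))
  have hκ1 : 1 ≤ κ := by
    rw [hκ]
    linarith
  have hK3 : 1 ≤ κ ^ 3 := one_le_pow₀ hκ1
  have hC2 : 1 ≤ C ^ 2 := one_le_pow₀ hC
  have hCC : C ≤ C ^ 2 := by nlinarith
  have hK4 : 1 ≤ K ^ 4 := one_le_pow₀ (by linarith)
  have hKK4 : K ≤ K ^ 4 := by
    calc K = K ^ 1 := (pow_one K).symm
      _ ≤ K ^ 4 := pow_le_pow_right₀ (by linarith) (by norm_num)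
  have hKK2 : K ^ 2 ≤ K ^ 4 := pow_le_pow_right₀ (by linarith) (by norm_num)
  refine ⟨hκ1, ?_, ?_, ?_, ?_, ?_, ?_⟩
  · calc 4 * K = 4 * 1 * K * 1 := by ring
      _ ≤ 3584 * C ^ 2 * K ^ 4 * κ ^ 3 := by gcongr; norm_num
      _ ≤ X := hX
  · calc 7 * C * K * κ ^ 3 ≤ 3584 * C ^ 2 * K ^ 4 * κ ^ 3 := by gcongr; norm_num
      _ ≤ X := hX
  · calc 16 * K = 16 * 1 * K * 1 := by ring
      _ ≤ 3584 * C ^ 2 * K ^ 4 * κ ^ 3 := by gcongr; norm_num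
      _ ≤ X := hX
  · calc 28 * C ^ 2 * K ^ 2 * κ ^ 3 ≤ 3584 * C ^ 2 * K ^ 4 * κ ^ 3 := by gcongr; norm_num
      _ ≤ X := hX
  · calc 3584 * C * K ^ 4 * κ ^ 3 ≤ 3584 * C ^ 2 * K ^ 4 * κ ^ 3 := by gcongr
      _ ≤ X := hX
  · calc 2 * κ ^ 3 = 2 * 1 * 1 * κ ^ 3 := by ring
      _ ≤ 3584 * C ^ 2 * K ^ 4 * κ ^ 3 := by gcongr; norm_num
      _ ≤ X := hX

/-- number of windows -/
theorem num_windows {C K κ lam a V E v e : ℝ} {r : ℕ} (hC : 1 ≤ C) (hK : 2 ≤ K) (hκ1 : 1 ≤ κ)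
    (hl : 1 ≤ lam) (ha : 0 < a) (hV : V ≤ K * lam ^ 2 * a)
    (hE : E ≤ 2 * C * K * lam ^ 2 * a ^ (4 / 3 : ℝ)) (hv : a / κ ^ 3 / 2 ≤ v)
    (he : a ^ (4 / 3 : ℝ) / 2 ≤ e) (hr : (r : ℝ) ≤ V / v + E / e + 1) :
    (r : ℝ) ≤ 7 * C * K * κ ^ 3 * lam ^ 2 := by
  have hap : 0 < a ^ (4 / 3 : ℝ) := Real.rpow_pos_of_pos ha _
  have hκ0 : 0 < κ := by linarith
  have hK3 : 1 ≤ κ ^ 3 := one_le_pow₀ hκ1
  have hlam2 : 1 ≤ lam ^ 2 := one_le_pow₀ hl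
  have hv4 : 0 < v := lt_of_lt_of_le (by positivity) hv
  have he4 : 0 < e := lt_of_lt_of_le (by positivity) he
  have h1 : V / v ≤ 2 * K * κ ^ 3 * lam ^ 2 := by
    rw [div_le_iff₀ hv4]
    calc V ≤ K * lam ^ 2 * a := hV
      _ = 2 * K * κ ^ 3 * lam ^ 2 * (a / κ ^ 3 / 2) := by field_simp
      _ ≤ 2 * K * κ ^ 3 * lam ^ 2 * v := by gcongr
  have h2 : E / e ≤ 4 * C * K * lam ^ 2 := by
    rw [div_le_iff₀ he4]
    calc E ≤ 2 * C * K * lam ^ 2 * a ^ (4 / 3 : ℝ) := hE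
      _ = 4 * C * K * lam ^ 2 * (a ^ (4 / 3 : ℝ) / 2) := by ring
      _ ≤ 4 * C * K * lam ^ 2 * e := by gcongr
  have h4 : 2 * K * κ ^ 3 * lam ^ 2 ≤ 2 * (C * K * κ ^ 3 * lam ^ 2) := by
    have : 1 * (K * κ ^ 3 * lam ^ 2) ≤ C * (K * κ ^ 3 * lam ^ 2) := by gcongr
    linarith
  have h5 : 4 * C * K * lam ^ 2 ≤ 4 * (C * K * κ ^ 3 * lam ^ 2) := by
    have : C * K * 1 * lam ^ 2 ≤ C * K * κ ^ 3 * lam ^ 2 := by gcongr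
    linarith
  have h6 : 1 ≤ C * K * κ ^ 3 * lam ^ 2 :=
    one_le_mul_of_one_le_of_one_le (one_le_mul_of_one_le_of_one_le
      (one_le_mul_of_one_le_of_one_le hC (by linarith)) hK3) hlam2
  linarith

end Out2266

open Win266 Out2266 in
/-- **WINDOWS**, form with `s0`. -/
theorem windows2 (hDey : StDey) (hRank : StRank) (C0 : ℝ) (hC0 : 1 ≤ C0) :
    ∃ A : ℕ, ∀ (K lam : ℝ) (P : Finset Pt) (k : ℕ)
    (Q : Finset Pt), Good P → Q ⊆ P → 2 ≤ K → 1 ≤ lam → K ^ A ≤ #Q / lam →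
    (#(EdBd P k Q Set.univ) : ℝ) ≤ K * lam ^ 2 * (#Q / lam) →
    lam ^ 2 * (#Q / lam) ^ (4 / 3 : ℝ) ≤ K * #(EdIn P k Q Set.univ) →
    ∃ (s0 : ℕ) (W : Finset ℕ) (I : ℕ → Set ℝ) (T : ℕ → Finset Pt),
      ((∀ w ∈ W, (I w).OrdConnected) ∧
      (∀ w ∈ W, ∀ w' ∈ W, w ≠ w' → Disjoint (I w) (I w')) ∧
      (#W : ℝ) ≤ K ^ A * lam ^ 2 ∧
      lam ^ 2 ≤ K ^ A * #W ∧
      (∀ w ∈ W, T w ⊆ Q) ∧
      (∀ w ∈ W, T w = Tch P k Q (I w)) ∧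
      (∀ w ∈ W, 8 * (#(EdBd P k Q (I w)) + 1) ≤ #(T w)) ∧
      (∀ w ∈ W, lam * #(T w) ≤ K ^ A * #Q) ∧
      (∀ w ∈ W, (#Q : ℝ) ≤ K ^ A * lam * #(T w)) ∧
      (∀ w ∈ W, (#(T w) : ℝ) ^ (4 / 3 : ℝ) ≤ K ^ A * #(EdIn P k Q (I w))) ∧
      (∀ w ∈ W, (#(T w)) ^ 2 ≤ 64 * #(Sw (T w) (I w)))) ∧
      (#Q : ℝ) ≤ K ^ A * lam * s0 ∧ lam * s0 ≤ #Q ∧
      (∀ w ∈ W, 32 * (#(EdBd P k Q (I w)) + 1) ≤ s0) ∧
      (∀ w ∈ W, 8 * C0 * (s0 : ℝ) ^ (4 / 3 : ℝ) ≤ #(EdIn P k Q (I w))) ∧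
      (∀ w ∈ W, (#(EdIn P k Q (I w)) : ℝ) ≤ (#Q / lam) ^ (4 / 3 : ℝ)) := by
  classical
  obtain ⟨C₀, hC₀, dey₀⟩ := hDey
  obtain ⟨C, hCdef⟩ : ∃ C : ℝ, C = max C₀ 1 := ⟨_, rfl⟩
  have hC : 1 ≤ C := hCdef ▸ le_max_right _ _
  have dey : ∀ (P : Finset Pt) (k : ℕ) (Q : Finset Pt) (I : Set ℝ), Good P → Q ⊆ P →
      I.OrdConnected → (#(EdIn P k Q I) : ℝ) ≤ C *
        ((#(Tch P k Q I) : ℝ) * (#(Tch P k Q I) + #(EdBd P k Q I))) ^ (2 / 3 : ℝ) :=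
    fun P k Q I h1 h2 h3 => (dey₀ P k Q I h1 h2 h3).trans
      (mul_le_mul_of_nonneg_right (hCdef ▸ le_max_left _ _) (by positivity))
  obtain ⟨A, hA⟩ := arith_const2 C C0
  refine ⟨A, fun K lam P k Q hP hQ hK hl hKA hV hE => ?_⟩
  have hX := hA K hK
  obtain ⟨κ, hκ⟩ : ∃ κ : ℝ, κ = 28672 * C0 * C ^ 2 * K ^ 2 := ⟨_, rfl⟩
  obtain ⟨X, hXdef⟩ : ∃ X : ℝ, X = K ^ A := ⟨_, rfl⟩
  obtain ⟨a, ha⟩ : ∃ a : ℝ, a = (#Q : ℝ) / lam := ⟨_, rfl⟩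
  rw [← hκ, ← hXdef] at hX
  rw [← hXdef, ← ha] at hKA
  rw [← ha] at hV hE
  rw [← hXdef, ← ha]
  have hlam0 : 0 < lam := by linarith
  have hN : lam * a = #Q := by rw [ha]; field_simp
  obtain ⟨hκ1, hX1, hX2, hX3, hX4, hX5, hX6⟩ := consts hC hC0 hK hκ hX
  have hκ0 : 0 < κ := by linarith
  have ha0 : 0 < a := by linarith
  have ha1 : 1 ≤ a := by linarith
  have hap1 : 1 ≤ a ^ (4 / 3 : ℝ) := Real.one_le_rpow ha1 (by norm_num)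
  -- the parameters
  obtain ⟨v0, hv0⟩ : ∃ v0 : ℕ, v0 = ⌊a / κ ^ 3⌋₊ := ⟨_, rfl⟩
  obtain ⟨e0, he0⟩ : ∃ e0 : ℕ, e0 = ⌊a ^ (4 / 3 : ℝ)⌋₊ := ⟨_, rfl⟩
  have hak : 1 ≤ a / κ ^ 3 := by
    rw [le_div_iff₀ (by positivity)]
    linarith
  have hv1 : 1 ≤ v0 := hv0 ▸ Nat.floor_pos.2 hak
  have he1 : 1 ≤ e0 := he0 ▸ Nat.floor_pos.2 hap1
  have hv2 : (v0 : ℝ) ≤ a / κ ^ 3 := hv0 ▸ Nat.floor_le (by positivity)
  have he2 : (e0 : ℝ) ≤ a ^ (4 / 3 : ℝ) := he0 ▸ Nat.floor_le (by positivity)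
  have hv3 : a / κ ^ 3 / 2 ≤ (v0 : ℝ) := hv0 ▸ half_le_floor hak
  have he3 : a ^ (4 / 3 : ℝ) / 2 ≤ (e0 : ℝ) := he0 ▸ half_le_floor hap1
  obtain ⟨S1, hS1⟩ : ∃ S1, S1 = EdBd P k Q Set.univ := ⟨_, rfl⟩
  obtain ⟨S2, hS2⟩ : ∃ S2, S2 = EdIn P k Q Set.univ := ⟨_, rfl⟩
  have hup : (#S2 : ℝ) ≤ 2 * C * K * lam ^ 2 * a ^ (4 / 3 : ℝ) := by
    rw [hS2]
    refine (dey P k Q Set.univ hP hQ Set.ordConnected_univ).trans ?_
    refine arith_E hC hK hl ha0.le (by positivity) ?_ (by positivity) hV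
    rw [hN]
    exact_mod_cast card_le_card Tch_sub
  obtain ⟨r, hr⟩ : ∃ r : ℕ, r = ⌊(#S1 : ℝ) / v0 + (#S2 : ℝ) / e0⌋₊ + 1 := ⟨_, rfl⟩
  have hrF : ∀ m, ⌊Fw S1 S2 v0 e0 m⌋₊ < r := fun m => hr ▸
    Nat.lt_succ_of_le (Nat.floor_le_floor (Fw_le S1 S2 v0 e0 m))
  have hrcard : (r : ℝ) ≤ 7 * C * K * κ ^ 3 * lam ^ 2 := by
    refine num_windows hC hK hκ1 hl ha0 (hS1 ▸ hV) hup hv3 he3 ?_
    rw [hr]
    push_cast
    have := Nat.floor_le (show 0 ≤ (#S1 : ℝ) / v0 + (#S2 : ℝ) / e0 by positivity)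
    linarith
  have hcE : ∀ j, (#(EdIn P k Q (Iw S1 S2 v0 e0 j)) : ℝ) ≤ a ^ (4 / 3 : ℝ) := fun j => by
    rw [hS1, hS2]
    exact le_trans (by exact_mod_cast card_Iw2 hP Q v0 e0 he1 j) he2
  have hcV : ∀ j, #(EdBd P k Q (Iw S1 S2 v0 e0 j)) ≤ v0 := fun j => by
    rw [hS1, hS2]
    exact card_Iw1 hP Q v0 e0 hv1 j
  obtain ⟨G, hGR, hG1, hG2⟩ := pick_windows2 (C := C) (C0 := C0) (K := K) (lam := lam) (a := a)
    hC hC0 hK ha0 hκ (range r) (fun j => #(EdBd P k Q (Iw S1 S2 v0 e0 j)))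
    (fun j => #(EdIn P k Q (Iw S1 S2 v0 e0 j)))
    (fun j => #(Tch P k Q (Iw S1 S2 v0 e0 j)))
    (fun j => #(Sw (Tch P k Q (Iw S1 S2 v0 e0 j)) (Iw S1 S2 v0 e0 j))) v0 hv1 hv2 hl
    (fun j _ => hcV j) (fun j _ => hcE j)
    (fun j _ => dey P k Q _ hP hQ (Iw_conn _ _ _ _ j))
    (fun j _ h => hRank P k Q _ hP hQ (Iw_conn _ _ _ _ j) h)
    (by rw [hN]; exact_mod_cast sum_Sw Q S1 S2 v0 e0 r hrF)
    (by rw [card_range]; exact hrcard)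
    (by rw [sum_Iw Q S1 S2 v0 e0 r hrF]; exact hE)
  refine ⟨64 * v0, G, Iw S1 S2 v0 e0, fun j => Tch P k Q (Iw S1 S2 v0 e0 j),
    ⟨fun j _ => Iw_conn _ _ _ _ j, fun i _ j _ hij => Iw_disj _ _ _ _ hij, ?_, ?_,
    fun j _ => Tch_sub, fun j _ => rfl, fun j hj => (hG2 j hj).1, ?_, ?_, ?_,
    fun j hj => (hG2 j hj).2.1⟩, ?_, ?_, ?_, fun j hj => (hG2 j hj).2.2.2.2.2,
    fun j _ => hcE j⟩
  · have h1 : (#G : ℝ) ≤ r := by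
      have := card_le_card hGR
      rw [card_range] at this
      exact_mod_cast this
    calc (#G : ℝ) ≤ 7 * C * K * κ ^ 3 * lam ^ 2 := h1.trans hrcard
      _ ≤ X * lam ^ 2 := by gcongr
  · exact hG1.trans (by gcongr)
  · intro j hj
    have h1 := (hG2 j hj).2.2.1
    calc lam * (#(Tch P k Q (Iw S1 S2 v0 e0 j)) : ℝ) ≤ lam * (16 * K * a) := by gcongr
      _ = 16 * K * (lam * a) := by ring
      _ ≤ X * (lam * a) := by gcongr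
      _ = X * #Q := by rw [hN]
  · intro j hj
    have h1 := (hG2 j hj).2.2.2.1
    calc (#Q : ℝ) = lam * a := hN.symm
      _ ≤ lam * (28 * C ^ 2 * K ^ 2 * κ ^ 3 * #(Tch P k Q (Iw S1 S2 v0 e0 j))) := by gcongr
      _ ≤ lam * (X * #(Tch P k Q (Iw S1 S2 v0 e0 j))) := by gcongr
      _ = _ := by ring
  · intro j hj
    exact ((hG2 j hj).2.2.2.2.1).trans (by gcongr)
  · have h1 : a ≤ 2 * κ ^ 3 * v0 := by
      calc a = 2 * κ ^ 3 * (a / κ ^ 3 / 2) := by field_simp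
        _ ≤ 2 * κ ^ 3 * v0 := by gcongr
    rw [← hN]
    push_cast
    have h3 : (0 : ℝ) ≤ v0 := by positivity
    calc lam * a ≤ lam * (2 * κ ^ 3 * v0) := by gcongr
      _ ≤ lam * (X * v0) := by gcongr
      _ ≤ lam * (X * (64 * v0)) := by
          have : X * (v0 : ℝ) ≤ X * (64 * v0) :=
            mul_le_mul_of_nonneg_left (by linarith) (by linarith)
          gcongr
      _ = X * lam * (64 * v0) := by ring
  · rw [← hN]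
    push_cast
    have h1 : (64 : ℝ) * v0 ≤ a := by
      have h2 : (v0 : ℝ) * κ ^ 3 ≤ a := by rwa [le_div_iff₀ (by positivity)] at hv2
      have h3 : (64 : ℝ) ≤ κ ^ 3 := by
        have h4 : 64 ≤ κ := by
          have : 1 ≤ C0 * (C ^ 2 * K ^ 2) :=
            one_le_mul_of_one_le_of_one_le hC0
              (one_le_mul_of_one_le_of_one_le (one_le_pow₀ hC) (one_le_pow₀ (by linarith)))
          rw [hκ]
          linarith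
        calc (64 : ℝ) ≤ κ := h4
          _ = κ ^ 1 := (pow_one κ).symm
          _ ≤ κ ^ 3 := pow_le_pow_right₀ hκ1 (by norm_num)
      calc (64 : ℝ) * v0 ≤ κ ^ 3 * v0 := by gcongr
        _ = v0 * κ ^ 3 := by ring
        _ ≤ a := h2
    gcongr
  · intro j _
    have := hcV j
    omega

/-- **OUT2** is a theorem -/
theorem stOut2 : StOut2 := by
  classical
  intro C0 hC0
  obtain ⟨C1, hC1, pick⟩ := stPick
  obtain ⟨A, win⟩ := windows2 stDey stRank C0 hC0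
  obtain ⟨C, hC⟩ : ∃ C : ℝ, C = (A + 1) * C1 := ⟨_, rfl⟩
  have hA0 : (0 : ℝ) ≤ A := Nat.cast_nonneg A
  have hCpos : 0 < C := by rw [hC]; positivity
  have hCC1 : C1 ≤ C := by rw [hC]; nlinarith
  have hCA : A * C1 ≤ C := by rw [hC]; nlinarith
  refine ⟨C, hCpos, fun ε hε hεC => ?_⟩
  have hε1 : ε < 1 / C1 := hεC.trans_le (one_div_le_one_div_of_le hC1 hCC1)
  obtain ⟨n₁, hn₁⟩ := pick ε hε hε1
  obtain ⟨n₂, hn₂1, hn₂⟩ := Win266.exists_two_le (mul_pos hC1 hε)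
  refine ⟨max n₁ n₂, fun P k hP hn hEd lam hl1 hl2 => ?_⟩
  have hn1 : n₁ ≤ #P := (le_max_left _ _).trans hn
  have hn2 : n₂ ≤ #P := (le_max_right _ _).trans hn
  have hn1' : 1 ≤ #P := hn₂1.trans hn2
  have hn1R' : (1 : ℝ) ≤ #P := by exact_mod_cast hn1'
  have hK2' := hn₂ _ hn2
  have hfix := hn₁ P k hP hn1 hEd lam
  obtain ⟨n, hndef⟩ : ∃ n : ℝ, n = (#P : ℝ) := ⟨_, rfl⟩
  rw [← hndef] at hn1R' hK2' hfix hl1 hl2
  rw [← hndef]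
  have hn1R : 1 ≤ n := hn1R'
  have hn0 : 0 < n := by linarith
  have hmono : ∀ {x y : ℝ}, x ≤ y → n ^ x ≤ n ^ y := fun h =>
    Real.rpow_le_rpow_of_exponent_le hn1R h
  have hCε : C1 * ε ≤ C * ε := mul_le_mul_of_nonneg_right hCC1 hε.le
  have hKK : n ^ (C1 * ε) ≤ n ^ (C * ε) := hmono hCε
  have hKA : (n ^ (C1 * ε)) ^ A ≤ n ^ (C * ε) := by
    rw [← Real.rpow_natCast, ← Real.rpow_mul hn0.le]
    refine hmono ?_
    have := mul_le_mul_of_nonneg_right hCA hε.le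
    linarith
  have hK2 : 2 ≤ n ^ (C1 * ε) := hK2'
  have hlamK : n ^ (C1 * ε) ≤ lam := hKK.trans hl1
  have hlam1 : 1 ≤ lam := by linarith
  have hlam0 : 0 < lam := by linarith
  obtain ⟨Q, hQ, q1, q2, q3, q4⟩ := hfix hlamK (hl2.trans (hmono (by linarith)))
  have hbig : (n ^ (C1 * ε)) ^ A ≤ #Q / lam := by
    rw [le_div_iff₀ hlam0]
    have h1 : (n ^ (C1 * ε)) ^ A * lam * (n ^ (C1 * ε) * lam ^ 2)
        ≤ #Q * (n ^ (C1 * ε) * lam ^ 2) := by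
      calc (n ^ (C1 * ε)) ^ A * lam * (n ^ (C1 * ε) * lam ^ 2)
          = (n ^ (C1 * ε)) ^ (A + 1) * lam ^ 3 := by ring
        _ ≤ n ^ (C * ε) * (n ^ (1 / 4 - C * ε)) ^ 3 := by
            gcongr
            rw [← Real.rpow_natCast, ← Real.rpow_mul hn0.le]
            refine hmono ?_
            rw [hC]
            push_cast
            linarith
        _ = n ^ (3 / 4 - 2 * (C * ε)) := by
            rw [← Real.rpow_natCast (n ^ (1 / 4 - C * ε)), ← Real.rpow_mul hn0.le,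
              ← Real.rpow_add hn0]
            congr 1
            push_cast
            ring
        _ ≤ n ^ (1 : ℝ) := hmono (by nlinarith [mul_pos hCpos hε])
        _ = n := Real.rpow_one n
        _ ≤ n ^ (C1 * ε) * lam ^ 2 * #Q := q2
        _ = #Q * (n ^ (C1 * ε) * lam ^ 2) := by ring
    exact le_of_mul_le_mul_right h1 (by positivity)
  obtain ⟨s0, W, I, T, ⟨w1, w2, w3, w4, w5, w6, w7, w8, w9, w10, w11⟩, w12, w13, w14, w15, w16⟩ :=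
    win (n ^ (C1 * ε)) lam P k Q hP hQ hK2 hlam1 hbig (q3.trans_eq (by field_simp)) q4
  refine ⟨s0, Q, W, I, T, ⟨⟨hQ, w1, w2, ?_, ?_, ?_, ?_, w5, w6, w7, ?_, ?_, ?_, w11⟩,
    ?_, w13, w14, w15, w16⟩⟩
  · rw [← hndef]
    exact q1.trans (by gcongr)
  · rw [← hndef]
    exact q2.trans (by gcongr)
  · exact w3.trans (by gcongr)
  · exact w4.trans (by gcongr)
  · exact fun w hw => (w8 w hw).trans (by gcongr)
  · exact fun w hw => (w9 w hw).trans (by gcongr)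
  · exact fun w hw => (w10 w hw).trans (by gcongr)
  · exact w12.trans (by gcongr)

end Vale.Agent.P065.UB
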