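import Vale.Agent.P065.UB.Rank

/-!
# P065, upper bound: most touched points have many swap partners (helper752)

`heavy`: all but `2 (#EdBd + 2 D)` points `x` of `T = Tch P k Q I` have at least `D` partners `u` in
`T` such that the slope of `x u` is in `I`.
-/

set_option autoImplicit false

namespace Vale.Agent.P065.UB.RankAux

open Finset

theorem mem_Par {T : Finset Pt} {I : Set ℝ} {u v : Pt} : u ∈ Par T I v ↔
    u ∈ T ∧ v ∈ T ∧ ((u.1 < v.1 ∧ sl u v ∈ I) ∨ (v.1 < u.1 ∧ sl v u ∈ I)) := by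
  classical
  unfold Par
  rw [Finset.mem_filter, mem_Sw, mem_Sw]
  tauto

theorem Par_subset {T : Finset Pt} {I : Set ℝ} {v : Pt} : Par T I v ⊆ T :=
  fun _ h => (mem_Par.1 h).1

theorem Par_symm {T : Finset Pt} {I : Set ℝ} {u v : Pt} : u ∈ Par T I v ↔ v ∈ Par T I u := by
  rw [mem_Par, mem_Par]; tauto

open Classical in
/-- **HEAVY**: all but `2 (V + 2 D)` touched points have at least `D` partners -/
theorem heavy {P : Finset Pt} (hP : Good P) {k : ℕ} {Q : Finset Pt} (hQ : Q ⊆ P) {I : Set ℝ}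
    (hI : I.OrdConnected) (D : ℕ) :
    #{x ∈ Tch P k Q I | #(Par (Tch P k Q I) I x) < D} ≤ 2 * (#(EdBd P k Q I) + 2 * D) := by
  set T := Tch P k Q I with hTdef
  set V := #(EdBd P k Q I) with hV
  have hTP : T ⊆ P := (Tch_subset P k Q I).trans hQ
  rcases T.eq_empty_or_nonempty with hTe | hTne
  · rw [hTe]; simp
  -- an edge of minimal rank
  obtain ⟨v0, hv0⟩ := hTne
  obtain ⟨_, e1, he1, _⟩ := mem_Tch.1 hv0
  obtain ⟨e0, he0, hmin⟩ := (EdIn P k Q I).exists_min_image (fun e => cT T e) ⟨e1, he1⟩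
  set c0 := cT T e0 with hc0
  set t0 := sl e0.1 e0.2 with ht0
  have ht0I : t0 ∈ I := by
    obtain ⟨p, q⟩ := e0
    exact (mem_EdIn.1 he0).2.2.2
  have hwin : ∀ e ∈ EdIn P k Q I, c0 ≤ cT T e ∧ cT T e ≤ c0 + V :=
    fun e he => ⟨hmin e he, window hP hQ hI he he0⟩
  -- the rank of a point at its own time
  have hown : ∀ v ∈ T, ∃ t ∈ I, c0 ≤ #(Bel T t v) ∧ #(Bel T t v) ≤ c0 + V := by
    intro v hv
    obtain ⟨_, ⟨p, q⟩, he, hpq⟩ := mem_Tch.1 hv
    have h1 := mem_EdIn.1 he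
    have hx := (mem_Ed.1 h1.1).2.2.1
    refine ⟨sl p q, h1.2.2.2, ?_⟩
    have hh : ht (sl p q) v = ht (sl p q) p := by
      rcases hpq with h | h
      · simp only at h; rw [h]
      · simp only at h; rw [← h]; exact ((ht_eq_iff hx _).2 rfl).symm
    have hB : #(Bel T (sl p q) v) = cT T (p, q) := by
      unfold Bel cT
      rw [hh]
    rw [hB]
    exact hwin _ he
  -- the bad set
  set N : Finset Pt := {v ∈ T | c0 < #(Bel T t0 v) + D ∧ #(Bel T t0 v) < c0 + V + D} with hN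
  have hNcard : #N ≤ 2 * (V + 2 * D) := by
    have h1 : #N ≤ 2 * #(N.image fun v => #(Bel T t0 v)) := by
      apply Finset.card_le_mul_card_image
      intro j _
      refine le_trans (Finset.card_le_card ?_) (card_rank_le hP hTP t0 j)
      intro v hv
      rw [Finset.mem_filter] at hv ⊢
      exact ⟨(Finset.mem_filter.1 hv.1).1, hv.2⟩
    have h2 : (N.image fun v => #(Bel T t0 v)) ⊆ Finset.Ico (c0 + 1 - D) (c0 + V + D) := by
      intro j hj
      obtain ⟨v, hv, rfl⟩ := Finset.mem_image.1 hj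
      have := (Finset.mem_filter.1 hv).2
      rw [Finset.mem_Ico]
      omega
    have h3 := Finset.card_le_card h2
    rw [Nat.card_Ico] at h3
    omega
  refine le_trans (Finset.card_le_card ?_) hNcard
  intro v hv
  obtain ⟨hvT, hvD⟩ := Finset.mem_filter.1 hv
  obtain ⟨t, htI, h1, h2⟩ := hown v hvT
  have s1 := shift hP hTP hI ht0I htI hvT
  have s2 := shift hP hTP hI htI ht0I hvT
  refine Finset.mem_filter.2 ⟨hvT, ?_, ?_⟩ <;> omega

end Vale.Agent.P065.UB.RankAux
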