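import Mathlib

/-!
# P065, upper bound, front end: definitions and exact statements (helper410)

`P` is a finite set of points of the plane with distinct abscissas, no three on a line.
The time is the slope `m`, `ht m v = y_v - m x_v` is the height of `v` at time `m`.
A `k`-edge is a pair `(p, q)`, `p` left of `q`, with exactly `k` points of `P` strictly below the
line `pq`.
-/

set_option autoImplicit false

namespace Vale.Agent.P065.UB

open Finset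

abbrev Pt := ℝ × ℝ

/-- slope of the line `pq` -/
noncomputable def sl (p q : Pt) : ℝ := (q.2 - p.2) / (q.1 - p.1)

/-- height of `p` in the direction `m` -/
def ht (m : ℝ) (p : Pt) : ℝ := p.2 - m * p.1

/-- distinct abscissas, no three points on a line -/
structure Good (P : Finset Pt) : Prop where
  xinj : ∀ p ∈ P, ∀ q ∈ P, p.1 = q.1 → p = q
  gen : ∀ m : ℝ, ∀ a ∈ P, ∀ b ∈ P, ∀ c ∈ P, a ≠ b → a ≠ c → b ≠ c →
    ht m a = ht m b → ht m a ≠ ht m c

open Classical in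
/-- the `k`-edges of `P` (exactly `k` points strictly below) -/
noncomputable def Ed (P : Finset Pt) (k : ℕ) : Finset (Pt × Pt) :=
  {e ∈ P ×ˢ P | e.1.1 < e.2.1 ∧
    #{v ∈ P | ht (sl e.1 e.2) v < ht (sl e.1 e.2) e.1} = k}

open Classical in
/-- the `k`-edges of `P` with slope in `I` and both ends in `Q` -/
noncomputable def EdIn (P : Finset Pt) (k : ℕ) (Q : Finset Pt) (I : Set ℝ) : Finset (Pt × Pt) :=
  {e ∈ Ed P k | e.1 ∈ Q ∧ e.2 ∈ Q ∧ sl e.1 e.2 ∈ I}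

open Classical in
/-- the `k`-edges of `P` with slope in `I` and exactly one end in `Q` -/
noncomputable def EdBd (P : Finset Pt) (k : ℕ) (Q : Finset Pt) (I : Set ℝ) : Finset (Pt × Pt) :=
  {e ∈ Ed P k | ((e.1 ∈ Q ∧ e.2 ∉ Q) ∨ (e.1 ∉ Q ∧ e.2 ∈ Q)) ∧ sl e.1 e.2 ∈ I}

open Classical in
/-- the points of `Q` touched by the `k`-edges inside `Q` with slope in `I` -/
noncomputable def Tch (P : Finset Pt) (k : ℕ) (Q : Finset Pt) (I : Set ℝ) : Finset Pt :=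
  {v ∈ Q | ∃ e ∈ EdIn P k Q I, e.1 = v ∨ e.2 = v}

open Classical in
/-- the pairs (left point first) of `T` with slope in `I` -/
noncomputable def Sw (T : Finset Pt) (I : Set ℝ) : Finset (Pt × Pt) :=
  {e ∈ T ×ˢ T | e.1.1 < e.2.1 ∧ sl e.1 e.2 ∈ I}

/-- **CELLS** (local form): a partition of the touched points into few small cells such that few
edges join different cells. `I` is an interval of slopes (order connected set). -/
def StCells : Prop :=
  ∀ (P : Finset Pt) (k : ℕ) (Q : Finset Pt) (I : Set ℝ), Good P → Q ⊆ P → I.OrdConnected →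
    ∀ B H N0 : ℕ, #(Tch P k Q I) + #(EdBd P k Q I) ≤ B → 1 ≤ H → 1 ≤ N0 →
    ∃ cell : Pt → ℕ × ℕ,
      (∀ c, #{v ∈ Tch P k Q I | cell v = c} ≤ N0) ∧
      #((Tch P k Q I).image cell) * H * N0 ≤ #(Tch P k Q I) * H + (B + 2 * H) * N0 ∧
      #{e ∈ EdIn P k Q I | cell e.1 ≠ cell e.2} * H * N0
        ≤ 100 * B ^ 2 * N0 + #(Tch P k Q I) * H ^ 2 + (B + 2 * H) * H * N0

/-- **DEY**, local form -/
def StDey : Prop :=
  ∃ C : ℝ, 0 < C ∧ ∀ (P : Finset Pt) (k : ℕ) (Q : Finset Pt) (I : Set ℝ), Good P → Q ⊆ P →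
    I.OrdConnected →
    (#(EdIn P k Q I) : ℝ) ≤ C *
      ((#(Tch P k Q I) : ℝ) * (#(Tch P k Q I) + #(EdBd P k Q I))) ^ (2 / 3 : ℝ)

/-- **RANK**: few changes of the cursor force many swaps of touched points -/
def StRank : Prop :=
  ∀ (P : Finset Pt) (k : ℕ) (Q : Finset Pt) (I : Set ℝ), Good P → Q ⊆ P → I.OrdConnected →
    8 * (#(EdBd P k Q I) + 1) ≤ #(Tch P k Q I) →
    #(Tch P k Q I) ^ 2 ≤ 64 * #(Sw (Tch P k Q I) I)

/-- the data produced by the front end: `N` points, disjoint intervals of slopes `I w`, sets `T w`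
of points such that a positive fraction of the pairs of `T w` has slope in `I w`. -/
structure Plane (lam K : ℝ) (P : Finset Pt) (k : ℕ) (Q : Finset Pt) {ι : Type} (W : Finset ι)
    (I : ι → Set ℝ) (T : ι → Finset Pt) : Prop where
  sub : Q ⊆ P
  conn : ∀ w ∈ W, (I w).OrdConnected
  disj : ∀ w ∈ W, ∀ w' ∈ W, w ≠ w' → Disjoint (I w) (I w')
  cardQ : lam ^ 2 * #Q ≤ K * #P
  cardQ' : (#P : ℝ) ≤ K * lam ^ 2 * #Q
  cardW : (#W : ℝ) ≤ K * lam ^ 2
  cardW' : lam ^ 2 ≤ K * #W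
  subT : ∀ w ∈ W, T w ⊆ Q
  tch : ∀ w ∈ W, T w = Tch P k Q (I w)
  bd : ∀ w ∈ W, 8 * (#(EdBd P k Q (I w)) + 1) ≤ #(T w)
  cardT : ∀ w ∈ W, lam * #(T w) ≤ K * #Q
  cardT' : ∀ w ∈ W, (#Q : ℝ) ≤ K * lam * #(T w)
  edges : ∀ w ∈ W, (#(T w) : ℝ) ^ (4 / 3 : ℝ) ≤ K * #(EdIn P k Q (I w))
  swaps : ∀ w ∈ W, (#(T w)) ^ 2 ≤ 64 * #(Sw (T w) (I w))

/-- **OUT1**: if `P` has at least `n ^ (4/3 - ε)` `k`-edges, then for every `L` in a range there is
a cell with the structure of a projective plane of order about `L`, up to `n ^ (C ε)`. -/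
def StOut1 : Prop :=
  ∃ C : ℝ, 0 < C ∧ ∀ ε : ℝ, 0 < ε → ε < 1 / C → ∃ n₀ : ℕ, ∀ (P : Finset Pt) (k : ℕ), Good P →
    n₀ ≤ #P → (#P : ℝ) ^ (4 / 3 - ε) ≤ #(Ed P k) →
    ∀ lam : ℝ, (#P : ℝ) ^ (C * ε) ≤ lam → lam ≤ (#P : ℝ) ^ (1 / 4 - C * ε) →
    ∃ (Q : Finset Pt) (W : Finset ℕ) (I : ℕ → Set ℝ) (T : ℕ → Finset Pt),
      Plane lam ((#P : ℝ) ^ (C * ε)) P k Q W I T

end Vale.Agent.P065.UB
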