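import Vale.Agent.P065.UB.Piece

/-!
# P065, upper bound, front end: crossings of pieces, exact statement (helper410)
-/

set_option autoImplicit false

namespace Vale.Agent.P065.UB

open Finset

/-- the pieces with roots `a` and `c` meet over the abscissa `z` -/
def Crs (P : Finset Pt) (k : ℕ) (Q : Finset Pt) (I : Set ℝ) (a c : Eg) (z : ℝ) : Prop :=
  ∃ e ∈ EdIn P k Q I, ∃ f ∈ EdIn P k Q I, root P k Q I e = a ∧ root P k Q I f = c ∧
    e.1.1 ≤ z ∧ z ≤ e.2.1 ∧ f.1.1 ≤ z ∧ z ≤ f.2.1 ∧ Ln e z = Ln f z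

/-- the number of crossings of different pieces (ordered pairs) -/
def StCross : Prop :=
  ∀ (P : Finset Pt) (k : ℕ) (Q : Finset Pt) (I : Set ℝ), Good P → Q ⊆ P → I.OrdConnected →
    ∀ Z : Eg → Eg → Finset ℝ,
      (∀ a ∈ Pcs P k Q I, ∀ c ∈ Pcs P k Q I, a ≠ c → ∀ z ∈ Z a c, Crs P k Q I a c z) →
      ∑ ac ∈ (Pcs P k Q I ×ˢ Pcs P k Q I).filter (fun ac => ac.1 ≠ ac.2), #(Z ac.1 ac.2)
        ≤ 2 * #(Pcs P k Q I) ^ 2 + #(Tch P k Q I) ^ 2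

end Vale.Agent.P065.UB
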