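import Vale.Agent.P065.UB.CrossDef

/-!
# P065, upper bound, front end: the number of crossings of pieces (helper410)
-/

set_option autoImplicit false

namespace Vale.Agent.P065.UB

open Finset

variable {P : Finset Pt} {k : ℕ} {Q : Finset Pt} {I : Set ℝ}

theorem ht_step {e : Eg} (he : e.1.1 < e.2.1) (t : ℝ) :
    ht t e.2 - ht t e.1 = (slE e - t) * (e.2.1 - e.1.1) := ht_sub (ne_of_lt he) t

theorem mono_before {e g : Eg} {t : ℝ} (h : Bf P k Q I e g) :
    slE g ≤ t → ht t g.2 ≤ ht t e.2 := by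
  induction h with
  | single h =>
    rename_i g
    intro ht'
    have h1 := ht_step (EdIn.lt h.2.1) t
    have h2 := EdIn.lt h.2.1
    rw [h.2.2.1]
    nlinarith
  | tail hab h ih =>
    rename_i b g
    intro ht'
    have h1 := ht_step (EdIn.lt h.2.1) t
    have h2 := EdIn.lt h.2.1
    have h3 := ih (le_trans h.2.2.2.1.le ht')
    rw [h.2.2.1] at h3
    nlinarith

theorem mono_after {e g : Eg} {t : ℝ} (h : Bf P k Q I g e)
    (ht' : ∀ g', NxE P k Q I g g' → t ≤ slE g') : ht t g.2 ≤ ht t e.2 ∧ t ≤ slE e := by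
  induction h with
  | single h =>
    rename_i e
    have h1 := ht_step (EdIn.lt h.2.1) t
    have h2 := EdIn.lt h.2.1
    have h3 := ht' _ h
    refine ⟨?_, h3⟩
    rw [h.2.2.1]
    nlinarith
  | tail hab h ih =>
    rename_i b e
    have h1 := ht_step (EdIn.lt h.2.1) t
    have h2 := EdIn.lt h.2.1
    have h3 := h.2.2.2.1
    obtain ⟨h4, h5⟩ := ih
    refine ⟨?_, by linarith⟩
    rw [h.2.2.1] at h4
    nlinarith

theorem pos_exists (hP : Good P) {r l : Eg} {t : ℝ}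
    (hrl : root P k Q I r = root P k Q I l) (h1 : slE r ≤ t) (h2 : t < slE l) :
    ∃ g g', NxE P k Q I g g' ∧ root P k Q I g = root P k Q I r ∧ slE g ≤ t ∧ t < slE g' := by
  rcases compar hP hrl with h | h | h
  · rw [h] at h1
    linarith
  · clear hrl
    induction h with
    | single h => exact ⟨r, _, h, rfl, h1, h2⟩
    | tail hab h ih =>
      rename_i b l
      by_cases h3 : t < slE b
      · exact ih h3
      · push Not at h3
        refine ⟨b, l, h, (root_Bf hP hab).symm, h3, h2⟩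
  · have := h.slope
    linarith

open Classical in
/-- the edges of a piece -/
noncomputable def pc (P : Finset Pt) (k : ℕ) (Q : Finset Pt) (I : Set ℝ) (a : Eg) : Finset Eg :=
  {e ∈ EdIn P k Q I | root P k Q I e = a}

theorem mem_pc {a e : Eg} : e ∈ pc P k Q I a ↔ e ∈ EdIn P k Q I ∧ root P k Q I e = a := by
  classical
  unfold pc
  rw [mem_filter]

open Classical in
/-- the height of a piece at a time -/
noncomputable def hh (P : Finset Pt) (k : ℕ) (Q : Finset Pt) (I : Set ℝ) (a : Eg) (t : ℝ) : ℝ :=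
  if h : (pc P k Q I a).Nonempty then (pc P k Q I a).inf' h (fun e => ht t e.2) else 0

theorem hh_continuous (a : Eg) : Continuous (hh P k Q I a) := by
  classical
  unfold hh
  by_cases h : (pc P k Q I a).Nonempty
  · simp only [dif_pos h]
    apply Continuous.finset_inf'_apply
    intro e _
    unfold ht
    fun_prop
  · simp only [dif_neg h]
    exact continuous_const

theorem hh_eq (hP : Good P) {g : Eg} {t : ℝ} (hg : g ∈ EdIn P k Q I) (h1 : slE g ≤ t)
    (h2 : ∀ g', NxE P k Q I g g' → t ≤ slE g') : hh P k Q I (root P k Q I g) t = ht t g.2 := by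
  classical
  have hne : (pc P k Q I (root P k Q I g)).Nonempty := ⟨g, mem_pc.mpr ⟨hg, rfl⟩⟩
  unfold hh
  rw [dif_pos hne]
  apply le_antisymm
  · exact inf'_le (fun e : Eg => ht t e.2) (mem_pc.mpr ⟨hg, rfl⟩)
  · apply le_inf'
    intro e he
    rcases compar hP (mem_pc.mp he).2 with h | h | h
    · rw [h]
    · exact mono_before h h1
    · exact (mono_after h h2).1

theorem NxE.next_le (hP : Good P) {g g' : Eg} {t : ℝ} (h : NxE P k Q I g g') (h1 : t < slE g') :
    ∀ g'', NxE P k Q I g g'' → t ≤ slE g'' := by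
  intro g'' h2
  have h3 := Nx.right_unique hP (mem_EdIn.mp h.2.1).1 (mem_EdIn.mp h2.2.1).1 h.2.2 h2.2.2
  rw [← h3]
  exact h1.le

theorem pos_ne (hP : Good P) {g g' h h' : Eg} {t : ℝ} (hg : NxE P k Q I g g')
    (hh : NxE P k Q I h h') (h1 : slE g ≤ t) (h2 : t < slE g') (h3 : slE h ≤ t)
    (h4 : t < slE h') (hne : root P k Q I g ≠ root P k Q I h) : g.2 ≠ h.2 := by
  intro heq
  rcases lt_trichotomy (slE g) (slE h) with h5 | h5 | h5
  · exact Nx.no_in hP (mem_EdIn.mp hg.1).1 (mem_EdIn.mp hh.1).1 hg.2.2 heq.symm h5 (by linarith)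
  · exact hne (by rw [slE_inj hP (mem_EdIn.mp hg.1).1 (mem_EdIn.mp hh.1).1 h5])
  · exact Nx.no_in hP (mem_EdIn.mp hh.1).1 (mem_EdIn.mp hg.1).1 hh.2.2 heq h5 (by linarith)

/-- the token on the moving line is strictly above all the others -/
theorem top (hL : Loc P k Q I) {f g g' : Eg} (hf : f ∈ EdIn P k Q I) (hg : NxE P k Q I g g')
    (h1 : slE g ≤ slE f) (h2 : slE f < slE g') (hne : root P k Q I g ≠ root P k Q I f) :
    ht (slE f) g.2 < ht (slE f) f.2 := by
  have hP := hL.good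
  have hfE := (mem_EdIn.mp hf).1
  have hgE := (mem_EdIn.mp hg.1).1
  have hf' := mem_Ed.mp hfE
  have hg' := mem_Ed.mp hgE
  have h3 : slE g < slE f := by
    rcases lt_or_eq_of_le h1 with h | h
    · exact h
    · exact absurd (by rw [slE_inj hP hgE hfE h]) hne
  have h4 : g.2 ≠ f.2 := fun h => Nx.no_in hP hgE hfE hg.2.2 h.symm h3 h2.le
  have h5 : gp P (slE f) g.2 ≤ k := by
    apply gp_le_of_no_exit hP hg'.2.1 h1 (le_of_eq (edge_right hP hgE).2)
    rintro w hw ⟨hw1, hw2⟩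
    exact hg.2.2.2.2 w hw ⟨hw1, by linarith⟩
  have h6 : gp P (slE f) f.2 = k := (edge_right hP hfE).2
  have h7 : gp P (slE f) f.1 = k + 1 := (edge_left hP hfE).2
  have h8 : ht (slE f) f.2 = ht (slE f) f.1 := edge_ht f hf'.2.2.1
  by_contra hcon
  push Not at hcon
  rcases lt_or_eq_of_le hcon with h9 | h9
  · have := gp_lt_of hP (m := slE f) hg'.2.1 hf'.2.1 (Or.inl h9)
    omega
  · have h10 : g.2 ≠ f.1 := by
      intro h
      rw [h, h7] at h5
      omega
    have h11 : f.1 ≠ f.2 := by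
      intro h
      have := hf'.2.2.1
      rw [h] at this
      exact lt_irrefl _ this
    exact hP.gen (slE f) f.2 hf'.2.1 f.1 hf'.1 g.2 hg'.2.1 (Ne.symm h11) (Ne.symm h4)
      (Ne.symm h10) h8 h9

/-- **swap** -/
theorem swap (hL : Loc P k Q I) {e f e' f' : Eg} (he : e ∈ EdIn P k Q I) (hf : f ∈ EdIn P k Q I)
    (he' : e' ∈ EdIn P k Q I) (hre : root P k Q I e' = root P k Q I e)
    (hrf : root P k Q I f' = root P k Q I f) (hne : root P k Q I e ≠ root P k Q I f)
    (h1 : slE e < slE f) (h2 : slE f ≤ slE e') (h3 : slE f' ≤ slE e) :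
    ∃ t, slE e < t ∧ t < slE f ∧ ∃ g g' h h', NxE P k Q I g g' ∧ NxE P k Q I h h' ∧
      root P k Q I g = root P k Q I e ∧ root P k Q I h = root P k Q I f ∧
      slE g ≤ t ∧ t < slE g' ∧ slE h ≤ t ∧ t < slE h' ∧ ht t g.2 = ht t h.2 := by
  have hP := hL.good
  have h2' : slE f < slE e' := by
    rcases lt_or_eq_of_le h2 with h | h
    · exact h
    · have := slE_inj hP (mem_EdIn.mp hf).1 (mem_EdIn.mp he').1 h
      rw [← this] at hre
      exact absurd hre.symm hne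
  -- time `slE e`
  have hA : hh P k Q I (root P k Q I f) (slE e) < hh P k Q I (root P k Q I e) (slE e) := by
    obtain ⟨h, h', q1, q2, q3, q4⟩ := pos_exists hP hrf h3 h1
    have h5 : hh P k Q I (root P k Q I e) (slE e) = ht (slE e) e.2 :=
      hh_eq hP he le_rfl (fun g' hg' => hg'.2.2.2.1.le)
    have h6 : hh P k Q I (root P k Q I h) (slE e) = ht (slE e) h.2 :=
      hh_eq hP q1.1 q3 (NxE.next_le hP q1 q4)
    rw [q2, hrf] at h6
    rw [h5, h6]
    exact top hL he q1 q3 q4 (by rw [q2, hrf]; exact hne.symm)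
  have hB : hh P k Q I (root P k Q I e) (slE f) < hh P k Q I (root P k Q I f) (slE f) := by
    obtain ⟨h, h', q1, q2, q3, q4⟩ := pos_exists hP hre.symm h1.le h2'
    have h5 : hh P k Q I (root P k Q I f) (slE f) = ht (slE f) f.2 :=
      hh_eq hP hf le_rfl (fun g' hg' => hg'.2.2.2.1.le)
    have h6 : hh P k Q I (root P k Q I h) (slE f) = ht (slE f) h.2 :=
      hh_eq hP q1.1 q3 (NxE.next_le hP q1 q4)
    rw [q2] at h6
    rw [h5, h6]
    exact top hL hf q1 q3 q4 (by rw [q2]; exact hne)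
  have hcont : ContinuousOn (fun t => hh P k Q I (root P k Q I e) t
      - hh P k Q I (root P k Q I f) t) (Set.Icc (slE e) (slE f)) :=
    ((hh_continuous _).sub (hh_continuous _)).continuousOn
  have hivt := intermediate_value_Icc' h1.le hcont
  have h0 : (0 : ℝ) ∈ Set.Icc (hh P k Q I (root P k Q I e) (slE f)
      - hh P k Q I (root P k Q I f) (slE f)) (hh P k Q I (root P k Q I e) (slE e)
      - hh P k Q I (root P k Q I f) (slE e)) := ⟨by linarith, by linarith⟩
  obtain ⟨t, ht1, ht2⟩ := hivt h0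
  have ht2' : hh P k Q I (root P k Q I e) t - hh P k Q I (root P k Q I f) t = 0 := ht2
  have ht3 : slE e < t := by
    rcases lt_or_eq_of_le ht1.1 with h | h
    · exact h
    · rw [← h] at ht2'
      linarith
  have ht4 : t < slE f := by
    rcases lt_or_eq_of_le ht1.2 with h | h
    · exact h
    · rw [h] at ht2'
      linarith
  obtain ⟨g, g', p1, p2, p3, p4⟩ := pos_exists hP hre.symm ht3.le (by linarith : t < slE e')
  obtain ⟨h, h', q1, q2, q3, q4⟩ := pos_exists hP hrf (by linarith : slE f' ≤ t) ht4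
  have h6 : hh P k Q I (root P k Q I g) t = ht t g.2 :=
    hh_eq hP p1.1 p3 (NxE.next_le hP p1 p4)
  have h7 : hh P k Q I (root P k Q I h) t = ht t h.2 :=
    hh_eq hP q1.1 q3 (NxE.next_le hP q1 q4)
  rw [p2] at h6
  rw [q2, hrf] at h7
  exact ⟨t, ht3, ht4, g, g', h, h', p1, q1, p2, by rw [q2, hrf], p3, p4, q3, q4, by linarith⟩

/-- chord inequality inside a piece -/
theorem chord (hP : Good P) {e1 e2 : Eg} {z1 z2 : ℝ} (hr : root P k Q I e1 = root P k Q I e2)
    (h1 : e1.1.1 ≤ z1) (h2 : z1 ≤ e1.2.1) (h3 : e2.1.1 ≤ z2) (h4 : z2 ≤ e2.2.1) (hz : z1 < z2) :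
    slE e1 * (z2 - z1) ≤ Ln e2 z2 - Ln e1 z1 ∧ Ln e2 z2 - Ln e1 z1 ≤ slE e2 * (z2 - z1) := by
  have h5 := Ln_sub e1 z2 z1
  have h6 := Ln_sub e2 z2 z1
  rcases compar hP hr with h | h | h
  · rw [h] at *
    constructor <;> linarith
  · have h7 := h.right z2 h3
    have h8 := h.left z1 h2
    constructor <;> linarith
  · have h7 := h.range
    linarith

open Classical in
/-- the swaps of the pieces `a` and `c` -/
noncomputable def SwP (P : Finset Pt) (k : ℕ) (Q : Finset Pt) (I : Set ℝ) (a c : Eg) :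
    Finset (Pt × Pt) :=
  {pq ∈ Tch P k Q I ×ˢ Tch P k Q I | ∃ g g' h h', NxE P k Q I g g' ∧ NxE P k Q I h h' ∧
    root P k Q I g = a ∧ root P k Q I h = c ∧ g.2 = pq.1 ∧ h.2 = pq.2 ∧
    slE g ≤ sl pq.1 pq.2 ∧ sl pq.1 pq.2 < slE g' ∧
    slE h ≤ sl pq.1 pq.2 ∧ sl pq.1 pq.2 < slE h'}

theorem snd_mem_Tch {e : Eg} (he : e ∈ EdIn P k Q I) : e.2 ∈ Tch P k Q I :=
  mem_Tch.mpr ⟨(mem_EdIn.mp he).2.2.1, e, he, Or.inr rfl⟩

theorem SwP_disj (hP : Good P) {a c a' c' : Eg} {pq : Pt × Pt} (h : pq ∈ SwP P k Q I a c)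
    (h' : pq ∈ SwP P k Q I a' c') : a = a' ∧ c = c' := by
  classical
  obtain ⟨_, g, g', f, f', p1, p2, p3, p4, p5, p6, p7, p8, p9, p10⟩ := mem_filter.mp h
  obtain ⟨_, G, G', F, F', q1, q2, q3, q4, q5, q6, q7, q8, q9, q10⟩ := mem_filter.mp h'
  constructor
  · by_contra hne
    exact pos_ne hP p1 q1 p7 p8 q7 q8 (by rw [p3, q3]; exact hne) (by rw [p5, q5])
  · by_contra hne
    exact pos_ne hP p2 q2 p9 p10 q9 q10 (by rw [p4, q4]; exact hne) (by rw [p6, q6])

/-- a middle crossing gives a swap -/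
theorem middle (hL : Loc P k Q I) {e f e0 f0 e2 f2 : Eg} (he : e ∈ EdIn P k Q I)
    (hf : f ∈ EdIn P k Q I) (he2 : e2 ∈ EdIn P k Q I) (hf2 : f2 ∈ EdIn P k Q I)
    (r1 : root P k Q I e0 = root P k Q I e) (r2 : root P k Q I e2 = root P k Q I e)
    (r3 : root P k Q I f0 = root P k Q I f) (r4 : root P k Q I f2 = root P k Q I f)
    (hne : root P k Q I e ≠ root P k Q I f)
    (h1 : slE e0 ≤ slE f) (h2 : slE f0 ≤ slE e) (h3 : slE e ≤ slE f2) (h4 : slE f ≤ slE e2) :
    ∃ pq ∈ SwP P k Q I (root P k Q I e) (root P k Q I f),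
      min (slE e) (slE f) < sl pq.1 pq.2 ∧ sl pq.1 pq.2 < max (slE e) (slE f) := by
  classical
  have hP := hL.good
  have hx : ∀ g g' h h' : Eg, ∀ t : ℝ, NxE P k Q I g g' → NxE P k Q I h h' →
      root P k Q I g ≠ root P k Q I h → slE g ≤ t → t < slE g' → slE h ≤ t → t < slE h' →
      ht t g.2 = ht t h.2 → sl g.2 h.2 = t := by
    intro g g' h h' t n1 n2 n3 n4 n5 n6 n7 n8
    have n9 := pos_ne hP n1 n2 n4 n5 n6 n7 n3
    have n10 : g.2.1 ≠ h.2.1 := fun hh => n9
      (hP.xinj _ (mem_Ed.mp (mem_EdIn.mp n1.1).1).2.1 _ (mem_Ed.mp (mem_EdIn.mp n2.1).1).2.1 hh)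
    exact (ht_eq_iff n10 t).mp n8.symm
  rcases lt_trichotomy (slE e) (slE f) with h | h | h
  · obtain ⟨t, t1, t2, g, g', f', f'', p1, p2, p3, p4, p5, p6, p7, p8, p9⟩ :=
      swap hL he hf he2 r2 r3 hne h h4 h2
    have h5 := hx g g' f' f'' t p1 p2 (by rw [p3, p4]; exact hne) p5 p6 p7 p8 p9
    refine ⟨(g.2, f'.2), mem_filter.mpr ⟨mem_product.mpr ⟨snd_mem_Tch (e := g) p1.1, snd_mem_Tch (e := f') p2.1⟩,
      g, g', f', f'', p1, p2, p3, p4, rfl, rfl, ?_⟩, ?_⟩
    · simp only [h5]; exact ⟨p5, p6, p7, p8⟩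
    · simp only [h5]
      rw [min_eq_left h.le, max_eq_right h.le]
      exact ⟨t1, t2⟩
  · exact absurd (by rw [slE_inj hP (mem_EdIn.mp he).1 (mem_EdIn.mp hf).1 h]) hne
  · obtain ⟨t, t1, t2, g, g', f', f'', p1, p2, p3, p4, p5, p6, p7, p8, p9⟩ :=
      swap hL hf he hf2 r4 r1 hne.symm h h3 h1
    have h5 := hx g g' f' f'' t p1 p2 (by rw [p3, p4]; exact hne.symm) p5 p6 p7 p8 p9
    have h6 : sl f'.2 g.2 = t := by rw [sl_comm]; exact h5
    refine ⟨(f'.2, g.2), mem_filter.mpr ⟨mem_product.mpr ⟨snd_mem_Tch (e := f') p2.1, snd_mem_Tch (e := g) p1.1⟩,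
      f', f'', g, g', p2, p1, p4, p3, rfl, rfl, ?_⟩, ?_⟩
    · simp only [h6]; exact ⟨p7, p8, p5, p6⟩
    · simp only [h6]
      rw [min_eq_right h.le, max_eq_left h.le]
      exact ⟨t1, t2⟩

/-- number of crossings of two given pieces -/
theorem pair_count (hL : Loc P k Q I) {a c : Eg} (hne : a ≠ c) (Z : Finset ℝ)
    (hZ : ∀ z ∈ Z, Crs P k Q I a c z) : #Z ≤ 2 + #(SwP P k Q I a c) := by
  classical
  have hP := hL.good
  by_cases hZ0 : Z.Nonempty
  swap
  · rw [not_nonempty_iff_eq_empty] at hZ0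
    rw [hZ0, card_empty]
    omega
  have hch : ∀ z ∈ Z, ∃ e ∈ EdIn P k Q I, ∃ f ∈ EdIn P k Q I, root P k Q I e = a ∧
    root P k Q I f = c ∧ e.1.1 ≤ z ∧ z ≤ e.2.1 ∧ f.1.1 ≤ z ∧ z ≤ f.2.1 ∧ Ln e z = Ln f z := hZ
  choose! e he f hf ra rc x1 x2 x3 x4 hL' using hch
  -- slopes are ordered
  have ord : ∀ z1 ∈ Z, ∀ z2 ∈ Z, z1 < z2 →
      max (slE (e z1)) (slE (f z1)) ≤ min (slE (e z2)) (slE (f z2)) := by
    intro z1 h1 z2 h2 h12
    have c1 := chord hP (e1 := e z1) (e2 := e z2) (z1 := z1) (z2 := z2)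
      (by rw [ra z1 h1, ra z2 h2]) (x1 z1 h1) (x2 z1 h1) (x1 z2 h2) (x2 z2 h2) h12
    have c2 := chord hP (e1 := f z1) (e2 := f z2) (z1 := z1) (z2 := z2)
      (by rw [rc z1 h1, rc z2 h2]) (x3 z1 h1) (x4 z1 h1) (x3 z2 h2) (x4 z2 h2) h12
    have d1 := hL' z1 h1
    have d2 := hL' z2 h2
    rw [← d1, ← d2] at c2
    have d3 : 0 < z2 - z1 := by linarith
    apply max_le <;> apply le_min
    · exact le_of_mul_le_mul_right (by linarith) d3
    · exact le_of_mul_le_mul_right (by linarith) d3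
    · exact le_of_mul_le_mul_right (by linarith) d3
    · exact le_of_mul_le_mul_right (by linarith) d3
  set zm := Z.min' hZ0 with hzm
  set zM := Z.max' hZ0 with hzM
  have hmm : zm ∈ Z := min'_mem _ _
  have hMM : zM ∈ Z := max'_mem _ _
  set Z' := (Z.erase zm).erase zM with hZ'
  have hcard : #Z ≤ #Z' + 2 := by
    have h1 : #Z - 1 ≤ #(Z.erase zm) := pred_card_le_card_erase
    have h2 : #(Z.erase zm) - 1 ≤ #Z' := pred_card_le_card_erase
    omega
  have hmid : ∀ z ∈ Z', ∃ pq ∈ SwP P k Q I a c,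
      min (slE (e z)) (slE (f z)) < sl pq.1 pq.2 ∧
      sl pq.1 pq.2 < max (slE (e z)) (slE (f z)) := by
    intro z hz
    have hz1 := mem_erase.mp hz
    have hz2 := mem_erase.mp hz1.2
    have h1 : zm < z := lt_of_le_of_ne (min'_le _ _ hz2.2) (Ne.symm hz2.1)
    have h2 : z < zM := lt_of_le_of_ne (le_max' _ _ hz2.2) hz1.1
    have o1 := ord zm hmm z hz2.2 h1
    have o2 := ord z hz2.2 zM hMM h2
    have o3 := max_le_iff.mp o1
    have o4 := max_le_iff.mp o2
    have := middle hL (e := e z) (f := f z) (e0 := e zm) (f0 := f zm) (e2 := e zM) (f2 := f zM)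
      (he z hz2.2) (hf z hz2.2) (he zM hMM) (hf zM hMM) (by rw [ra zm hmm, ra z hz2.2])
      (by rw [ra zM hMM, ra z hz2.2]) (by rw [rc zm hmm, rc z hz2.2])
      (by rw [rc zM hMM, rc z hz2.2]) (by rw [ra z hz2.2, rc z hz2.2]; exact hne)
      ((le_min_iff.mp o3.1).2) ((le_min_iff.mp o3.2).1) ((le_min_iff.mp o4.1).2)
      ((le_min_iff.mp o4.2).1)
    rw [ra z hz2.2, rc z hz2.2] at this
    exact this
  choose! ψ hψ1 hψ2 hψ3 using hmid
  have hinj : #Z' ≤ #(SwP P k Q I a c) := by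
    refine card_le_card_of_injOn ψ (fun z hz => hψ1 z hz) ?_
    intro z hz z' hz' heq
    have heq' : ψ z = ψ z' := heq
    have hz1 : z ∈ Z := mem_of_mem_erase (mem_of_mem_erase hz)
    have hz2 : z' ∈ Z := mem_of_mem_erase (mem_of_mem_erase hz')
    rcases lt_trichotomy z z' with h | h | h
    · exfalso
      have o1 := ord z hz1 z' hz2 h
      have h1 := hψ3 z hz
      have h2 := hψ2 z' hz'
      rw [heq'] at h1
      linarith
    · exact h
    · exfalso
      have o1 := ord z' hz2 z hz1 h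
      have h1 := hψ3 z' hz'
      have h2 := hψ2 z hz
      rw [heq'] at h2
      linarith
  omega

theorem stCross : StCross := by
  classical
  intro P k Q I hP hQ hI Z hZ
  have hL : Loc P k Q I := ⟨hP, hQ, hI⟩
  set F := (Pcs P k Q I ×ˢ Pcs P k Q I).filter (fun ac => ac.1 ≠ ac.2) with hF
  have h1 : ∑ ac ∈ F, #(Z ac.1 ac.2) ≤ ∑ ac ∈ F, (2 + #(SwP P k Q I ac.1 ac.2)) := by
    apply sum_le_sum
    intro ac hac
    obtain ⟨h1, h2⟩ := mem_filter.mp hac
    obtain ⟨h3, h4⟩ := mem_product.mp h1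
    exact pair_count hL h2 _ (hZ ac.1 h3 ac.2 h4 h2)
  have h2 : ∑ ac ∈ F, (2 + #(SwP P k Q I ac.1 ac.2))
      = 2 * #F + ∑ ac ∈ F, #(SwP P k Q I ac.1 ac.2) := by
    rw [sum_add_distrib, sum_const, smul_eq_mul, mul_comm]
  have h3 : #F ≤ #(Pcs P k Q I) ^ 2 := by
    calc #F ≤ #(Pcs P k Q I ×ˢ Pcs P k Q I) := card_filter_le _ _
      _ = #(Pcs P k Q I) ^ 2 := by rw [card_product, sq]
  have h4 : ∑ ac ∈ F, #(SwP P k Q I ac.1 ac.2) ≤ #(Tch P k Q I) ^ 2 := by
    rw [← card_biUnion]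
    · calc #(F.biUnion fun ac => SwP P k Q I ac.1 ac.2)
          ≤ #(Tch P k Q I ×ˢ Tch P k Q I) := by
            apply card_le_card
            intro pq hpq
            obtain ⟨ac, _, h5⟩ := mem_biUnion.mp hpq
            exact (mem_filter.mp h5).1
        _ = #(Tch P k Q I) ^ 2 := by rw [card_product, sq]
    · intro ac _ ac' _ hne
      rw [Function.onFun, disjoint_left]
      intro pq h5 h6
      obtain ⟨h7, h8⟩ := SwP_disj hP h5 h6
      exact hne (Prod.ext h7 h8)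
  omega

end Vale.Agent.P065.UB
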