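import Vale.Agent.P065.UB.Rank

/-!
# P065, upper bound: the window form of Lovász' lemma (helper752)

`flow`: exact balance of the number of points of a set `X` among the `k + 1` lowest points between
two times. `halfplane`: a line is crossed by at most `#Tch + #EdBd` of the `k`-edges inside `Q` with
slope in `I`. `box`: the boundary of a convex cell with `s` sides.
-/

set_option autoImplicit false

namespace Vale.Agent.P065.UB.RankAux

open Finset

theorem LowA.eq {P : Finset Pt} {m : ℝ} {L L' : Finset Pt} (h : LowA P m L) (h' : LowA P m L')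
    (hc : #L = #L') : L = L' := by
  classical
  by_contra hne
  have h1 : ¬ L ⊆ L' := fun hs => hne (Finset.eq_of_subset_of_card_le hs hc.ge)
  have h2 : ¬ L' ⊆ L := fun hs => hne (Finset.eq_of_subset_of_card_le hs hc.le).symm
  obtain ⟨a, ha, ha'⟩ := Finset.not_subset.1 h1
  obtain ⟨b, hb, hb'⟩ := Finset.not_subset.1 h2
  have e1 := h.2 a ha b (h'.1 hb) hb'
  have e2 := h'.2 b hb a (h.1 ha) ha'
  rcases e1 with e1 | ⟨e1, e1'⟩ <;> rcases e2 with e2 | ⟨e2, e2'⟩ <;> linarith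

/-- two `k`-edges of the same slope lie on the same line -/
theorem same_height {P : Finset Pt} {k : ℕ} {p q p' q' : Pt} (he : (p, q) ∈ Ed P k)
    (he' : (p', q') ∈ Ed P k) (h : sl p q = sl p' q') :
    ht (sl p q) p = ht (sl p q) p' := by
  classical
  have c1 := mem_Ed.1 he
  have c2 := mem_Ed.1 he'
  rcases lt_trichotomy (ht (sl p q) p) (ht (sl p q) p') with h3 | h3 | h3
  · exfalso
    have : #{v ∈ P | ht (sl p q) v < ht (sl p q) p} <
        #{v ∈ P | ht (sl p' q') v < ht (sl p' q') p'} := by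
      rw [← h]
      apply Finset.card_lt_card
      rw [Finset.ssubset_iff_of_subset]
      · exact ⟨p, Finset.mem_filter.2 ⟨c1.1, h3⟩, fun h4 => lt_irrefl _ (Finset.mem_filter.1 h4).2⟩
      · intro v hv
        rw [Finset.mem_filter] at hv ⊢
        exact ⟨hv.1, hv.2.trans h3⟩
    rw [c1.2.2.2, c2.2.2.2] at this
    exact lt_irrefl _ this
  · exact h3
  · exfalso
    have : #{v ∈ P | ht (sl p' q') v < ht (sl p' q') p'} <
        #{v ∈ P | ht (sl p q) v < ht (sl p q) p} := by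
      rw [← h]
      apply Finset.card_lt_card
      rw [Finset.ssubset_iff_of_subset]
      · exact ⟨p', Finset.mem_filter.2 ⟨c2.1, h3⟩, fun h4 => lt_irrefl _ (Finset.mem_filter.1 h4).2⟩
      · intro v hv
        rw [Finset.mem_filter] at hv ⊢
        exact ⟨hv.1, hv.2.trans h3⟩
    rw [c1.2.2.2, c2.2.2.2] at this
    exact lt_irrefl _ this

/-- there is at most one `k`-edge of each slope -/
theorem Ed_unique {P : Finset Pt} (hP : Good P) {k : ℕ} {p q p' q' : Pt} (he : (p, q) ∈ Ed P k)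
    (he' : (p', q') ∈ Ed P k) (h : sl p q = sl p' q') : p = p' ∧ q = q' := by
  classical
  have c1 := mem_Ed.1 he
  have c2 := mem_Ed.1 he'
  have h1 := same_height he he' h
  have h2 : ht (sl p q) p = ht (sl p q) q := (ht_eq_iff c1.2.2.1 _).2 rfl
  have h3 : ht (sl p q) p' = ht (sl p q) q' := by
    rw [h]; exact (ht_eq_iff c2.2.2.1 _).2 rfl
  have hpq : p ≠ q := fun h0 => by have := c1.2.2.1; rw [h0] at this; exact lt_irrefl _ this
  have e1 : p' = p ∨ p' = q := by
    by_contra hn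
    push Not at hn
    exact hP.gen (sl p q) p c1.1 q c1.2.1 p' c2.1 hpq (Ne.symm hn.1) (Ne.symm hn.2) h2 h1
  have e2 : q' = p ∨ q' = q := by
    by_contra hn
    push Not at hn
    exact hP.gen (sl p q) p c1.1 q c1.2.1 q' c2.2.1 hpq (Ne.symm hn.1) (Ne.symm hn.2) h2
      (h1.trans h3)
  have hx := c1.2.2.1
  have hx' := c2.2.2.1
  rcases e1 with rfl | rfl
  · rcases e2 with rfl | rfl
    · exact absurd hx' (lt_irrefl _)
    · exact ⟨rfl, rfl⟩
  · rcases e2 with rfl | rfl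
    · exact absurd hx' (not_lt.2 hx.le)
    · exact absurd hx' (lt_irrefl _)

/-- as long as no member is swapped with a non-member there is no `k`-edge -/
theorem no_edge {P : Finset Pt} {k : ℕ} {m₁ s : ℝ} {L : Finset Pt} (hP : Good P)
    (hL : LowA P m₁ L) (hc : #L = k + 1)
    (hs : ∀ a ∈ L, ∀ b ∈ P, b ∉ L → a.1 < b.1 → m₁ < sl a b → s ≤ sl a b) {p q : Pt}
    (he : (p, q) ∈ Ed P k) (h1 : m₁ < sl p q) : s ≤ sl p q := by
  classical
  by_contra hlt
  have hlt := not_le.1 hlt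
  have key : ∀ a ∈ L, ∀ b ∈ P, b ∉ L → ht (sl p q) a < ht (sl p q) b := by
    intro a ha b hb hbL
    have hab : a ≠ b := fun h => hbL (h ▸ ha)
    have h2 := hL.2 a ha b hb hbL
    rcases lt_trichotomy a.1 b.1 with hx | hx | hx
    · have h3 : m₁ < sl a b := by
        rcases h2 with h2 | ⟨_, h2⟩
        · exact (ht_lt_iff hx m₁).1 h2
        · exact absurd h2 (not_lt.2 hx.le)
      exact (ht_lt_iff hx _).2 (lt_of_lt_of_le hlt (hs a ha b hb hbL hx h3))
    · exact absurd (hP.xinj a (hL.1 ha) b hb hx) hab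
    · have h3 : sl b a ≤ m₁ := by
        rcases h2 with h2 | ⟨h2, _⟩
        · exact ((lt_ht_iff hx m₁).1 h2).le
        · exact ((ht_eq_iff hx m₁).1 h2.symm).ge
      exact (lt_ht_iff hx _).2 (lt_of_le_of_lt h3 h1)
  have hA : LowA P (sl p q) L := ⟨hL.1, fun a ha b hb hbL => Or.inl (key a ha b hb hbL)⟩
  have hB : LowB P (sl p q) L := ⟨hL.1, fun a ha b hb hbL => Or.inl (key a ha b hb hbL)⟩
  obtain ⟨l1, l2, l3, l4⟩ := low_of_edge hP he
  have e1 := hA.eq l1 (by rw [hc, l3])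
  have e2 := hB.eq l2 (by rw [hc, l4])
  have hx := (mem_Ed.1 he).2.2.1
  have hq : q ∈ L := by rw [e1]; exact Finset.mem_insert_self _ _
  rw [e2] at hq
  rcases Finset.mem_insert.1 hq with h | h
  · rw [h] at hx; exact lt_irrefl _ hx
  · have := (Finset.mem_filter.1 h).2
    rw [(ht_eq_iff hx (sl p q)).2 rfl] at this
    exact lt_irrefl _ this

open Classical in
/-- the `k`-edges with slope in `(m₁, m₂)` which lead from `X` to the complement of `X` -/
noncomputable def OutE (P : Finset Pt) (k : ℕ) (X : Set Pt) (m₁ m₂ : ℝ) : Finset (Pt × Pt) :=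
  {e ∈ Ed P k | (e.1 ∈ X ∧ e.2 ∉ X) ∧ m₁ < sl e.1 e.2 ∧ sl e.1 e.2 < m₂}

open Classical in
/-- the `k`-edges with slope in `(m₁, m₂)` which lead from the complement of `X` to `X` -/
noncomputable def InE (P : Finset Pt) (k : ℕ) (X : Set Pt) (m₁ m₂ : ℝ) : Finset (Pt × Pt) :=
  {e ∈ Ed P k | (e.1 ∉ X ∧ e.2 ∈ X) ∧ m₁ < sl e.1 e.2 ∧ sl e.1 e.2 < m₂}

open Classical in
/-- **the flow identity** -/
theorem flow {P : Finset Pt} (hP : Good P) {k : ℕ} (X : Set Pt) {m₂ : ℝ} {L' : Finset Pt}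
    (hL' : LowB P m₂ L') (hc' : #L' = k + 1) :
    ∀ (n : ℕ) (m₁ : ℝ) (L : Finset Pt),
      #{e ∈ Ed P k | m₁ < sl e.1 e.2 ∧ sl e.1 e.2 < m₂} < n → m₁ < m₂ → LowA P m₁ L →
      #L = k + 1 →
      #{v ∈ L' | v ∈ X} + #(OutE P k X m₁ m₂) = #{v ∈ L | v ∈ X} + #(InE P k X m₁ m₂) := by
  intro n
  induction n with
  | zero => intro m₁ L hn; omega
  | succ n ih =>
    intro m₁ L hn hm hL hc
    -- the pairs `a ∈ L`, `b ∉ L` which are swapped
    set Y : Finset (Pt × Pt) :=
      {e ∈ L ×ˢ (P \ L) | e.1.1 < e.2.1 ∧ m₁ < sl e.1 e.2 ∧ sl e.1 e.2 < m₂} with hY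
    have memY : ∀ a b, (a, b) ∈ Y ↔ a ∈ L ∧ b ∈ P ∧ b ∉ L ∧ a.1 < b.1 ∧ m₁ < sl a b ∧
        sl a b < m₂ := by
      intro a b
      simp only [hY, Finset.mem_filter, Finset.mem_product, Finset.mem_sdiff]
      tauto
    rcases Y.eq_empty_or_nonempty with hE | hE
    · -- nothing happens
      have hs : ∀ a ∈ L, ∀ b ∈ P, b ∉ L → a.1 < b.1 → m₁ < sl a b → m₂ ≤ sl a b := by
        intro a ha b hb hbL hx h2
        by_contra h3
        have : (a, b) ∈ Y := (memY a b).2 ⟨ha, hb, hbL, hx, h2, not_le.1 h3⟩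
        rw [hE] at this
        exact absurd this (Finset.notMem_empty _)
      have hB : LowB P m₂ L := by
        refine ⟨hL.1, fun a ha b hb hbL => ?_⟩
        have hab : a ≠ b := fun h => hbL (h ▸ ha)
        have h1 := hL.2 a ha b hb hbL
        rcases lt_trichotomy a.1 b.1 with hx | hx | hx
        · have h2 : m₁ < sl a b := by
            rcases h1 with h1 | ⟨_, h1⟩
            · exact (ht_lt_iff hx m₁).1 h1
            · exact absurd h1 (not_lt.2 hx.le)
          rcases (hs a ha b hb hbL hx h2).lt_or_eq with h4 | h4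
          · exact Or.inl ((ht_lt_iff hx m₂).2 h4)
          · exact Or.inr ⟨(ht_eq_iff hx m₂).2 h4, hx⟩
        · exact absurd (hP.xinj a (hL.1 ha) b hb hx) hab
        · have h2 : sl b a ≤ m₁ := by
            rcases h1 with h1 | ⟨h1, _⟩
            · exact ((lt_ht_iff hx m₁).1 h1).le
            · exact ((ht_eq_iff hx m₁).1 h1.symm).ge
          exact Or.inl ((lt_ht_iff hx m₂).2 (lt_of_le_of_lt h2 hm))
      have := hB.eq hL' (by rw [hc, hc'])
      subst this
      have e1 : OutE P k X m₁ m₂ = ∅ := by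
        rw [Finset.eq_empty_iff_forall_notMem]
        rintro ⟨p, q⟩ he
        unfold OutE at he
        rw [Finset.mem_filter] at he
        exact absurd he.2.2.2 (not_lt.2 (no_edge hP hL hc hs he.1 he.2.2.1))
      have e2 : InE P k X m₁ m₂ = ∅ := by
        rw [Finset.eq_empty_iff_forall_notMem]
        rintro ⟨p, q⟩ he
        unfold InE at he
        rw [Finset.mem_filter] at he
        exact absurd he.2.2.2 (not_lt.2 (no_edge hP hL hc hs he.1 he.2.2.1))
      rw [e1, e2]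
    · -- the first swap
      obtain ⟨⟨a, b⟩, hab, hmin⟩ := Y.exists_min_image (fun e => sl e.1 e.2) hE
      have hab' := (memY a b).1 hab
      obtain ⟨ha, hb, hbL, hx, hs1, hs2⟩ := hab'
      set s := sl a b with hs
      have hne : a ≠ b := fun h => hbL (h ▸ ha)
      have heq : ht s a = ht s b := (ht_eq_iff hx s).2 rfl
      have hsmin : ∀ a' ∈ L, ∀ b' ∈ P, b' ∉ L → a'.1 < b'.1 → m₁ < sl a' b' → s ≤ sl a' b' := by
        intro a' ha' b' hb' hbL' hx' h2
        by_contra h3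
        have : (a', b') ∈ Y := (memY a' b').2 ⟨ha', hb', hbL', hx', h2, (not_le.1 h3).trans hs2⟩
        have := hmin _ this
        simp only at this
        exact h3 this
      -- members are still below the others
      have hle : ∀ a' ∈ L, ∀ b' ∈ P, b' ∉ L → ht s a' ≤ ht s b' := by
        intro a' ha' b' hb' hbL'
        have hne' : a' ≠ b' := fun h => hbL' (h ▸ ha')
        have h1 := hL.2 a' ha' b' hb' hbL'
        rcases lt_trichotomy a'.1 b'.1 with hx' | hx' | hx'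
        · by_contra hlt
          have h3 : sl a' b' < s := (lt_ht_iff hx' s).1 (not_le.1 hlt)
          have h2 : m₁ < sl a' b' := by
            rcases h1 with h1 | ⟨_, h1⟩
            · exact (ht_lt_iff hx' m₁).1 h1
            · exact absurd h1 (not_lt.2 hx'.le)
          exact absurd h3 (not_lt.2 (hsmin a' ha' b' hb' hbL' hx' h2))
        · exact absurd (hP.xinj a' (hL.1 ha') b' hb' hx') hne'
        · have h2 : sl b' a' ≤ m₁ := by
            rcases h1 with h1 | ⟨h1, _⟩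
            · exact ((lt_ht_iff hx' m₁).1 h1).le
            · exact ((ht_eq_iff hx' m₁).1 h1.symm).ge
          exact ((lt_ht_iff hx' s).2 (lt_of_le_of_lt h2 hs1)).le
      -- strictly
      have hA : ∀ a' ∈ L, a' ≠ a → ht s a' < ht s a := by
        intro a' ha' hne'
        refine lt_of_le_of_ne (heq ▸ hle a' ha' b hb hbL) fun h => ?_
        have hb' : a' ≠ b := fun h => hbL (h ▸ ha')
        exact hP.gen s a (hL.1 ha) b hb a' (hL.1 ha') hne (Ne.symm hne') (Ne.symm hb') heq h.symm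
      have hB : ∀ b' ∈ P, b' ∉ L → b' ≠ b → ht s a < ht s b' := by
        intro b' hb' hbL' hne'
        refine lt_of_le_of_ne (hle a ha b' hb' hbL') fun h => ?_
        have ha' : b' ≠ a := fun h => hbL' (h ▸ ha)
        exact hP.gen s a (hL.1 ha) b hb b' hb' hne (Ne.symm ha') (Ne.symm hne') heq h
      -- `(a, b)` is a `k`-edge
      have hfil : ({v ∈ P | ht s v < ht s a} : Finset Pt) = L.erase a := by
        ext v
        simp only [Finset.mem_filter, Finset.mem_erase]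
        constructor
        · rintro ⟨hv, hlt⟩
          refine ⟨fun h => by rw [h] at hlt; exact lt_irrefl _ hlt, ?_⟩
          by_contra hvL
          by_cases hvb : v = b
          · rw [hvb, ← heq] at hlt; exact lt_irrefl _ hlt
          · exact lt_asymm hlt (hB v hv hvL hvb)
        · rintro ⟨hva, hvL⟩
          exact ⟨hL.1 hvL, hA v hvL hva⟩
      have hk : #(L.erase a) = k := by rw [Finset.card_erase_of_mem ha, hc]; rfl
      have hEd : (a, b) ∈ Ed P k := by
        refine mem_Ed.2 ⟨hL.1 ha, hb, hx, ?_⟩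
        rw [← hs, hfil, hk]
      -- the new set
      set L1 := insert b (L.erase a) with hL1
      have hbe : b ∉ L.erase a := fun h => hbL (Finset.mem_of_mem_erase h)
      have hc1 : #L1 = k + 1 := by rw [hL1, Finset.card_insert_of_notMem hbe, hk]
      have hLow1 : LowA P s L1 := by
        have := (low_of_edge hP hEd).1
        rw [← hs, hfil] at this
        exact this
      -- the edges in `(m₁, m₂)`
      have hge : ∀ p q, (p, q) ∈ Ed P k → m₁ < sl p q → (p, q) = (a, b) ∨ s < sl p q := by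
        intro p q he h1
        rcases (no_edge hP hL hc hsmin he h1).lt_or_eq with h2 | h2
        · exact Or.inr h2
        · left
          obtain ⟨h3, h4⟩ := Ed_unique hP he hEd h2.symm
          rw [h3, h4]
      have hsplit : ∀ (p : Pt × Pt → Prop),
          #{e ∈ Ed P k | p e ∧ m₁ < sl e.1 e.2 ∧ sl e.1 e.2 < m₂} =
          #{e ∈ Ed P k | p e ∧ s < sl e.1 e.2 ∧ sl e.1 e.2 < m₂} + (if p (a, b) then 1 else 0) := by
        intro p
        split_ifs with hp
        · rw [← Finset.card_insert_of_notMem (a := (a, b))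
            (s := {e ∈ Ed P k | p e ∧ s < sl e.1 e.2 ∧ sl e.1 e.2 < m₂})]
          · congr 1
            ext ⟨x, y⟩
            rw [Finset.mem_insert, Finset.mem_filter, Finset.mem_filter]
            constructor
            · rintro ⟨h1, h2, h3, h4⟩
              rcases hge x y h1 h3 with h5 | h5
              · exact Or.inl h5
              · exact Or.inr ⟨h1, h2, h5, h4⟩
            · rintro (h1 | ⟨h1, h2, h3, h4⟩)
              · rw [h1]; exact ⟨hEd, hp, hs1, hs2⟩
              · exact ⟨h1, h2, hs1.trans h3, h4⟩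
          · rw [Finset.mem_filter]
            rintro ⟨_, _, h, _⟩
            exact lt_irrefl _ h
        · rw [Nat.add_zero]
          congr 1
          ext ⟨x, y⟩
          rw [Finset.mem_filter, Finset.mem_filter]
          constructor
          · rintro ⟨h1, h2, h3, h4⟩
            rcases hge x y h1 h3 with h5 | h5
            · rw [h5] at h2; exact absurd h2 hp
            · exact ⟨h1, h2, h5, h4⟩
          · rintro ⟨h1, h2, h3, h4⟩
            exact ⟨h1, h2, hs1.trans h3, h4⟩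
      have hcard : #{e ∈ Ed P k | s < sl e.1 e.2 ∧ sl e.1 e.2 < m₂} < n := by
        have : #{e ∈ Ed P k | s < sl e.1 e.2 ∧ sl e.1 e.2 < m₂} <
            #{e ∈ Ed P k | m₁ < sl e.1 e.2 ∧ sl e.1 e.2 < m₂} := by
          apply Finset.card_lt_card
          rw [Finset.ssubset_iff_of_subset]
          · refine ⟨(a, b), ?_, ?_⟩
            · simp only [Finset.mem_filter]
              exact ⟨hEd, hs1, hs2⟩
            · simp only [Finset.mem_filter, not_and]
              intro _ h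
              exact absurd h (lt_irrefl _)
          · intro e he
            simp only [Finset.mem_filter] at he ⊢
            exact ⟨he.1, hs1.trans he.2.1, he.2.2⟩
        omega
      have key := ih s L1 hcard hs2 hLow1 hc1
      have o1 : #(OutE P k X m₁ m₂) = #(OutE P k X s m₂) + (if a ∈ X ∧ b ∉ X then 1 else 0) := by
        have h := hsplit (fun e => e.1 ∈ X ∧ e.2 ∉ X)
        unfold OutE
        convert h
      have o2 : #(InE P k X m₁ m₂) = #(InE P k X s m₂) + (if a ∉ X ∧ b ∈ X then 1 else 0) := by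
        have h := hsplit (fun e => e.1 ∉ X ∧ e.2 ∈ X)
        unfold InE
        convert h
      have e1 : #{v ∈ L | v ∈ X} = #{v ∈ L.erase a | v ∈ X} + (if a ∈ X then 1 else 0) := by
        conv_lhs => rw [← Finset.insert_erase ha]
        rw [Finset.filter_insert]
        split_ifs with h
        · rw [Finset.card_insert_of_notMem]
          intro h'
          exact (Finset.notMem_erase a L) (Finset.mem_filter.1 h').1
        · rfl
      have e2 : #{v ∈ L1 | v ∈ X} = #{v ∈ L.erase a | v ∈ X} + (if b ∈ X then 1 else 0) := by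
        rw [hL1, Finset.filter_insert]
        split_ifs with h
        · rw [Finset.card_insert_of_notMem]
          intro h'
          exact hbe (Finset.mem_filter.1 h').1
        · rfl
      rw [o1, o2, e1]
      rw [e2] at key
      by_cases h1 : a ∈ X <;> by_cases h2 : b ∈ X <;> simp only [h1, h2, if_true, if_false,
        not_true_eq_false, not_false_eq_true, and_true, and_false] at key ⊢ <;> omega

open Classical in
/-- **one-way crossings**: if the `k`-edges of `(Q, J)` never enter `U`, then few of them leave it. -/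
theorem leave_le {P : Finset Pt} (hP : Good P) {k : ℕ} {Q : Finset Pt} {I J : Set ℝ}
    (hJI : J ⊆ I) (hJ : J.OrdConnected) (U : Set Pt)
    (hU : ∀ e ∈ EdIn P k Q I, sl e.1 e.2 ∈ J → e.2 ∈ U → e.1 ∈ U) :
    #{e ∈ EdIn P k Q I | sl e.1 e.2 ∈ J ∧ e.1 ∈ U ∧ e.2 ∉ U} ≤
      #{v ∈ Tch P k Q I | v ∈ U} + #{e ∈ EdBd P k Q I | sl e.1 e.2 ∈ J} := by
  set F : Finset (Pt × Pt) := {e ∈ EdIn P k Q I | sl e.1 e.2 ∈ J ∧ e.1 ∈ U ∧ e.2 ∉ U} with hF
  set TU : Finset Pt := {v ∈ Tch P k Q I | v ∈ U} with hTU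
  rcases F.eq_empty_or_nonempty with hE | hE
  · rw [hE]; simp
  obtain ⟨⟨p₁, q₁⟩, h₁, hmin⟩ := F.exists_min_image (fun e => sl e.1 e.2) hE
  obtain ⟨⟨p₂, q₂⟩, h₂, hmax⟩ := F.exists_max_image (fun e => sl e.1 e.2) hE
  have c₁ := Finset.mem_filter.1 h₁
  have c₂ := Finset.mem_filter.1 h₂
  have i₁ := mem_EdIn.1 c₁.1
  have i₂ := mem_EdIn.1 c₂.1
  have hp₁T : p₁ ∈ Tch P k Q I := mem_Tch.2 ⟨i₁.2.1, (p₁, q₁), c₁.1, Or.inl rfl⟩
  have hp₂T : p₂ ∈ Tch P k Q I := mem_Tch.2 ⟨i₂.2.1, (p₂, q₂), c₂.1, Or.inl rfl⟩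
  have hp₁U : p₁ ∈ TU := Finset.mem_filter.2 ⟨hp₁T, c₁.2.2.1⟩
  have hp₂U : p₂ ∈ TU := Finset.mem_filter.2 ⟨hp₂T, c₂.2.2.1⟩
  have hpos : 1 ≤ #TU := Finset.card_pos.2 ⟨p₁, hp₁U⟩
  rcases (hmin _ h₂ : sl p₁ q₁ ≤ sl p₂ q₂).lt_or_eq with hlt | heq
  · obtain ⟨X, hX⟩ : ∃ X : Set Pt, ∀ v, v ∈ X ↔ v ∈ TU := ⟨{v | v ∈ TU}, fun _ => Iff.rfl⟩
    obtain ⟨l1, _, l3, _⟩ := low_of_edge hP i₁.1
    obtain ⟨_, l2, _, l4⟩ := low_of_edge hP i₂.1
    have key := flow hP X l2 l4 _ (sl p₁ q₁) _ (Nat.lt_succ_self _) hlt l1 l3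
    -- the start
    have s1 : #{v ∈ insert q₁ ({v ∈ P | ht (sl p₁ q₁) v < ht (sl p₁ q₁) p₁} : Finset Pt) |
        v ∈ X} ≤ #TU - 1 := by
      rw [← Finset.card_erase_of_mem hp₁U]
      apply Finset.card_le_card
      intro v hv
      obtain ⟨hv1, hv2⟩ := Finset.mem_filter.1 hv
      refine Finset.mem_erase.2 ⟨?_, (hX v).1 hv2⟩
      rintro rfl
      rcases Finset.mem_insert.1 hv1 with h | h
      · have hx := (mem_Ed.1 i₁.1).2.2.1
        rw [h] at hx
        exact lt_irrefl _ hx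
      · exact lt_irrefl _ (Finset.mem_filter.1 h).2
    -- the end
    have s2 : 1 ≤ #{v ∈ insert p₂ ({v ∈ P | ht (sl p₂ q₂) v < ht (sl p₂ q₂) p₂} : Finset Pt) |
        v ∈ X} :=
      Finset.card_pos.2 ⟨p₂, Finset.mem_filter.2 ⟨Finset.mem_insert_self _ _, (hX _).2 hp₂U⟩⟩
    -- the crossing edges
    have s3 : #F ≤ #(OutE P k X (sl p₁ q₁) (sl p₂ q₂)) + 2 := by
      have hsub : F ⊆ OutE P k X (sl p₁ q₁) (sl p₂ q₂) ∪ {(p₁, q₁), (p₂, q₂)} := by
        rintro ⟨p, q⟩ he
        have c := Finset.mem_filter.1 he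
        have i := mem_EdIn.1 c.1
        rw [Finset.mem_union, Finset.mem_insert, Finset.mem_singleton]
        rcases (hmin _ he : sl p₁ q₁ ≤ sl p q).lt_or_eq with h3 | h3
        · rcases (hmax _ he : sl p q ≤ sl p₂ q₂).lt_or_eq with h4 | h4
          · left
            unfold OutE
            refine Finset.mem_filter.2 ⟨i.1, ⟨?_, ?_⟩, h3, h4⟩
            · exact (hX _).2 (Finset.mem_filter.2
                ⟨mem_Tch.2 ⟨i.2.1, (p, q), c.1, Or.inl rfl⟩, c.2.2.1⟩)
            · intro h5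
              exact c.2.2.2 (Finset.mem_filter.1 ((hX _).1 h5)).2
          · right; right
            obtain ⟨h5, h6⟩ := Ed_unique hP i.1 i₂.1 h4
            rw [h5, h6]
        · right; left
          obtain ⟨h5, h6⟩ := Ed_unique hP i₁.1 i.1 h3
          rw [h5, h6]
      refine (Finset.card_le_card hsub).trans ((Finset.card_union_le _ _).trans ?_)
      exact Nat.add_le_add_left Finset.card_le_two _
    -- the entering edges
    have s4 : #(InE P k X (sl p₁ q₁) (sl p₂ q₂)) ≤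
        #{e ∈ EdBd P k Q I | sl e.1 e.2 ∈ J} := by
      apply Finset.card_le_card
      rintro ⟨p, q⟩ he
      unfold InE at he
      obtain ⟨he, ⟨hp, hq⟩, h3, h4⟩ := Finset.mem_filter.1 he
      have hsJ : sl p q ∈ J := hJ.out c₁.2.1 c₂.2.1 ⟨h3.le, h4.le⟩
      obtain ⟨hqT, hqU⟩ := Finset.mem_filter.1 ((hX _).1 hq)
      have hqQ := (mem_Tch.1 hqT).1
      refine Finset.mem_filter.2 ⟨?_, hsJ⟩
      unfold EdBd
      refine Finset.mem_filter.2 ⟨he, Or.inr ⟨fun hpQ => hp ((hX _).2 ?_), hqQ⟩, hJI hsJ⟩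
      have hin : (p, q) ∈ EdIn P k Q I := mem_EdIn.2 ⟨he, hpQ, hqQ, hJI hsJ⟩
      exact Finset.mem_filter.2 ⟨mem_Tch.2 ⟨hpQ, (p, q), hin, Or.inl rfl⟩, hU _ hin hsJ hqU⟩
    omega
  · have s3 : #F ≤ 1 := by
      rw [Finset.card_le_one]
      rintro ⟨p, q⟩ he ⟨p', q'⟩ he'
      have e1 : sl p q = sl p' q' := by
        have a1 : sl p₁ q₁ ≤ sl p q := hmin _ he
        have a2 : sl p q ≤ sl p₂ q₂ := hmax _ he
        have a3 : sl p₁ q₁ ≤ sl p' q' := hmin _ he'
        have a4 : sl p' q' ≤ sl p₂ q₂ := hmax _ he'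
        linarith
      obtain ⟨h5, h6⟩ := Ed_unique hP (mem_EdIn.1 (Finset.mem_filter.1 he).1).1
        (mem_EdIn.1 (Finset.mem_filter.1 he').1).1 e1
      rw [h5, h6]
    omega

/-- an open or closed half-plane (or `∅`, or everything) -/
def IsHalf (H : Set Pt) : Prop :=
  ∃ a b : ℝ, ∀ z z' : Pt, a * z.1 + b * z.2 ≤ a * z'.1 + b * z'.2 → z' ∈ H → z ∈ H

theorem isHalf_lt (a b c : ℝ) : IsHalf {z : Pt | a * z.1 + b * z.2 < c} :=
  ⟨a, b, fun _ _ h h' => lt_of_le_of_lt h h'⟩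

theorem isHalf_le (a b c : ℝ) : IsHalf {z : Pt | a * z.1 + b * z.2 ≤ c} :=
  ⟨a, b, fun _ _ h h' => le_trans h h'⟩

theorem isHalf_gt (a b c : ℝ) : IsHalf {z : Pt | c < a * z.1 + b * z.2} :=
  ⟨-a, -b, fun z z' h h' => by
    have h2 : c < a * z'.1 + b * z'.2 := h'
    have h3 : c < a * z.1 + b * z.2 := by linarith
    exact h3⟩

theorem isHalf_ge (a b c : ℝ) : IsHalf {z : Pt | c ≤ a * z.1 + b * z.2} :=
  ⟨-a, -b, fun z z' h h' => by
    have h2 : c ≤ a * z'.1 + b * z'.2 := h'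
    have h3 : c ≤ a * z.1 + b * z.2 := by linarith
    exact h3⟩

open Classical in
/-- **window Lovász lemma**: a line is crossed by at most `#Tch + #EdBd` of the `k`-edges inside `Q`
with slope in `I`. -/
theorem halfplane {P : Finset Pt} (hP : Good P) {k : ℕ} {Q : Finset Pt} {I : Set ℝ}
    (hI : I.OrdConnected) {H : Set Pt} (hH : IsHalf H) :
    #{e ∈ EdIn P k Q I | (e.1 ∈ H ∧ e.2 ∉ H) ∨ (e.1 ∉ H ∧ e.2 ∈ H)} ≤
      #(Tch P k Q I) + #(EdBd P k Q I) := by
  obtain ⟨a, b, hab⟩ := hH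
  -- the increment of the functional along an edge
  have hinc : ∀ p q : Pt, p.1 < q.1 →
      a * q.1 + b * q.2 - (a * p.1 + b * p.2) = (a + b * sl p q) * (q.1 - p.1) := by
    intro p q hx
    have h0 : q.1 - p.1 ≠ 0 := by intro h; linarith
    have h1 : sl p q * (q.1 - p.1) = q.2 - p.2 := by
      unfold sl; exact div_mul_cancel₀ _ h0
    linear_combination (-b) * h1
  obtain ⟨J₁, hJ₁⟩ : ∃ J : Set ℝ, ∀ m, m ∈ J ↔ m ∈ I ∧ 0 ≤ a + b * m :=
    ⟨I ∩ {m | 0 ≤ a + b * m}, fun _ => Iff.rfl⟩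
  obtain ⟨J₂, hJ₂⟩ : ∃ J : Set ℝ, ∀ m, m ∈ J ↔ m ∈ I ∧ a + b * m < 0 :=
    ⟨I ∩ {m | a + b * m < 0}, fun _ => Iff.rfl⟩
  obtain ⟨G, hG⟩ : ∃ G : Set Pt, ∀ v, v ∈ G ↔ v ∉ H := ⟨Hᶜ, fun _ => Iff.rfl⟩
  have oc₁ : J₁.OrdConnected := by
    refine ⟨fun x hx y hy z hz => ?_⟩
    rw [hJ₁] at hx hy ⊢
    refine ⟨hI.out hx.1 hy.1 hz, ?_⟩
    rcases le_total 0 b with h | h
    · nlinarith [hz.1, hx.2]
    · nlinarith [hz.2, hy.2]
  have oc₂ : J₂.OrdConnected := by
    refine ⟨fun x hx y hy z hz => ?_⟩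
    rw [hJ₂] at hx hy ⊢
    refine ⟨hI.out hx.1 hy.1 hz, ?_⟩
    rcases le_total 0 b with h | h
    · nlinarith [hz.2, hy.2]
    · nlinarith [hz.1, hx.2]
  have hx_of : ∀ p q : Pt, (p, q) ∈ EdIn P k Q I → p.1 < q.1 :=
    fun p q he => (mem_Ed.1 (mem_EdIn.1 he).1).2.2.1
  have k₁ := leave_le hP (I := I) (J := J₁) (fun m hm => ((hJ₁ m).1 hm).1) oc₁ H (by
    rintro ⟨p, q⟩ he hs hq
    refine hab p q ?_ hq
    have h1 := hinc p q (hx_of p q he)
    have h2 : 0 ≤ (a + b * sl p q) * (q.1 - p.1) :=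
      mul_nonneg ((hJ₁ _).1 hs).2 (by have := hx_of p q he; linarith)
    linarith)
  have k₂ := leave_le hP (I := I) (J := J₂) (fun m hm => ((hJ₂ m).1 hm).1) oc₂ G (by
    rintro ⟨p, q⟩ he hs hq
    rw [hG] at hq ⊢
    intro hp
    apply hq
    refine hab q p ?_ hp
    have h1 := hinc p q (hx_of p q he)
    have h2 : (a + b * sl p q) * (q.1 - p.1) ≤ 0 :=
      mul_nonpos_of_nonpos_of_nonneg (le_of_lt ((hJ₂ _).1 hs).2)
        (by have := hx_of p q he; linarith)
    linarith)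
  have hsub : ({e ∈ EdIn P k Q I | (e.1 ∈ H ∧ e.2 ∉ H) ∨ (e.1 ∉ H ∧ e.2 ∈ H)} : Finset (Pt × Pt)) ⊆
      ({e ∈ EdIn P k Q I | sl e.1 e.2 ∈ J₁ ∧ e.1 ∈ H ∧ e.2 ∉ H} : Finset (Pt × Pt)) ∪
      ({e ∈ EdIn P k Q I | sl e.1 e.2 ∈ J₂ ∧ e.1 ∈ G ∧ e.2 ∉ G} : Finset (Pt × Pt)) := by
    rintro ⟨p, q⟩ he
    obtain ⟨he, h1⟩ := Finset.mem_filter.1 he
    have h2 := hinc p q (hx_of p q he)
    have h3 : 0 < q.1 - p.1 := by have := hx_of p q he; linarith
    have hsI := (mem_EdIn.1 he).2.2.2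
    rw [Finset.mem_union]
    rcases h1 with ⟨hp, hq⟩ | ⟨hp, hq⟩
    · left
      refine Finset.mem_filter.2 ⟨he, (hJ₁ _).2 ⟨hsI, ?_⟩, hp, hq⟩
      by_contra hneg
      have h4 : (a + b * sl p q) * (q.1 - p.1) < 0 := mul_neg_of_neg_of_pos (not_le.1 hneg) h3
      exact hq (hab q p (by linarith) hp)
    · right
      refine Finset.mem_filter.2 ⟨he, (hJ₂ _).2 ⟨hsI, ?_⟩, (hG _).2 hp, fun h => (hG _).1 h hq⟩
      by_contra hneg
      have h4 : 0 ≤ (a + b * sl p q) * (q.1 - p.1) := mul_nonneg (not_lt.1 hneg) h3.le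
      exact hp (hab p q (by linarith) hq)
  have hT : #{v ∈ Tch P k Q I | v ∈ H} + #{v ∈ Tch P k Q I | v ∈ G} = #(Tch P k Q I) := by
    rw [← Finset.card_filter_add_card_filter_not (s := Tch P k Q I) (fun v => v ∈ H)]
    congr 2
    ext v
    rw [Finset.mem_filter, Finset.mem_filter, hG]
  have hV : #{e ∈ EdBd P k Q I | sl e.1 e.2 ∈ J₁} + #{e ∈ EdBd P k Q I | sl e.1 e.2 ∈ J₂} ≤
      #(EdBd P k Q I) := by
    rw [← Finset.card_union_of_disjoint]
    · exact Finset.card_le_card (Finset.union_subset (Finset.filter_subset _ _)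
        (Finset.filter_subset _ _))
    · rw [Finset.disjoint_left]
      intro e h1 h2
      have a1 := ((hJ₁ _).1 (Finset.mem_filter.1 h1).2).2
      have a2 := ((hJ₂ _).1 (Finset.mem_filter.1 h2).2).2
      linarith
  have h4 := (Finset.card_le_card hsub).trans (Finset.card_union_le _ _)
  omega

open Classical in
/-- the boundary of a cell which is cut out of `Q` by the half-planes `H i`, `i ∈ S` -/
theorem box {P : Finset Pt} (hP : Good P) {k : ℕ} {Q : Finset Pt} {I : Set ℝ}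
    (hI : I.OrdConnected) {ι : Type*} (S : Finset ι) (H : ι → Set Pt) (hH : ∀ i ∈ S, IsHalf (H i))
    {B : Finset Pt} (hB : ∀ z, z ∈ B ↔ z ∈ Q ∧ ∀ i ∈ S, z ∈ H i) :
    #(EdBd P k B I) ≤ #(EdBd P k Q I) + #S * (#(Tch P k Q I) + #(EdBd P k Q I)) := by
  have hsub : EdBd P k B I ⊆ EdBd P k Q I ∪ S.biUnion (fun i =>
      {e ∈ EdIn P k Q I | (e.1 ∈ H i ∧ e.2 ∉ H i) ∨ (e.1 ∉ H i ∧ e.2 ∈ H i)}) := by
    rintro ⟨p, q⟩ he
    unfold EdBd at he
    obtain ⟨he, h1, hs⟩ := Finset.mem_filter.1 he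
    rw [Finset.mem_union, Finset.mem_biUnion]
    simp only at h1 hs
    rcases h1 with ⟨hp, hq⟩ | ⟨hp, hq⟩
    · have hp' := (hB p).1 hp
      by_cases hqQ : q ∈ Q
      · right
        have : ∃ i ∈ S, q ∉ H i := by
          by_contra hn
          push Not at hn
          exact hq ((hB q).2 ⟨hqQ, hn⟩)
        obtain ⟨i, hi, hqi⟩ := this
        exact ⟨i, hi, Finset.mem_filter.2
          ⟨mem_EdIn.2 ⟨he, hp'.1, hqQ, hs⟩, Or.inl ⟨hp'.2 i hi, hqi⟩⟩⟩
      · left
        unfold EdBd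
        exact Finset.mem_filter.2 ⟨he, Or.inl ⟨hp'.1, hqQ⟩, hs⟩
    · have hq' := (hB q).1 hq
      by_cases hpQ : p ∈ Q
      · right
        have : ∃ i ∈ S, p ∉ H i := by
          by_contra hn
          push Not at hn
          exact hp ((hB p).2 ⟨hpQ, hn⟩)
        obtain ⟨i, hi, hpi⟩ := this
        exact ⟨i, hi, Finset.mem_filter.2
          ⟨mem_EdIn.2 ⟨he, hpQ, hq'.1, hs⟩, Or.inr ⟨hpi, hq'.2 i hi⟩⟩⟩
      · left
        unfold EdBd
        exact Finset.mem_filter.2 ⟨he, Or.inr ⟨hpQ, hq'.1⟩, hs⟩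
  refine (Finset.card_le_card hsub).trans ((Finset.card_union_le _ _).trans ?_)
  refine Nat.add_le_add_left ?_ _
  refine Finset.card_biUnion_le.trans ?_
  rw [← smul_eq_mul]
  exact Finset.sum_le_card_nsmul _ _ _ (fun i hi => halfplane hP hI (hH i hi))

end Vale.Agent.P065.UB.RankAux
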