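import Vale.Agent.P065.UB.Defs

/-!
# P065, upper bound, front end: the alternation lemma (helper410)
-/

set_option autoImplicit false

namespace Vale.Agent.P065.UB

open Finset

theorem sl_comm (p q : Pt) : sl p q = sl q p := by
  unfold sl
  rw [← neg_sub q.2 p.2, ← neg_sub q.1 p.1, neg_div_neg_eq]

/-- heights and slopes -/
theorem ht_sub {p q : Pt} (h : p.1 ≠ q.1) (m : ℝ) :
    ht m q - ht m p = (sl p q - m) * (q.1 - p.1) := by
  unfold ht sl
  have : q.1 - p.1 ≠ 0 := sub_ne_zero.mpr (Ne.symm h)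
  field_simp
  ring

theorem ht_eq_iff {p q : Pt} (h : p.1 ≠ q.1) (m : ℝ) : ht m q = ht m p ↔ sl p q = m := by
  have h1 := ht_sub h m
  have h2 : q.1 - p.1 ≠ 0 := sub_ne_zero.mpr (Ne.symm h)
  constructor
  · intro h3
    have h4 : (sl p q - m) * (q.1 - p.1) = 0 := by rw [← h1, h3, sub_self]
    rcases mul_eq_zero.mp h4 with h5 | h5
    · linarith
    · exact absurd h5 h2
  · intro h3
    rw [h3, sub_self, zero_mul] at h1
    linarith

theorem ht_lt_iff_right {v u : Pt} (h : v.1 < u.1) (m : ℝ) : ht m u < ht m v ↔ sl v u < m := by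
  have h1 := ht_sub (ne_of_lt h) m
  have h2 : 0 < u.1 - v.1 := by linarith
  constructor
  · intro h3
    by_contra h4
    have h5 : 0 ≤ (sl v u - m) * (u.1 - v.1) := mul_nonneg (by linarith) h2.le
    linarith
  · intro h3
    have h5 : (sl v u - m) * (u.1 - v.1) < 0 := mul_neg_of_neg_of_pos (by linarith) h2
    linarith

theorem ht_lt_iff_left {v u : Pt} (h : u.1 < v.1) (m : ℝ) : ht m u < ht m v ↔ m < sl v u := by
  have h1 := ht_sub (ne_of_lt h) m
  rw [sl_comm u v] at h1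
  have h2 : 0 < v.1 - u.1 := by linarith
  constructor
  · intro h3
    by_contra h4
    have h5 : (sl v u - m) * (v.1 - u.1) ≤ 0 :=
      mul_nonpos_of_nonpos_of_nonneg (by linarith) h2.le
    linarith
  · intro h3
    have h5 : 0 < (sl v u - m) * (v.1 - u.1) := mul_pos (by linarith) h2
    linarith

open Classical in
/-- the number of points strictly below `v` at time `m` -/
noncomputable def g0 (P : Finset Pt) (m : ℝ) (v : Pt) : ℕ := #{u ∈ P | ht m u < ht m v}

open Classical in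
/-- the number of points below `v` just after the time `m` -/
noncomputable def gp (P : Finset Pt) (m : ℝ) (v : Pt) : ℕ :=
  #{u ∈ P | (v.1 < u.1 ∧ sl v u ≤ m) ∨ (u.1 < v.1 ∧ m < sl v u)}

open Classical in
/-- the number of points below `v` just before the time `m` -/
noncomputable def gm (P : Finset Pt) (m : ℝ) (v : Pt) : ℕ :=
  #{u ∈ P | (v.1 < u.1 ∧ sl v u < m) ∨ (u.1 < v.1 ∧ m ≤ sl v u)}

theorem mem_Ed {P : Finset Pt} {k : ℕ} {e : Pt × Pt} :
    e ∈ Ed P k ↔ e.1 ∈ P ∧ e.2 ∈ P ∧ e.1.1 < e.2.1 ∧ g0 P (sl e.1 e.2) e.1 = k := by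
  classical
  unfold Ed g0
  rw [mem_filter, mem_product]
  constructor
  · rintro ⟨⟨h1, h2⟩, h3, h4⟩
    exact ⟨h1, h2, h3, by convert h4⟩
  · rintro ⟨h1, h2, h3, h4⟩
    exact ⟨⟨h1, h2⟩, h3, by convert h4⟩

theorem gp_eq_gm {P : Finset Pt} {m1 m2 : ℝ} (hm : m1 < m2) {v : Pt}
    (h : ∀ u ∈ P, u.1 ≠ v.1 → ¬ (m1 < sl v u ∧ sl v u < m2)) : gp P m1 v = gm P m2 v := by
  classical
  unfold gp gm
  congr 1
  apply filter_congr
  intro u hu
  have h1 := h u hu
  constructor
  · rintro (⟨h2, h3⟩ | ⟨h2, h3⟩)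
    · left
      exact ⟨h2, by linarith⟩
    · right
      refine ⟨h2, ?_⟩
      by_contra h4
      exact h1 (ne_of_lt h2) ⟨h3, by linarith⟩
  · rintro (⟨h2, h3⟩ | ⟨h2, h3⟩)
    · left
      refine ⟨h2, ?_⟩
      by_contra h4
      exact h1 (ne_of_gt h2) ⟨by linarith, h3⟩
    · right
      exact ⟨h2, by linarith⟩

/-- `u` is the only point with slope `m` seen from `v` -/
theorem uniq {P : Finset Pt} (hP : Good P) {v u u' : Pt} (hv : v ∈ P) (hu : u ∈ P) (hu' : u' ∈ P)
    (h1 : u.1 ≠ v.1) (h2 : u'.1 ≠ v.1) (h : sl v u = sl v u') : u = u' := by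
  by_contra hne
  have h3 : v ≠ u := fun h => h1 (by rw [h])
  have h4 : v ≠ u' := fun h => h2 (by rw [h])
  have h5 := hP.gen (sl v u) v hv u hu u' hu' h3 h4 hne
  have h6 : ht (sl v u) u = ht (sl v u) v := (ht_eq_iff (Ne.symm h1) _).mpr rfl
  have h7 : ht (sl v u) u' = ht (sl v u) v := (ht_eq_iff (Ne.symm h2) _).mpr h.symm
  exact h5 h6.symm h7.symm

/-- step to the right neighbour -/
theorem step_right {P : Finset Pt} (hP : Good P) {v u : Pt} (hv : v ∈ P) (hu : u ∈ P)
    (h : v.1 < u.1) :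
    gm P (sl v u) v = g0 P (sl v u) v ∧ gp P (sl v u) v = g0 P (sl v u) v + 1 := by
  classical
  constructor
  · unfold gm g0
    congr 1
    apply filter_congr
    intro w hw
    constructor
    · rintro (⟨h2, h3⟩ | ⟨h2, h3⟩)
      · exact (ht_lt_iff_right h2 _).mpr h3
      · refine (ht_lt_iff_left h2 _).mpr (lt_of_le_of_ne h3 ?_)
        intro h4
        have := uniq hP hv hu hw (ne_of_gt h) (ne_of_lt h2) h4
        rw [this] at h
        linarith
    · intro h2
      rcases lt_trichotomy v.1 w.1 with h3 | h3 | h3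
      · left
        exact ⟨h3, (ht_lt_iff_right h3 _).mp h2⟩
      · have := hP.xinj v hv w hw h3
        rw [this] at h2
        exact absurd h2 (lt_irrefl _)
      · right
        exact ⟨h3, le_of_lt ((ht_lt_iff_left h3 _).mp h2)⟩
  · unfold gp g0
    have : ({w ∈ P | (v.1 < w.1 ∧ sl v w ≤ sl v u) ∨ (w.1 < v.1 ∧ sl v u < sl v w)} : Finset Pt)
        = insert u ({w ∈ P | ht (sl v u) w < ht (sl v u) v} : Finset Pt) := by
      ext w
      simp only [mem_filter, mem_insert]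
      constructor
      · rintro ⟨hw, (⟨h2, h3⟩ | ⟨h2, h3⟩)⟩
        · rcases lt_or_eq_of_le h3 with h4 | h4
          · right
            exact ⟨hw, (ht_lt_iff_right h2 _).mpr h4⟩
          · left
            exact uniq hP hv hw hu (ne_of_gt h2) (ne_of_gt h) h4
        · right
          exact ⟨hw, (ht_lt_iff_left h2 _).mpr h3⟩
      · rintro (h2 | ⟨hw, h2⟩)
        · rw [h2]
          exact ⟨hu, Or.inl ⟨h, le_refl _⟩⟩
        · refine ⟨hw, ?_⟩
          rcases lt_trichotomy v.1 w.1 with h3 | h3 | h3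
          · left
            exact ⟨h3, le_of_lt ((ht_lt_iff_right h3 _).mp h2)⟩
          · have := hP.xinj v hv w hw h3
            rw [this] at h2
            exact absurd h2 (lt_irrefl _)
          · right
            exact ⟨h3, (ht_lt_iff_left h3 _).mp h2⟩
    rw [this, card_insert_of_notMem]
    simp only [mem_filter, not_and, not_lt]
    intro _
    exact le_of_eq ((ht_eq_iff (ne_of_lt h) _).mpr rfl).symm

/-- step to the left neighbour -/
theorem step_left {P : Finset Pt} (hP : Good P) {v u : Pt} (hv : v ∈ P) (hu : u ∈ P)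
    (h : u.1 < v.1) :
    gm P (sl v u) v = g0 P (sl v u) v + 1 ∧ gp P (sl v u) v = g0 P (sl v u) v := by
  classical
  constructor
  · unfold gm g0
    have : ({w ∈ P | (v.1 < w.1 ∧ sl v w < sl v u) ∨ (w.1 < v.1 ∧ sl v u ≤ sl v w)} : Finset Pt)
        = insert u ({w ∈ P | ht (sl v u) w < ht (sl v u) v} : Finset Pt) := by
      ext w
      simp only [mem_filter, mem_insert]
      constructor
      · rintro ⟨hw, (⟨h2, h3⟩ | ⟨h2, h3⟩)⟩
        · right
          exact ⟨hw, (ht_lt_iff_right h2 _).mpr h3⟩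
        · rcases lt_or_eq_of_le h3 with h4 | h4
          · right
            exact ⟨hw, (ht_lt_iff_left h2 _).mpr h4⟩
          · left
            exact (uniq hP hv hu hw (ne_of_lt h) (ne_of_lt h2) h4).symm
      · rintro (h2 | ⟨hw, h2⟩)
        · rw [h2]
          exact ⟨hu, Or.inr ⟨h, le_refl _⟩⟩
        · refine ⟨hw, ?_⟩
          rcases lt_trichotomy v.1 w.1 with h3 | h3 | h3
          · left
            exact ⟨h3, (ht_lt_iff_right h3 _).mp h2⟩
          · have := hP.xinj v hv w hw h3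
            rw [this] at h2
            exact absurd h2 (lt_irrefl _)
          · right
            exact ⟨h3, le_of_lt ((ht_lt_iff_left h3 _).mp h2)⟩
    rw [this, card_insert_of_notMem]
    simp only [mem_filter, not_and, not_lt]
    intro _
    exact le_of_eq ((ht_eq_iff (ne_of_gt h) _).mpr rfl).symm
  · unfold gp g0
    congr 1
    apply filter_congr
    intro w hw
    constructor
    · rintro (⟨h2, h3⟩ | ⟨h2, h3⟩)
      · refine (ht_lt_iff_right h2 _).mpr (lt_of_le_of_ne h3 ?_)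
        intro h4
        have := uniq hP hv hw hu (ne_of_gt h2) (ne_of_lt h) h4
        rw [this] at h2
        linarith
      · exact (ht_lt_iff_left h2 _).mpr h3
    · intro h2
      rcases lt_trichotomy v.1 w.1 with h3 | h3 | h3
      · left
        exact ⟨h3, le_of_lt ((ht_lt_iff_right h3 _).mp h2)⟩
      · have := hP.xinj v hv w hw h3
        rw [this] at h2
        exact absurd h2 (lt_irrefl _)
      · right
        exact ⟨h3, (ht_lt_iff_left h3 _).mp h2⟩

theorem g0_congr {P : Finset Pt} {m : ℝ} {v w : Pt} (h : ht m v = ht m w) :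
    g0 P m v = g0 P m w := by
  unfold g0
  rw [h]

/-- ranks at a `k`-edge -/
theorem edge_left {P : Finset Pt} (hP : Good P) {k : ℕ} {e : Pt × Pt} (he : e ∈ Ed P k) :
    gm P (sl e.1 e.2) e.1 = k ∧ gp P (sl e.1 e.2) e.1 = k + 1 := by
  obtain ⟨h1, h2, h3, h4⟩ := mem_Ed.mp he
  have := step_right hP h1 h2 h3
  rw [h4] at this
  exact this

theorem edge_ht (e : Pt × Pt) (h3 : e.1.1 < e.2.1) :
    ht (sl e.1 e.2) e.2 = ht (sl e.1 e.2) e.1 := (ht_eq_iff (ne_of_lt h3) _).mpr rfl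

theorem edge_right {P : Finset Pt} (hP : Good P) {k : ℕ} {e : Pt × Pt} (he : e ∈ Ed P k) :
    gm P (sl e.1 e.2) e.2 = k + 1 ∧ gp P (sl e.1 e.2) e.2 = k := by
  obtain ⟨h1, h2, h3, h4⟩ := mem_Ed.mp he
  have := step_left hP h2 h1 h3
  rw [sl_comm e.2 e.1, g0_congr (edge_ht e h3), h4] at this
  exact this

/-- the critical points of `v` in a time interval -/
theorem exists_first {P : Finset Pt} {v : Pt} {m1 m2 : ℝ}
    (h : ¬ ∀ u ∈ P, u.1 ≠ v.1 → ¬ (m1 < sl v u ∧ sl v u < m2)) :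
    ∃ u ∈ P, u.1 ≠ v.1 ∧ m1 < sl v u ∧ sl v u < m2 ∧
      ∀ w ∈ P, w.1 ≠ v.1 → ¬ (m1 < sl v w ∧ sl v w < sl v u) := by
  classical
  push Not at h
  obtain ⟨u0, hu0, h1, h2, h3⟩ := h
  have hne : ({u ∈ P | u.1 ≠ v.1 ∧ m1 < sl v u ∧ sl v u < m2} : Finset Pt).Nonempty :=
    ⟨u0, by simp only [mem_filter]; exact ⟨hu0, h1, h2, h3⟩⟩
  obtain ⟨u, hu, hmin⟩ := exists_min_image _ (fun u => sl v u) hne
  simp only [mem_filter] at hu
  refine ⟨u, hu.1, hu.2.1, hu.2.2.1, hu.2.2.2, ?_⟩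
  rintro w hw h4 ⟨h5, h6⟩
  have := hmin w (by simp only [mem_filter]; exact ⟨hw, h4, h5, by linarith [hu.2.2.2]⟩)
  linarith

open Classical in
/-- number of critical points -/
noncomputable def ncr (P : Finset Pt) (v : Pt) (m1 m2 : ℝ) : ℕ :=
  #{u ∈ P | u.1 ≠ v.1 ∧ m1 < sl v u ∧ sl v u < m2}

theorem ncr_lt {P : Finset Pt} {v u : Pt} {m1 m2 : ℝ} (hu : u ∈ P) (h : u.1 ≠ v.1)
    (h1 : m1 < sl v u) (h2 : sl v u < m2) : ncr P v (sl v u) m2 < ncr P v m1 m2 := by
  classical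
  unfold ncr
  apply card_lt_card
  rw [ssubset_iff_of_subset]
  · refine ⟨u, ?_, ?_⟩
    · simp only [mem_filter]; exact ⟨hu, h, h1, h2⟩
    · simp only [mem_filter, lt_irrefl, false_and, and_false, not_false_iff]
  · intro w hw
    simp only [mem_filter] at hw ⊢
    exact ⟨hw.1, hw.2.1, by linarith [hw.2.2.1], hw.2.2.2⟩

/-- EXIT -/
theorem exit_edge {P : Finset Pt} (hP : Good P) {k : ℕ} {v : Pt} (hv : v ∈ P) :
    ∀ (n : ℕ) (m1 m2 : ℝ), ncr P v m1 m2 = n → m1 < m2 → gp P m1 v ≤ k → k + 1 ≤ gm P m2 v →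
      ∃ w, (v, w) ∈ Ed P k ∧ m1 < sl v w ∧ sl v w < m2 := by
  intro n
  induction n using Nat.strong_induction_on with
  | _ n ih =>
    intro m1 m2 hn hm h1 h2
    by_cases hc : ∀ u ∈ P, u.1 ≠ v.1 → ¬ (m1 < sl v u ∧ sl v u < m2)
    · have := gp_eq_gm hm hc
      omega
    · obtain ⟨u, hu, h3, h4, h5, h6⟩ := exists_first hc
      have h7 := gp_eq_gm h4 h6
      have h8 := ncr_lt hu h3 h4 h5
      rcases lt_or_gt_of_ne h3 with h9 | h9
      · -- `u` left of `v`
        have h10 := step_left hP hv hu h9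
        obtain ⟨w, hw, hw1, hw2⟩ := ih _ (by rw [← hn]; exact h8) (sl v u) m2 rfl h5
          (by omega) h2
        exact ⟨w, hw, by linarith, hw2⟩
      · have h10 := step_right hP hv hu h9
        by_cases hk : g0 P (sl v u) v = k
        · exact ⟨u, mem_Ed.mpr ⟨hv, hu, h9, hk⟩, h4, h5⟩
        · obtain ⟨w, hw, hw1, hw2⟩ := ih _ (by rw [← hn]; exact h8) (sl v u) m2 rfl h5
            (by omega) h2
          exact ⟨w, hw, by linarith, hw2⟩

/-- ENTER -/
theorem enter_edge {P : Finset Pt} (hP : Good P) {k : ℕ} {v : Pt} (hv : v ∈ P) :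
    ∀ (n : ℕ) (m1 m2 : ℝ), ncr P v m1 m2 = n → m1 < m2 → k + 1 ≤ gp P m1 v → gm P m2 v ≤ k →
      ∃ w, (w, v) ∈ Ed P k ∧ m1 < sl w v ∧ sl w v < m2 := by
  intro n
  induction n using Nat.strong_induction_on with
  | _ n ih =>
    intro m1 m2 hn hm h1 h2
    by_cases hc : ∀ u ∈ P, u.1 ≠ v.1 → ¬ (m1 < sl v u ∧ sl v u < m2)
    · have := gp_eq_gm hm hc
      omega
    · obtain ⟨u, hu, h3, h4, h5, h6⟩ := exists_first hc
      have h7 := gp_eq_gm h4 h6
      have h8 := ncr_lt hu h3 h4 h5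
      rcases lt_or_gt_of_ne h3 with h9 | h9
      · -- `u` left of `v`
        have h10 := step_left hP hv hu h9
        by_cases hk : g0 P (sl v u) v = k
        · refine ⟨u, mem_Ed.mpr ⟨hu, hv, h9, ?_⟩, by rw [sl_comm]; exact h4,
            by rw [sl_comm]; exact h5⟩
          have h11 : ht (sl v u) u = ht (sl v u) v := (ht_eq_iff (Ne.symm h3) _).mpr rfl
          show g0 P (sl u v) u = k
          rw [sl_comm u v, g0_congr h11]
          exact hk
        · obtain ⟨w, hw, hw1, hw2⟩ := ih _ (by rw [← hn]; exact h8) (sl v u) m2 rfl h5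
            (by omega) h2
          exact ⟨w, hw, by linarith, hw2⟩
      · have h10 := step_right hP hv hu h9
        obtain ⟨w, hw, hw1, hw2⟩ := ih _ (by rw [← hn]; exact h8) (sl v u) m2 rfl h5
            (by omega) h2
        exact ⟨w, hw, by linarith, hw2⟩

/-- between two incoming edges there is an outgoing one -/
theorem in_in {P : Finset Pt} (hP : Good P) {k : ℕ} {u u' v : Pt} (h : (u, v) ∈ Ed P k)
    (h' : (u', v) ∈ Ed P k) (hs : sl u v < sl u' v) :
    ∃ w, (v, w) ∈ Ed P k ∧ sl u v < sl v w ∧ sl v w < sl u' v :=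
  exit_edge hP (mem_Ed.mp h).2.1 _ _ _ rfl hs (le_of_eq (edge_right hP h).2)
    (le_of_eq (edge_right hP h').1.symm)

/-- between two outgoing edges there is an incoming one -/
theorem out_out {P : Finset Pt} (hP : Good P) {k : ℕ} {u u' v : Pt} (h : (v, u) ∈ Ed P k)
    (h' : (v, u') ∈ Ed P k) (hs : sl v u < sl v u') :
    ∃ w, (w, v) ∈ Ed P k ∧ sl v u < sl w v ∧ sl w v < sl v u' :=
  enter_edge hP (mem_Ed.mp h).1 _ _ _ rfl hs (le_of_eq (edge_left hP h).2.symm)
    (le_of_eq (edge_left hP h').1)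

/-- after an incoming edge, without outgoing edges, the rank stays `≤ k` -/
theorem gp_le_of_no_exit {P : Finset Pt} (hP : Good P) {k : ℕ} {v : Pt} (hv : v ∈ P)
    {m1 m2 : ℝ} (hm : m1 ≤ m2) (h1 : gp P m1 v ≤ k)
    (h : ∀ w, (v, w) ∈ Ed P k → ¬ (m1 < sl v w ∧ sl v w ≤ m2)) : gp P m2 v ≤ k := by
  rcases eq_or_lt_of_le hm with h0 | h0
  · rw [← h0]; exact h1
  by_contra hcon
  push Not at hcon
  -- a time just after `m2`
  classical
  have hex : ∃ m3, m2 < m3 ∧ ∀ u ∈ P, u.1 ≠ v.1 → ¬ (m2 < sl v u ∧ sl v u < m3) := by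
    by_cases hc : ∀ u ∈ P, u.1 ≠ v.1 → ¬ (m2 < sl v u ∧ sl v u < m2 + 1)
    · exact ⟨m2 + 1, by linarith, hc⟩
    · obtain ⟨u, hu, h3, h4, h5, h6⟩ := exists_first hc
      exact ⟨sl v u, h4, h6⟩
  obtain ⟨m3, h3, h4⟩ := hex
  have h5 := gp_eq_gm h3 h4
  obtain ⟨w, hw, hw1, hw2⟩ := exit_edge hP hv _ m1 m3 rfl (by linarith) h1 (by omega)
  apply h w hw
  refine ⟨hw1, ?_⟩
  by_contra h6
  have h7 := (mem_Ed.mp hw)
  exact h4 w h7.2.1 (ne_of_gt h7.2.2.1) ⟨by linarith, hw2⟩

/-- two different points with `gp ≤ k` ... heights are compared by the ranks just after -/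
theorem gp_lt_of {P : Finset Pt} (hP : Good P) {m : ℝ} {v w : Pt} (hv : v ∈ P) (hw : w ∈ P)
    (h : ht m w < ht m v ∨ (ht m w = ht m v ∧ v.1 < w.1)) : gp P m w < gp P m v := by
  classical
  unfold gp
  apply card_lt_card
  rw [ssubset_iff_of_subset]
  · refine ⟨w, ?_, ?_⟩
    · simp only [mem_filter]
      refine ⟨hw, ?_⟩
      rcases h with h | ⟨h, h'⟩
      · rcases lt_trichotomy v.1 w.1 with h3 | h3 | h3
        · left
          exact ⟨h3, le_of_lt ((ht_lt_iff_right h3 _).mp h)⟩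
        · have := hP.xinj v hv w hw h3
          rw [this] at h
          exact absurd h (lt_irrefl _)
        · right
          exact ⟨h3, (ht_lt_iff_left h3 _).mp h⟩
      · left
        exact ⟨h', le_of_eq ((ht_eq_iff (ne_of_lt h') _).mp h)⟩
    · simp only [mem_filter, lt_irrefl, false_and, or_self, and_false, not_false_iff]
  · -- transitivity
    intro u hu
    simp only [mem_filter] at hu ⊢
    refine ⟨hu.1, ?_⟩
    -- `u` is below `w` just after `m`
    have key : ∀ a b : Pt, ((b.1 < a.1 ∧ sl b a ≤ m) ∨ (a.1 < b.1 ∧ m < sl b a)) ↔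
        (ht m a < ht m b ∨ (ht m a = ht m b ∧ b.1 < a.1)) ∧ b.1 ≠ a.1 := by
      intro a b
      constructor
      · rintro (⟨h2, h3⟩ | ⟨h2, h3⟩)
        · rcases lt_or_eq_of_le h3 with h4 | h4
          · exact ⟨Or.inl ((ht_lt_iff_right h2 _).mpr h4), ne_of_lt h2⟩
          · exact ⟨Or.inr ⟨(ht_eq_iff (ne_of_lt h2) _).mpr h4, h2⟩, ne_of_lt h2⟩
        · exact ⟨Or.inl ((ht_lt_iff_left h2 _).mpr h3), ne_of_gt h2⟩
      · rintro ⟨h2 | ⟨h2, h3⟩, h4⟩
        · rcases lt_or_gt_of_ne h4 with h5 | h5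
          · exact Or.inl ⟨h5, le_of_lt ((ht_lt_iff_right h5 _).mp h2)⟩
          · exact Or.inr ⟨h5, (ht_lt_iff_left h5 _).mp h2⟩
        · exact Or.inl ⟨h3, le_of_eq ((ht_eq_iff (ne_of_lt h3) _).mp h2)⟩
    rw [key] at hu ⊢
    obtain ⟨hu0, hu1, hu2⟩ := hu
    constructor
    · rcases h with h | ⟨h, h'⟩ <;> rcases hu1 with h1 | ⟨h1, h1'⟩
      · left; linarith
      · left; linarith
      · left; linarith
      · right
        exact ⟨by linarith, by linarith⟩
    · intro h3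
      have h4 := hP.xinj v hv u hu0 h3
      rw [← h4] at hu1
      rcases h with h | ⟨h, h'⟩ <;> rcases hu1 with h1 | ⟨h1, h1'⟩ <;> linarith

end Vale.Agent.P065.UB
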