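import Vale.Agent.P065.UB.Defs

/-!
# P065, upper bound, front end: the rank lemma `StRank` (helper752)

While the slope `m` runs through an interval `I`, the number of points of `T = Tch P k Q I` among
the `k + 1` lowest points of `P` changes only at the `k`-edges which join `Q` to `P \ Q`.
Every point of `T` has, at the time when it is touched, its rank inside `T` in a window of
length `#EdBd`; so a large `T` forces many pairs of `T` with slope in `I`.
-/

set_option autoImplicit false

namespace Vale.Agent.P065.UB.RankAux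

open Finset

theorem ht_eq_iff {p q : Pt} (h : p.1 < q.1) (m : ℝ) : ht m p = ht m q ↔ m = sl p q := by
  unfold ht sl
  have h' : q.1 - p.1 ≠ 0 := by
    intro h0; linarith
  rw [eq_div_iff h']
  constructor <;> intro h1 <;> linarith

theorem ht_lt_iff {p q : Pt} (h : p.1 < q.1) (m : ℝ) : ht m p < ht m q ↔ m < sl p q := by
  unfold ht sl
  have h' : 0 < q.1 - p.1 := by linarith
  rw [lt_div_iff₀ h']
  constructor <;> intro h1 <;> linarith

theorem lt_ht_iff {p q : Pt} (h : p.1 < q.1) (m : ℝ) : ht m q < ht m p ↔ sl p q < m := by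
  unfold ht sl
  have h' : 0 < q.1 - p.1 := by linarith
  rw [div_lt_iff₀ h']
  constructor <;> intro h1 <;> linarith

/-- `L` is the set of the lowest points just after the time `m` -/
def LowA (P : Finset Pt) (m : ℝ) (L : Finset Pt) : Prop :=
  L ⊆ P ∧ ∀ a ∈ L, ∀ b ∈ P, b ∉ L → ht m a < ht m b ∨ (ht m a = ht m b ∧ b.1 < a.1)

/-- `L` is the set of the lowest points just before the time `m` -/
def LowB (P : Finset Pt) (m : ℝ) (L : Finset Pt) : Prop :=
  L ⊆ P ∧ ∀ a ∈ L, ∀ b ∈ P, b ∉ L → ht m a < ht m b ∨ (ht m a = ht m b ∧ a.1 < b.1)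

/-- two sets of lowest points of the same size are equal -/
theorem LowB.eq {P : Finset Pt} {m : ℝ} {L L' : Finset Pt} (h : LowB P m L) (h' : LowB P m L')
    (hc : #L = #L') : L = L' := by
  classical
  by_contra hne
  have h1 : ¬ L ⊆ L' := fun hs => hne (Finset.eq_of_subset_of_card_le hs hc.ge)
  have h2 : ¬ L' ⊆ L := fun hs => hne (Finset.eq_of_subset_of_card_le hs hc.le).symm
  obtain ⟨a, ha, ha'⟩ := Finset.not_subset.1 h1
  obtain ⟨b, hb, hb'⟩ := Finset.not_subset.1 h2
  have e1 := h.2 a ha b (h'.1 hb) hb'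
  have e2 := h'.2 b hb a (h.1 ha) ha'
  rcases e1 with e1 | ⟨e1, e1'⟩ <;> rcases e2 with e2 | ⟨e2, e2'⟩ <;> linarith

open Classical in
/-- the `k`-edges of `P` with exactly one end in `T` and slope in `(m₁, m₂)` -/
noncomputable def Mix (P : Finset Pt) (k : ℕ) (T : Finset Pt) (m₁ m₂ : ℝ) : Finset (Pt × Pt) :=
  {e ∈ Ed P k | ((e.1 ∈ T ∧ e.2 ∉ T) ∨ (e.1 ∉ T ∧ e.2 ∈ T)) ∧ m₁ < sl e.1 e.2 ∧ sl e.1 e.2 < m₂}

open Classical in
/-- **the cursor**: between two times, the number of points of `T` among the `k + 1` lowest points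
changes by at most the number of `k`-edges with exactly one end in `T`. -/
theorem cursor {P : Finset Pt} (hP : Good P) {k : ℕ} (T : Finset Pt) {m₂ : ℝ} {L' : Finset Pt}
    (hL' : LowB P m₂ L') (hc' : #L' = k + 1) :
    ∀ (n : ℕ) (m₁ : ℝ) (L : Finset Pt),
      #{e ∈ Ed P k | m₁ < sl e.1 e.2 ∧ sl e.1 e.2 < m₂} < n → m₁ < m₂ → LowA P m₁ L →
      #L = k + 1 →
      #(L ∩ T) ≤ #(L' ∩ T) + #(Mix P k T m₁ m₂) ∧ #(L' ∩ T) ≤ #(L ∩ T) + #(Mix P k T m₁ m₂) := by
  intro n
  induction n with
  | zero => intro m₁ L hn; omega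
  | succ n ih =>
    intro m₁ L hn hm hL hc
    -- the pairs `a ∈ L`, `b ∉ L` which are swapped
    set X : Finset (Pt × Pt) :=
      {e ∈ L ×ˢ (P \ L) | e.1.1 < e.2.1 ∧ m₁ < sl e.1 e.2 ∧ sl e.1 e.2 < m₂} with hX
    have memX : ∀ a b, (a, b) ∈ X ↔ a ∈ L ∧ b ∈ P ∧ b ∉ L ∧ a.1 < b.1 ∧ m₁ < sl a b ∧
        sl a b < m₂ := by
      intro a b
      simp only [hX, Finset.mem_filter, Finset.mem_product, Finset.mem_sdiff]
      tauto
    rcases X.eq_empty_or_nonempty with hE | hE
    · -- nothing happens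
      have hB : LowB P m₂ L := by
        refine ⟨hL.1, fun a ha b hb hbL => ?_⟩
        have hab : a ≠ b := fun h => hbL (h ▸ ha)
        have h1 := hL.2 a ha b hb hbL
        rcases lt_trichotomy a.1 b.1 with hx | hx | hx
        · -- `a` left of `b`
          have h2 : m₁ < sl a b := by
            rcases h1 with h1 | ⟨_, h1⟩
            · exact (ht_lt_iff hx m₁).1 h1
            · exact absurd h1 (not_lt.2 hx.le)
          have h3 : ¬ sl a b < m₂ := by
            intro h3
            have : (a, b) ∈ X := (memX a b).2 ⟨ha, hb, hbL, hx, h2, h3⟩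
            rw [hE] at this
            exact absurd this (Finset.notMem_empty _)
          rcases (not_lt.1 h3).lt_or_eq with h4 | h4
          · exact Or.inl ((ht_lt_iff hx m₂).2 h4)
          · exact Or.inr ⟨(ht_eq_iff hx m₂).2 h4, hx⟩
        · exact absurd (hP.xinj a (hL.1 ha) b hb hx) hab
        · -- `b` left of `a`
          have h2 : sl b a ≤ m₁ := by
            rcases h1 with h1 | ⟨h1, _⟩
            · exact ((lt_ht_iff hx m₁).1 h1).le
            · exact ((ht_eq_iff hx m₁).1 h1.symm).ge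
          exact Or.inl ((lt_ht_iff hx m₂).2 (lt_of_le_of_lt h2 hm))
      have := hB.eq hL' (by rw [hc, hc'])
      subst this
      constructor <;> omega
    · -- the first swap
      obtain ⟨⟨a, b⟩, hab, hmin⟩ := X.exists_min_image (fun e => sl e.1 e.2) hE
      have hab' := (memX a b).1 hab
      obtain ⟨ha, hb, hbL, hx, hs1, hs2⟩ := hab'
      set s := sl a b with hs
      have hne : a ≠ b := fun h => hbL (h ▸ ha)
      have heq : ht s a = ht s b := (ht_eq_iff hx s).2 rfl
      -- members are still below the others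
      have hle : ∀ a' ∈ L, ∀ b' ∈ P, b' ∉ L → ht s a' ≤ ht s b' := by
        intro a' ha' b' hb' hbL'
        have hne' : a' ≠ b' := fun h => hbL' (h ▸ ha')
        have h1 := hL.2 a' ha' b' hb' hbL'
        rcases lt_trichotomy a'.1 b'.1 with hx' | hx' | hx'
        · by_contra hlt
          have h3 : sl a' b' < s := (lt_ht_iff hx' s).1 (not_le.1 hlt)
          have h2 : m₁ < sl a' b' := by
            rcases h1 with h1 | ⟨_, h1⟩
            · exact (ht_lt_iff hx' m₁).1 h1
            · exact absurd h1 (not_lt.2 hx'.le)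
          have : (a', b') ∈ X := (memX a' b').2 ⟨ha', hb', hbL', hx', h2, h3.trans hs2⟩
          have := hmin _ this
          simp only at this
          linarith
        · exact absurd (hP.xinj a' (hL.1 ha') b' hb' hx') hne'
        · have h2 : sl b' a' ≤ m₁ := by
            rcases h1 with h1 | ⟨h1, _⟩
            · exact ((lt_ht_iff hx' m₁).1 h1).le
            · exact ((ht_eq_iff hx' m₁).1 h1.symm).ge
          exact ((lt_ht_iff hx' s).2 (lt_of_le_of_lt h2 hs1)).le
      -- strictly
      have hA : ∀ a' ∈ L, a' ≠ a → ht s a' < ht s a := by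
        intro a' ha' hne'
        refine lt_of_le_of_ne (heq ▸ hle a' ha' b hb hbL) fun h => ?_
        have hb' : a' ≠ b := fun h => hbL (h ▸ ha')
        exact hP.gen s a (hL.1 ha) b hb a' (hL.1 ha') hne (Ne.symm hne') (Ne.symm hb') heq h.symm
      have hB : ∀ b' ∈ P, b' ∉ L → b' ≠ b → ht s a < ht s b' := by
        intro b' hb' hbL' hne'
        refine lt_of_le_of_ne (hle a ha b' hb' hbL') fun h => ?_
        have ha' : b' ≠ a := fun h => hbL' (h ▸ ha)
        exact hP.gen s a (hL.1 ha) b hb b' hb' hne (Ne.symm ha') (Ne.symm hne') heq h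
      -- `(a, b)` is a `k`-edge
      have hfil : ({v ∈ P | ht s v < ht s a} : Finset Pt) = L.erase a := by
        ext v
        simp only [Finset.mem_filter, Finset.mem_erase]
        constructor
        · rintro ⟨hv, hlt⟩
          refine ⟨fun h => by rw [h] at hlt; exact lt_irrefl _ hlt, ?_⟩
          by_contra hvL
          by_cases hvb : v = b
          · rw [hvb, ← heq] at hlt; exact lt_irrefl _ hlt
          · exact lt_asymm hlt (hB v hv hvL hvb)
        · rintro ⟨hva, hvL⟩
          exact ⟨hL.1 hvL, hA v hvL hva⟩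
      have hk : #(L.erase a) = k := by rw [Finset.card_erase_of_mem ha, hc]; rfl
      have hEd : (a, b) ∈ Ed P k := by
        unfold Ed
        simp only [Finset.mem_filter, Finset.mem_product]
        refine ⟨⟨hL.1 ha, hb⟩, hx, ?_⟩
        rw [← hs, hfil, hk]
      -- the new set
      set L1 := insert b (L.erase a) with hL1
      have hbe : b ∉ L.erase a := fun h => hbL (Finset.mem_of_mem_erase h)
      have hc1 : #L1 = k + 1 := by rw [hL1, Finset.card_insert_of_notMem hbe, hk]
      have hLow1 : LowA P s L1 := by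
        refine ⟨?_, ?_⟩
        · intro v hv
          rcases Finset.mem_insert.1 hv with rfl | hv
          · exact hb
          · exact hL.1 (Finset.mem_of_mem_erase hv)
        · intro a' ha' b' hb' hbL'
          have hb1 : b' ≠ b := fun h => hbL' (h ▸ Finset.mem_insert_self _ _)
          have hb2 : b' = a ∨ b' ∉ L := by
            by_cases h : b' = a
            · exact Or.inl h
            · right
              intro h'
              exact hbL' (Finset.mem_insert_of_mem (Finset.mem_erase.2 ⟨h, h'⟩))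
          have hbh : ht s a ≤ ht s b' := by
            rcases hb2 with h | h
            · rw [h]
            · exact (hB b' hb' h hb1).le
          rcases Finset.mem_insert.1 ha' with h | h
          · -- `a' = b`
            subst h
            rcases hb2 with h | h
            · right; rw [h]; exact ⟨heq.symm, hx⟩
            · left; rw [← heq]; exact hB b' hb' h hb1
          · left
            have h' := Finset.mem_erase.1 h
            exact lt_of_lt_of_le (hA a' h'.2 h'.1) hbh
      have hcard : #{e ∈ Ed P k | s < sl e.1 e.2 ∧ sl e.1 e.2 < m₂} < n := by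
        have : #{e ∈ Ed P k | s < sl e.1 e.2 ∧ sl e.1 e.2 < m₂} <
            #{e ∈ Ed P k | m₁ < sl e.1 e.2 ∧ sl e.1 e.2 < m₂} := by
          apply Finset.card_lt_card
          rw [Finset.ssubset_iff_of_subset]
          · refine ⟨(a, b), ?_, ?_⟩
            · simp only [Finset.mem_filter]
              exact ⟨hEd, hs1, hs2⟩
            · simp only [Finset.mem_filter, not_and]
              intro _ h
              exact absurd h (lt_irrefl _)
          · intro e he
            simp only [Finset.mem_filter] at he ⊢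
            exact ⟨he.1, hs1.trans he.2.1, he.2.2⟩
        omega
      have key := ih s L1 hcard hs2 hLow1 hc1
      -- compare `L` and `L1`
      have hMsub : Mix P k T s m₂ ⊆ Mix P k T m₁ m₂ := by
        intro e he
        unfold Mix at he ⊢
        simp only [Finset.mem_filter] at he ⊢
        exact ⟨he.1, he.2.1, hs1.trans he.2.2.1, he.2.2.2⟩
      have hMle := Finset.card_le_card hMsub
      have hcomp : #(L ∩ T) ≤ #(L1 ∩ T) + (#(Mix P k T m₁ m₂) - #(Mix P k T s m₂)) ∧
          #(L1 ∩ T) ≤ #(L ∩ T) + (#(Mix P k T m₁ m₂) - #(Mix P k T s m₂)) := by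
        have e1 : #(L ∩ T) = #(L.erase a ∩ T) + (if a ∈ T then 1 else 0) := by
          conv_lhs => rw [← Finset.insert_erase ha]
          split_ifs with h
          · rw [Finset.insert_inter_of_mem h, Finset.card_insert_of_notMem]
            intro h'
            exact (Finset.notMem_erase a L) (Finset.mem_inter.1 h').1
          · rw [Finset.insert_inter_of_notMem h]; rfl
        have e2 : #(L1 ∩ T) = #(L.erase a ∩ T) + (if b ∈ T then 1 else 0) := by
          rw [hL1]
          split_ifs with h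
          · rw [Finset.insert_inter_of_mem h, Finset.card_insert_of_notMem]
            intro h'
            exact hbe (Finset.mem_inter.1 h').1
          · rw [Finset.insert_inter_of_notMem h]; rfl
        by_cases hmix : (a ∈ T ∧ b ∉ T) ∨ (a ∉ T ∧ b ∈ T)
        · have hlt : #(Mix P k T s m₂) < #(Mix P k T m₁ m₂) := by
            apply Finset.card_lt_card
            rw [Finset.ssubset_iff_of_subset hMsub]
            refine ⟨(a, b), ?_, ?_⟩
            · unfold Mix
              simp only [Finset.mem_filter]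
              exact ⟨hEd, hmix, hs1, hs2⟩
            · unfold Mix
              simp only [Finset.mem_filter, not_and]
              intro _ _ h
              exact absurd h (lt_irrefl _)
          rw [e1, e2]
          constructor <;> split_ifs <;> omega
        · have : (if a ∈ T then 1 else 0) = (if b ∈ T then 1 else 0) := by
            by_cases h1 : a ∈ T <;> by_cases h2 : b ∈ T <;> simp [h1, h2] <;> tauto
          rw [e1, e2, this]
          constructor <;> omega
      omega

open Classical in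
theorem mem_Ed {P : Finset Pt} {k : ℕ} {p q : Pt} : (p, q) ∈ Ed P k ↔
    p ∈ P ∧ q ∈ P ∧ p.1 < q.1 ∧ #{v ∈ P | ht (sl p q) v < ht (sl p q) p} = k := by
  unfold Ed
  simp only [Finset.mem_filter, Finset.mem_product]
  tauto

open Classical in
/-- the lowest points just before and just after the time of a `k`-edge -/
theorem low_of_edge {P : Finset Pt} (hP : Good P) {k : ℕ} {p q : Pt} (he : (p, q) ∈ Ed P k) :
    LowA P (sl p q) (insert q ({v ∈ P | ht (sl p q) v < ht (sl p q) p} : Finset Pt)) ∧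
    LowB P (sl p q) (insert p ({v ∈ P | ht (sl p q) v < ht (sl p q) p} : Finset Pt)) ∧
    #(insert q ({v ∈ P | ht (sl p q) v < ht (sl p q) p} : Finset Pt)) = k + 1 ∧
    #(insert p ({v ∈ P | ht (sl p q) v < ht (sl p q) p} : Finset Pt)) = k + 1 := by
  obtain ⟨hp, hq, hx, hc⟩ := mem_Ed.1 he
  set s := sl p q with hs
  have heq : ht s p = ht s q := (ht_eq_iff hx s).2 rfl
  have hne : p ≠ q := fun h => by rw [h] at hx; exact lt_irrefl _ hx
  set B : Finset Pt := {v ∈ P | ht s v < ht s p} with hB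
  have memB : ∀ v, v ∈ B ↔ v ∈ P ∧ ht s v < ht s p := by
    intro v; simp only [hB, Finset.mem_filter]
  have hpB : p ∉ B := fun h => lt_irrefl _ ((memB p).1 h).2
  have hqB : q ∉ B := fun h => by
    have := ((memB q).1 h).2
    rw [← heq] at this
    exact lt_irrefl _ this
  have hup : ∀ v ∈ P, v ∉ B → v ≠ p → v ≠ q → ht s p < ht s v := by
    intro v hv hvB h1 h2
    refine lt_of_le_of_ne ?_ fun h => hP.gen s p hp q hq v hv hne (Ne.symm h1) (Ne.symm h2) heq h
    by_contra hlt
    exact hvB ((memB v).2 ⟨hv, not_le.1 hlt⟩)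
  refine ⟨⟨?_, ?_⟩, ⟨?_, ?_⟩, ?_, ?_⟩
  · intro v hv
    rcases Finset.mem_insert.1 hv with rfl | hv
    · exact hq
    · exact ((memB v).1 hv).1
  · intro a ha b hb hbL
    have hb1 : b ≠ q := fun h => hbL (h ▸ Finset.mem_insert_self _ _)
    have hb2 : b ∉ B := fun h => hbL (Finset.mem_insert_of_mem h)
    by_cases hbp : b = p
    · subst hbp
      rcases Finset.mem_insert.1 ha with h | h
      · right; rw [h]; exact ⟨heq.symm, hx⟩
      · left; exact ((memB a).1 h).2
    · left
      have h3 := hup b hb hb2 hbp hb1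
      rcases Finset.mem_insert.1 ha with h | h
      · rw [h, ← heq]; exact h3
      · exact ((memB a).1 h).2.trans h3
  · intro v hv
    rcases Finset.mem_insert.1 hv with rfl | hv
    · exact hp
    · exact ((memB v).1 hv).1
  · intro a ha b hb hbL
    have hb1 : b ≠ p := fun h => hbL (h ▸ Finset.mem_insert_self _ _)
    have hb2 : b ∉ B := fun h => hbL (Finset.mem_insert_of_mem h)
    by_cases hbq : b = q
    · subst hbq
      rcases Finset.mem_insert.1 ha with h | h
      · right; rw [h]; exact ⟨heq, hx⟩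
      · left; rw [← heq]; exact ((memB a).1 h).2
    · left
      have h3 := hup b hb hb2 hb1 hbq
      rcases Finset.mem_insert.1 ha with h | h
      · rw [h]; exact h3
      · exact ((memB a).1 h).2.trans h3
  · rw [Finset.card_insert_of_notMem hqB, hc]
  · rw [Finset.card_insert_of_notMem hpB, hc]

open Classical in
/-- the number of points of `T` strictly below the line of `e` -/
noncomputable def cT (T : Finset Pt) (e : Pt × Pt) : ℕ :=
  #{u ∈ T | ht (sl e.1 e.2) u < ht (sl e.1 e.2) e.1}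

open Classical in
theorem insert_inter_cT {P T : Finset Pt} (hT : T ⊆ P) {p q r : Pt} (hr : r ∈ T)
    (hrB : ¬ ht (sl p q) r < ht (sl p q) p) :
    #(insert r ({v ∈ P | ht (sl p q) v < ht (sl p q) p} : Finset Pt) ∩ T) = cT T (p, q) + 1 := by
  rw [Finset.insert_inter_of_mem hr, Finset.card_insert_of_notMem]
  · congr 1
    unfold cT
    congr 1
    ext v
    simp only [Finset.mem_inter, Finset.mem_filter]
    constructor
    · rintro ⟨⟨_, h⟩, h'⟩; exact ⟨h', h⟩
    · rintro ⟨h, h'⟩; exact ⟨⟨hT h, h'⟩, h⟩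
  · intro h
    exact hrB (Finset.mem_filter.1 (Finset.mem_inter.1 h).1).2

open Classical in
theorem mem_EdIn {P : Finset Pt} {k : ℕ} {Q : Finset Pt} {I : Set ℝ} {p q : Pt} :
    (p, q) ∈ EdIn P k Q I ↔ (p, q) ∈ Ed P k ∧ p ∈ Q ∧ q ∈ Q ∧ sl p q ∈ I := by
  unfold EdIn
  simp only [Finset.mem_filter]

open Classical in
theorem mem_Tch {P : Finset Pt} {k : ℕ} {Q : Finset Pt} {I : Set ℝ} {v : Pt} :
    v ∈ Tch P k Q I ↔ v ∈ Q ∧ ∃ e ∈ EdIn P k Q I, e.1 = v ∨ e.2 = v := by
  unfold Tch
  simp only [Finset.mem_filter]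

/-- the edges with exactly one touched end have exactly one end in `Q` -/
theorem Mix_subset {P : Finset Pt} {k : ℕ} {Q : Finset Pt} {I : Set ℝ} (hI : I.OrdConnected)
    {m₁ m₂ : ℝ} (h₁ : m₁ ∈ I) (h₂ : m₂ ∈ I) :
    Mix P k (Tch P k Q I) m₁ m₂ ⊆ EdBd P k Q I := by
  classical
  rintro ⟨p, q⟩ he
  unfold Mix at he
  unfold EdBd
  simp only [Finset.mem_filter] at he ⊢
  obtain ⟨hE, hm, h3, h4⟩ := he
  have hs : sl p q ∈ I := hI.out h₁ h₂ ⟨h3.le, h4.le⟩
  refine ⟨hE, ?_, hs⟩
  rcases hm with ⟨hp, hq⟩ | ⟨hp, hq⟩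
  · left
    refine ⟨(mem_Tch.1 hp).1, fun hqQ => hq ?_⟩
    exact mem_Tch.2 ⟨hqQ, (p, q), mem_EdIn.2 ⟨hE, (mem_Tch.1 hp).1, hqQ, hs⟩, Or.inr rfl⟩
  · right
    refine ⟨fun hpQ => hp ?_, (mem_Tch.1 hq).1⟩
    exact mem_Tch.2 ⟨hpQ, (p, q), mem_EdIn.2 ⟨hE, hpQ, (mem_Tch.1 hq).1, hs⟩, Or.inl rfl⟩

theorem Tch_subset (P : Finset Pt) (k : ℕ) (Q : Finset Pt) (I : Set ℝ) : Tch P k Q I ⊆ Q :=
  fun _ h => (mem_Tch.1 h).1

/-- **the window of the ranks** -/
theorem window {P : Finset Pt} (hP : Good P) {k : ℕ} {Q : Finset Pt} (hQ : Q ⊆ P) {I : Set ℝ}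
    (hI : I.OrdConnected) {e e' : Pt × Pt} (he : e ∈ EdIn P k Q I) (he' : e' ∈ EdIn P k Q I) :
    cT (Tch P k Q I) e ≤ cT (Tch P k Q I) e' + #(EdBd P k Q I) := by
  classical
  have hTP : Tch P k Q I ⊆ P := (Tch_subset P k Q I).trans hQ
  -- ordered case
  have main : ∀ f f' : Pt × Pt, f ∈ EdIn P k Q I → f' ∈ EdIn P k Q I →
      sl f.1 f.2 < sl f'.1 f'.2 →
      cT (Tch P k Q I) f ≤ cT (Tch P k Q I) f' + #(EdBd P k Q I) ∧
      cT (Tch P k Q I) f' ≤ cT (Tch P k Q I) f + #(EdBd P k Q I) := by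
    rintro ⟨p, q⟩ ⟨p', q'⟩ hf hf' hlt
    have h1 := mem_EdIn.1 hf
    have h2 := mem_EdIn.1 hf'
    have hx := (mem_Ed.1 h1.1).2.2.1
    obtain ⟨l1, l2, l3, l4⟩ := low_of_edge hP h1.1
    obtain ⟨l1', l2', l3', l4'⟩ := low_of_edge hP h2.1
    have hq : q ∈ Tch P k Q I := mem_Tch.2 ⟨h1.2.2.1, (p, q), hf, Or.inr rfl⟩
    have hp' : p' ∈ Tch P k Q I := mem_Tch.2 ⟨h2.2.1, (p', q'), hf', Or.inl rfl⟩
    have key := cursor hP (Tch P k Q I) l2' l4' _ (sl p q) _ (Nat.lt_succ_self _) hlt l1 l3
    have hM := Finset.card_le_card (Mix_subset (P := P) (k := k) (Q := Q) hI h1.2.2.2 h2.2.2.2)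
    rw [insert_inter_cT hTP hq (by rw [(ht_eq_iff hx (sl p q)).2 rfl]; exact lt_irrefl _),
      insert_inter_cT hTP hp' (lt_irrefl _)] at key
    constructor <;> omega
  rcases lt_trichotomy (sl e.1 e.2) (sl e'.1 e'.2) with h | h | h
  · exact (main e e' he he' h).1
  · -- the same time: the same line
    obtain ⟨p, q⟩ := e
    obtain ⟨p', q'⟩ := e'
    simp only at h
    have h1 := mem_EdIn.1 he
    have h2 := mem_EdIn.1 he'
    have c1 := (mem_Ed.1 h1.1)
    have c2 := (mem_Ed.1 h2.1)
    have hh : ht (sl p q) p = ht (sl p q) p' := by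
      rcases lt_trichotomy (ht (sl p q) p) (ht (sl p q) p') with h3 | h3 | h3
      · exfalso
        have : #{v ∈ P | ht (sl p q) v < ht (sl p q) p} <
            #{v ∈ P | ht (sl p' q') v < ht (sl p' q') p'} := by
          rw [← h]
          apply Finset.card_lt_card
          rw [Finset.ssubset_iff_of_subset]
          · exact ⟨p, Finset.mem_filter.2 ⟨c1.1, h3⟩, fun h4 => lt_irrefl _ (Finset.mem_filter.1 h4).2⟩
          · intro v hv
            rw [Finset.mem_filter] at hv ⊢
            exact ⟨hv.1, hv.2.trans h3⟩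
        rw [c1.2.2.2, c2.2.2.2] at this
        exact lt_irrefl _ this
      · exact h3
      · exfalso
        have : #{v ∈ P | ht (sl p' q') v < ht (sl p' q') p'} <
            #{v ∈ P | ht (sl p q) v < ht (sl p q) p} := by
          rw [← h]
          apply Finset.card_lt_card
          rw [Finset.ssubset_iff_of_subset]
          · exact ⟨p', Finset.mem_filter.2 ⟨c2.1, h3⟩, fun h4 => lt_irrefl _ (Finset.mem_filter.1 h4).2⟩
          · intro v hv
            rw [Finset.mem_filter] at hv ⊢
            exact ⟨hv.1, hv.2.trans h3⟩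
        rw [c1.2.2.2, c2.2.2.2] at this
        exact lt_irrefl _ this
    have : cT (Tch P k Q I) (p, q) = cT (Tch P k Q I) (p', q') := by
      unfold cT
      simp only
      rw [← h, hh]
    omega
  · exact (main e' e he' he h).2

open Classical in
/-- the points of `T` below `v` at time `m` -/
noncomputable def Bel (T : Finset Pt) (m : ℝ) (v : Pt) : Finset Pt := {u ∈ T | ht m u < ht m v}

theorem mem_Bel {T : Finset Pt} {m : ℝ} {u v : Pt} : u ∈ Bel T m v ↔ u ∈ T ∧ ht m u < ht m v := by
  classical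
  unfold Bel
  simp only [Finset.mem_filter]

open Classical in
/-- the partners of `v` in the swaps of slope in `I` -/
noncomputable def Par (T : Finset Pt) (I : Set ℝ) (v : Pt) : Finset Pt :=
  {u ∈ T | (u, v) ∈ Sw T I ∨ (v, u) ∈ Sw T I}

open Classical in
theorem mem_Sw {T : Finset Pt} {I : Set ℝ} {u v : Pt} :
    (u, v) ∈ Sw T I ↔ u ∈ T ∧ v ∈ T ∧ u.1 < v.1 ∧ sl u v ∈ I := by
  unfold Sw
  simp only [Finset.mem_filter, Finset.mem_product]
  tauto

/-- the rank of `v` changes by at most the number of its swaps -/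
theorem shift {P T : Finset Pt} (hP : Good P) (hT : T ⊆ P) {I : Set ℝ} (hI : I.OrdConnected)
    {m m' : ℝ} (hm : m ∈ I) (hm' : m' ∈ I) {v : Pt} (hv : v ∈ T) :
    #(Bel T m v) ≤ #(Bel T m' v) + #(Par T I v) := by
  classical
  refine le_trans (Finset.card_le_card ?_) (Finset.card_union_le _ _)
  intro u hu
  obtain ⟨huT, hlt⟩ := mem_Bel.1 hu
  by_cases h : u ∈ Bel T m' v
  · exact Finset.mem_union_left _ h
  refine Finset.mem_union_right _ ?_
  have hge : ht m' v ≤ ht m' u := by
    by_contra hh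
    exact h (mem_Bel.2 ⟨huT, not_le.1 hh⟩)
  unfold Par
  rw [Finset.mem_filter]
  refine ⟨huT, ?_⟩
  have hne : u ≠ v := fun h' => by rw [h'] at hlt; exact lt_irrefl _ hlt
  rcases lt_trichotomy u.1 v.1 with hx | hx | hx
  · left
    have h1 : m < sl u v := (ht_lt_iff hx m).1 hlt
    have h2 : sl u v ≤ m' := by
      by_contra h3
      exact absurd hge (not_le.2 ((ht_lt_iff hx m').2 (not_le.1 h3)))
    exact mem_Sw.2 ⟨huT, hv, hx, hI.out hm hm' ⟨h1.le, h2⟩⟩
  · exact absurd (hP.xinj u (hT huT) v (hT hv) hx) hne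
  · right
    have h1 : sl v u < m := (lt_ht_iff hx m).1 hlt
    have h2 : m' ≤ sl v u := by
      by_contra h3
      exact absurd hge (not_le.2 ((lt_ht_iff hx m').2 (not_le.1 h3)))
    exact mem_Sw.2 ⟨hv, huT, hx, hI.out hm' hm ⟨h2, h1.le⟩⟩

/-- every swap is counted twice -/
theorem sum_Par (T : Finset Pt) (I : Set ℝ) : ∑ v ∈ T, #(Par T I v) ≤ 2 * #(Sw T I) := by
  classical
  have h1 : ∀ v ∈ T, #(Par T I v) ≤ #{e ∈ Sw T I | e.2 = v} + #{e ∈ Sw T I | e.1 = v} := by
    intro v _
    have hsub : Par T I v ⊆ ({e ∈ Sw T I | e.2 = v} : Finset (Pt × Pt)).image Prod.fst ∪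
        ({e ∈ Sw T I | e.1 = v} : Finset (Pt × Pt)).image Prod.snd := by
      intro u hu
      unfold Par at hu
      rw [Finset.mem_filter] at hu
      rcases hu.2 with h | h
      · refine Finset.mem_union_left _ (Finset.mem_image.2 ⟨(u, v), ?_, rfl⟩)
        exact Finset.mem_filter.2 ⟨h, rfl⟩
      · refine Finset.mem_union_right _ (Finset.mem_image.2 ⟨(v, u), ?_, rfl⟩)
        exact Finset.mem_filter.2 ⟨h, rfl⟩
    refine (Finset.card_le_card hsub).trans ((Finset.card_union_le _ _).trans ?_)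
    exact Nat.add_le_add Finset.card_image_le Finset.card_image_le
  refine (Finset.sum_le_sum h1).trans ?_
  rw [Finset.sum_add_distrib, two_mul]
  refine Nat.add_le_add (le_of_eq ?_) (le_of_eq ?_)
  · symm
    apply Finset.card_eq_sum_card_fiberwise
    rintro ⟨a, b⟩ he
    exact (mem_Sw.1 (Finset.mem_coe.1 he)).2.1
  · symm
    apply Finset.card_eq_sum_card_fiberwise
    rintro ⟨a, b⟩ he
    exact (mem_Sw.1 (Finset.mem_coe.1 he)).1

/-- equal ranks mean equal heights -/
theorem ht_eq_of_rank {T : Finset Pt} {m : ℝ} {u v : Pt} (hu : u ∈ T) (hv : v ∈ T)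
    (h : #(Bel T m u) = #(Bel T m v)) : ht m u = ht m v := by
  classical
  have main : ∀ a b : Pt, a ∈ T → ht m a < ht m b → #(Bel T m a) < #(Bel T m b) := by
    intro a b ha hab
    apply Finset.card_lt_card
    rw [Finset.ssubset_iff_of_subset]
    · exact ⟨a, mem_Bel.2 ⟨ha, hab⟩, fun h' => lt_irrefl _ (mem_Bel.1 h').2⟩
    · intro x hx
      obtain ⟨h1, h2⟩ := mem_Bel.1 hx
      exact mem_Bel.2 ⟨h1, h2.trans hab⟩
  rcases lt_trichotomy (ht m u) (ht m v) with h1 | h1 | h1
  · exact absurd h (main u v hu h1).ne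
  · exact h1
  · exact absurd h (main v u hv h1).ne'

/-- every rank is taken at most twice -/
theorem card_rank_le {P T : Finset Pt} (hP : Good P) (hT : T ⊆ P) (m : ℝ) (j : ℕ) :
    #{v ∈ T | #(Bel T m v) = j} ≤ 2 := by
  classical
  by_contra hlt
  obtain ⟨a, b, c, ha, hb, hc, hab, hac, hbc⟩ := Finset.two_lt_card_iff.1 (not_le.1 hlt)
  rw [Finset.mem_filter] at ha hb hc
  exact hP.gen m a (hT ha.1) b (hT hb.1) c (hT hc.1) hab hac hbc
    (ht_eq_of_rank ha.1 hb.1 (by rw [ha.2, hb.2])) (ht_eq_of_rank ha.1 hc.1 (by rw [ha.2, hc.2]))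

end Vale.Agent.P065.UB.RankAux

namespace Vale.Agent.P065.UB

open Finset RankAux

/-- **RANK** -/
theorem stRank : StRank := by
  classical
  intro P k Q I hP hQ hI h8
  set T := Tch P k Q I with hTdef
  set V := #(EdBd P k Q I) with hV
  have hTP : T ⊆ P := (Tch_subset P k Q I).trans hQ
  -- an edge of minimal rank
  have hTne : T.Nonempty := by
    rw [← Finset.card_pos]; omega
  obtain ⟨v0, hv0⟩ := hTne
  obtain ⟨_, e1, he1, _⟩ := mem_Tch.1 hv0
  obtain ⟨e0, he0, hmin⟩ := (EdIn P k Q I).exists_min_image (fun e => cT T e) ⟨e1, he1⟩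
  set c0 := cT T e0 with hc0
  set t0 := sl e0.1 e0.2 with ht0
  have ht0I : t0 ∈ I := by
    obtain ⟨p, q⟩ := e0
    exact (mem_EdIn.1 he0).2.2.2
  have hwin : ∀ e ∈ EdIn P k Q I, c0 ≤ cT T e ∧ cT T e ≤ c0 + V :=
    fun e he => ⟨hmin e he, window hP hQ hI he he0⟩
  -- the rank of a point at its own time
  have hown : ∀ v ∈ T, ∃ t ∈ I, c0 ≤ #(Bel T t v) ∧ #(Bel T t v) ≤ c0 + V := by
    intro v hv
    obtain ⟨_, ⟨p, q⟩, he, hpq⟩ := mem_Tch.1 hv
    have h1 := mem_EdIn.1 he
    have hx := (mem_Ed.1 h1.1).2.2.1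
    refine ⟨sl p q, h1.2.2.2, ?_⟩
    have hh : ht (sl p q) v = ht (sl p q) p := by
      rcases hpq with h | h
      · simp only at h; rw [h]
      · simp only at h; rw [← h]; exact ((ht_eq_iff hx _).2 rfl).symm
    have hB : #(Bel T (sl p q) v) = cT T (p, q) := by
      unfold Bel cT
      rw [hh]
    rw [hB]
    exact hwin _ he
  -- the bad set
  set D := (#T + 7) / 8 with hD
  set N : Finset Pt := {v ∈ T | c0 < #(Bel T t0 v) + D ∧ #(Bel T t0 v) < c0 + V + D} with hN
  have hNcard : #N ≤ 2 * (V + 2 * D - 1) := by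
    have h1 : #N ≤ 2 * #(N.image fun v => #(Bel T t0 v)) := by
      apply Finset.card_le_mul_card_image
      intro j _
      refine le_trans (Finset.card_le_card ?_) (card_rank_le hP hTP t0 j)
      intro v hv
      rw [Finset.mem_filter] at hv ⊢
      exact ⟨(Finset.mem_filter.1 hv.1).1, hv.2⟩
    have h2 : (N.image fun v => #(Bel T t0 v)) ⊆ Finset.Ico (c0 + 1 - D) (c0 + V + D) := by
      intro j hj
      obtain ⟨v, hv, rfl⟩ := Finset.mem_image.1 hj
      have := (Finset.mem_filter.1 hv).2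
      rw [Finset.mem_Ico]
      omega
    have h3 := Finset.card_le_card h2
    rw [Nat.card_Ico] at h3
    omega
  have hgood : ∀ v ∈ T \ N, D ≤ #(Par T I v) := by
    intro v hv
    obtain ⟨hvT, hvN⟩ := Finset.mem_sdiff.1 hv
    obtain ⟨t, htI, h1, h2⟩ := hown v hvT
    have s1 := shift hP hTP hI ht0I htI hvT
    have s2 := shift hP hTP hI htI ht0I hvT
    have h3 : ¬ (c0 < #(Bel T t0 v) + D ∧ #(Bel T t0 v) < c0 + V + D) :=
      fun h => hvN (Finset.mem_filter.2 ⟨hvT, h⟩)
    by_cases h4 : c0 < #(Bel T t0 v) + D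
    · have h5 : ¬ #(Bel T t0 v) < c0 + V + D := fun h => h3 ⟨h4, h⟩
      omega
    · omega
  have hsum : #(T \ N) * D ≤ 2 * #(Sw T I) := by
    refine le_trans ?_ (sum_Par T I)
    refine le_trans ?_ (Finset.sum_le_sum_of_subset (Finset.sdiff_subset (s := T) (t := N)))
    rw [← smul_eq_mul]
    exact Finset.card_nsmul_le_sum _ _ _ hgood
  have hx : #(T \ N) + #N = #T := by
    rw [Finset.card_sdiff_add_card, Finset.union_eq_left.2 (Finset.filter_subset _ _)]
  have h4x : #T ≤ 4 * #(T \ N) := by omega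
  have h8D : #T ≤ 8 * D := by omega
  calc #T ^ 2 = #T * #T := sq _
    _ ≤ (4 * #(T \ N)) * (8 * D) := Nat.mul_le_mul h4x h8D
    _ = 32 * (#(T \ N) * D) := by ring
    _ ≤ 32 * (2 * #(Sw T I)) := Nat.mul_le_mul_left _ hsum
    _ = 64 * #(Sw T I) := by ring

end Vale.Agent.P065.UB
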