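import Vale.Agent.P065.UB.Win

/-!
# P065, upper bound, front end: assembly of OUT1 (helper266)

`StPick` is the exact target of the choice of the cell.
-/

set_option autoImplicit false

namespace Vale.Agent.P065.UB

open Finset

/-- **PICK**: the choice of a cell with few boundary edges and many inner edges. -/
def StPick : Prop :=
  ∃ C : ℝ, 0 < C ∧ ∀ ε : ℝ, 0 < ε → ε < 1 / C → ∃ n₀ : ℕ, ∀ (P : Finset Pt) (k : ℕ), Good P →
    n₀ ≤ #P → (#P : ℝ) ^ (4 / 3 - ε) ≤ #(Ed P k) →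
    ∀ lam : ℝ, (#P : ℝ) ^ (C * ε) ≤ lam → lam ≤ (#P : ℝ) ^ (1 / 4 - C * ε) →
    ∃ Q ⊆ P,
      lam ^ 2 * #Q ≤ (#P : ℝ) ^ (C * ε) * #P ∧
      (#P : ℝ) ≤ (#P : ℝ) ^ (C * ε) * lam ^ 2 * #Q ∧
      (#(EdBd P k Q Set.univ) : ℝ) ≤ (#P : ℝ) ^ (C * ε) * lam * #Q ∧
      lam ^ 2 * (#Q / lam) ^ (4 / 3 : ℝ) ≤ (#P : ℝ) ^ (C * ε) * #(EdIn P k Q Set.univ)

/-- for every exponent `x > 0` large integers have `n ^ x ≥ 2` -/
theorem Win266.exists_two_le {x : ℝ} (hx : 0 < x) : ∃ n₀ : ℕ, 1 ≤ n₀ ∧ ∀ n : ℕ, n₀ ≤ n →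
    (2 : ℝ) ≤ (n : ℝ) ^ x := by
  refine ⟨⌈(2 : ℝ) ^ (1 / x)⌉₊, ?_, fun n hn => ?_⟩
  · exact Nat.ceil_pos.2 (by positivity)
  · have h1 : (2 : ℝ) ^ (1 / x) ≤ n := (Nat.le_ceil _).trans (by exact_mod_cast hn)
    calc (2 : ℝ) = ((2 : ℝ) ^ (1 / x)) ^ x := by
          rw [← Real.rpow_mul (by norm_num), one_div, inv_mul_cancel₀ hx.ne', Real.rpow_one]
      _ ≤ (n : ℝ) ^ x := Real.rpow_le_rpow (by positivity) h1 hx.le

theorem stOut1_of (hPick : StPick) (hDey : StDey) (hRank : StRank) : StOut1 := by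
  classical
  obtain ⟨C1, hC1, pick⟩ := hPick
  obtain ⟨A, win⟩ := windows hDey hRank
  set C : ℝ := (A + 1) * C1 with hC
  have hA0 : (0 : ℝ) ≤ A := Nat.cast_nonneg A
  have hCpos : 0 < C := by positivity
  have hCC1 : C1 ≤ C := by rw [hC]; nlinarith
  have hCA : A * C1 ≤ C := by rw [hC]; nlinarith
  refine ⟨C, hCpos, fun ε hε hεC => ?_⟩
  have hε1 : ε < 1 / C1 := hεC.trans_le (one_div_le_one_div_of_le hC1 hCC1)
  obtain ⟨n₁, hn₁⟩ := pick ε hε hε1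
  obtain ⟨n₂, hn₂1, hn₂⟩ := Win266.exists_two_le (mul_pos hC1 hε)
  refine ⟨max n₁ n₂, fun P k hP hn hEd lam hl1 hl2 => ?_⟩
  have hn1 : n₁ ≤ #P := (le_max_left _ _).trans hn
  have hn2 : n₂ ≤ #P := (le_max_right _ _).trans hn
  have hn1' : 1 ≤ #P := hn₂1.trans hn2
  set n : ℝ := (#P : ℝ) with hndef
  have hn1R : 1 ≤ n := by rw [hndef]; exact_mod_cast hn1'
  have hn0 : 0 < n := by linarith
  have hmono : ∀ {x y : ℝ}, x ≤ y → n ^ x ≤ n ^ y := fun h =>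
    Real.rpow_le_rpow_of_exponent_le hn1R h
  have hCε : C1 * ε ≤ C * ε := mul_le_mul_of_nonneg_right hCC1 hε.le
  have hKK : n ^ (C1 * ε) ≤ n ^ (C * ε) := hmono hCε
  have hKA : (n ^ (C1 * ε)) ^ A ≤ n ^ (C * ε) := by
    rw [← Real.rpow_natCast, ← Real.rpow_mul hn0.le]
    refine hmono ?_
    have := mul_le_mul_of_nonneg_right hCA hε.le
    linarith
  have hK2 : 2 ≤ n ^ (C1 * ε) := hn₂ _ hn2
  have hlamK : n ^ (C1 * ε) ≤ lam := hKK.trans hl1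
  have hlam1 : 1 ≤ lam := by linarith
  have hlam0 : 0 < lam := by linarith
  obtain ⟨Q, hQ, q1, q2, q3, q4⟩ := hn₁ P k hP hn1 hEd lam hlamK
    (hl2.trans (hmono (by linarith)))
  have hbig : (n ^ (C1 * ε)) ^ A ≤ #Q / lam := by
    rw [le_div_iff₀ hlam0]
    -- `K^A * lam * (K * lam^2) <= n <= K lam^2 #Q`
    have h1 : (n ^ (C1 * ε)) ^ A * lam * (n ^ (C1 * ε) * lam ^ 2)
        ≤ #Q * (n ^ (C1 * ε) * lam ^ 2) := by
      calc (n ^ (C1 * ε)) ^ A * lam * (n ^ (C1 * ε) * lam ^ 2)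
          = (n ^ (C1 * ε)) ^ (A + 1) * lam ^ 3 := by ring
        _ ≤ n ^ (C * ε) * (n ^ (1 / 4 - C * ε)) ^ 3 := by
            gcongr
            rw [← Real.rpow_natCast, ← Real.rpow_mul hn0.le]
            refine hmono ?_
            rw [hC]
            push_cast
            linarith
        _ = n ^ (3 / 4 - 2 * (C * ε)) := by
            rw [← Real.rpow_natCast (n ^ (1 / 4 - C * ε)), ← Real.rpow_mul hn0.le,
              ← Real.rpow_add hn0]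
            congr 1
            push_cast
            ring
        _ ≤ n ^ (1 : ℝ) := hmono (by nlinarith [mul_pos hCpos hε])
        _ = n := Real.rpow_one n
        _ ≤ n ^ (C1 * ε) * lam ^ 2 * #Q := q2
        _ = #Q * (n ^ (C1 * ε) * lam ^ 2) := by ring
    exact le_of_mul_le_mul_right h1 (by positivity)
  obtain ⟨W, I, T, w1, w2, w3, w4, w5, w6, w7, w8, w9, w10, w11⟩ :=
    win (n ^ (C1 * ε)) lam P k Q hP hQ hK2 hlam1 hbig
      (q3.trans_eq (by rw [hndef]; field_simp)) q4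
  refine ⟨Q, W, I, T, hQ, w1, w2, ?_, ?_, ?_, ?_, w5, w6, w7, ?_, ?_, ?_, w11⟩
  · exact q1.trans (by gcongr)
  · exact q2.trans (by gcongr)
  · exact w3.trans (by gcongr)
  · exact w4.trans (by gcongr)
  · exact fun w hw => (w8 w hw).trans (by gcongr)
  · exact fun w hw => (w9 w hw).trans (by gcongr)
  · exact fun w hw => (w10 w hw).trans (by gcongr)

end Vale.Agent.P065.UB
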