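import Vale.Agent.P065.UB.Out1
import Vale.Agent.P065.UB.Rank
import Vale.Agent.P065.U.H792.Front

/-!
# P065, upper bound, front end: the choice of the cell (helper266)
-/

set_option autoImplicit false

namespace Vale.Agent.P065.UB

open Finset

namespace Pick266

/-! ### powers -/

theorem pw2 {x t : ℝ} (hx : 0 ≤ x) (ht : 0 ≤ t) (h : x ≤ t ^ 3) : x ^ (2 / 3 : ℝ) ≤ t ^ 2 := by
  calc x ^ (2 / 3 : ℝ) ≤ (t ^ 3) ^ (2 / 3 : ℝ) := Real.rpow_le_rpow hx h (by norm_num)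
    _ = t ^ 2 := by
      rw [← Real.rpow_natCast, ← Real.rpow_mul ht, ← Real.rpow_natCast]
      norm_num

theorem pw3 {x t : ℝ} (ht : 0 < t) (h : t ^ 3 ≤ x) : x ^ (2 / 3 : ℝ) ≤ x / t := by
  have hx : 0 < x := lt_of_lt_of_le (by positivity) h
  set y : ℝ := x ^ (1 / 3 : ℝ) with hy
  have hy0 : 0 < y := Real.rpow_pos_of_pos hx _
  have h1 : y ^ 3 = x := by
    rw [hy, ← Real.rpow_natCast, ← Real.rpow_mul hx.le]
    norm_num
  have h2 : x ^ (2 / 3 : ℝ) = y ^ 2 := by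
    rw [hy, ← Real.rpow_natCast, ← Real.rpow_mul hx.le]
    norm_num
  have h3 : t ≤ y := by
    rw [← h1] at h
    exact le_of_pow_le_pow_left₀ (by norm_num) hy0.le h
  rw [h2, le_div_iff₀ ht, ← h1]
  calc y ^ 2 * t ≤ y ^ 2 * y := by gcongr
    _ = y ^ 3 := by ring

theorem pw {x t : ℝ} (hx : 0 ≤ x) (ht : 0 < t) : x ^ (2 / 3 : ℝ) ≤ t ^ 2 + x / t := by
  rcases le_total x (t ^ 3) with h | h
  · have := pw2 hx ht.le h
    have h2 : 0 ≤ x / t := by positivity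
    linarith
  · have := pw3 ht h
    have h2 : 0 ≤ t ^ 2 := by positivity
    linarith

/-! ### selection -/

theorem select {α : Type*} {C ν l k M X : ℝ} (hC : 1 ≤ C) (hν : 0 < ν) (hl : 1 ≤ l) (hk : 1 ≤ k)
    (Cs : Finset α) (q V E : α → ℕ)
    (dey : ∀ c ∈ Cs, (E c : ℝ) ≤ C * ((q c : ℝ) * (q c + V c)) ^ (2 / 3 : ℝ))
    (hq : ∀ c ∈ Cs, (q c : ℝ) ≤ (ν / l ^ 2) ^ 3)
    (hqV : ∑ c ∈ Cs, ((q c : ℝ) + V c) ≤ 411 * ν ^ 3 * l ^ 3)
    (hCs : (#Cs : ℝ) ≤ 6 * l ^ 6)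
    (hX : X ≤ 205 * ν ^ 3 * l ^ 3) (hM : M ≤ X + ∑ c ∈ Cs, (E c : ℝ))
    (h1 : 205 * k * l ^ 3 ≤ ν) (h2 : 835 * C * ν ^ 4 < k * M) :
    ∃ c ∈ Cs, (ν / (k * l ^ 2)) ^ 3 ≤ q c ∧ (V c : ℝ) ≤ (k * ν / l) ^ 3 ∧
      ν ^ 4 ≤ k ^ 3 * l ^ 6 * E c := by
  by_contra hc
  push Not at hc
  have hl0 : 0 < l := by linarith
  have hk0 : 0 < k := by linarith
  have hC0 : 0 < C := by linarith
  -- the bound of one cell
  have key : ∀ c ∈ Cs, (E c : ℝ) ≤
      C * (ν / (k * l ^ 2)) ^ 2 * ((ν / l) ^ 2 + ((q c : ℝ) + V c) / (ν / l))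
      + C * (ν / l ^ 2) ^ 2 * (((q c : ℝ) + V c) / (k * ν / l)) + ν ^ 4 / (k ^ 3 * l ^ 6) := by
    intro c hcs
    have hd := dey c hcs
    have hq0 : (0 : ℝ) ≤ q c := Nat.cast_nonneg _
    have hV0 : (0 : ℝ) ≤ V c := Nat.cast_nonneg _
    rw [Real.mul_rpow hq0 (by positivity)] at hd
    have t1 : 0 ≤ C * (ν / (k * l ^ 2)) ^ 2 * ((ν / l) ^ 2 + ((q c : ℝ) + V c) / (ν / l)) := by
      positivity
    have t2 : 0 ≤ C * (ν / l ^ 2) ^ 2 * (((q c : ℝ) + V c) / (k * ν / l)) := by positivity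
    have t3 : 0 ≤ ν ^ 4 / (k ^ 3 * l ^ 6) := by positivity
    rcases lt_or_ge (q c : ℝ) ((ν / (k * l ^ 2)) ^ 3) with hb | hb
    · -- few points
      have e1 : (q c : ℝ) ^ (2 / 3 : ℝ) ≤ (ν / (k * l ^ 2)) ^ 2 := pw2 hq0 (by positivity) hb.le
      have e2 : ((q c : ℝ) + V c) ^ (2 / 3 : ℝ) ≤ (ν / l) ^ 2 + ((q c : ℝ) + V c) / (ν / l) :=
        pw (by positivity) (by positivity)
      have e3 : C * ((q c : ℝ) ^ (2 / 3 : ℝ) * ((q c : ℝ) + V c) ^ (2 / 3 : ℝ))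
          ≤ C * ((ν / (k * l ^ 2)) ^ 2 * ((ν / l) ^ 2 + ((q c : ℝ) + V c) / (ν / l))) :=
        mul_le_mul_of_nonneg_left (mul_le_mul e1 e2 (by positivity) (by positivity)) hC0.le
      linarith
    · rcases le_or_gt (V c : ℝ) ((k * ν / l) ^ 3) with hv | hv
      · have e1 := hc c hcs hb hv
        have e2 : (E c : ℝ) ≤ ν ^ 4 / (k ^ 3 * l ^ 6) := by
          rw [le_div_iff₀ (by positivity)]
          linarith
        linarith
      · have e1 : (q c : ℝ) ^ (2 / 3 : ℝ) ≤ (ν / l ^ 2) ^ 2 := pw2 hq0 (by positivity) (hq c hcs)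
        have e2 : ((q c : ℝ) + V c) ^ (2 / 3 : ℝ) ≤ ((q c : ℝ) + V c) / (k * ν / l) :=
          pw3 (by positivity) (by linarith)
        have e3 : C * ((q c : ℝ) ^ (2 / 3 : ℝ) * ((q c : ℝ) + V c) ^ (2 / 3 : ℝ))
            ≤ C * ((ν / l ^ 2) ^ 2 * (((q c : ℝ) + V c) / (k * ν / l))) :=
          mul_le_mul_of_nonneg_left (mul_le_mul e1 e2 (by positivity) (by positivity)) hC0.le
        linarith
  have hsum := sum_le_sum key
  rw [sum_add_distrib, sum_add_distrib, ← mul_sum, ← mul_sum, sum_add_distrib, ← sum_div,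
    ← sum_div, sum_const, sum_const, nsmul_eq_mul, nsmul_eq_mul] at hsum
  set S : ℝ := ∑ c ∈ Cs, ((q c : ℝ) + V c) with hS
  -- the three sums
  have s1 : C * (ν / (k * l ^ 2)) ^ 2 * (#Cs * (ν / l) ^ 2 + S / (ν / l))
      ≤ 417 * C * ν ^ 4 / k ^ 2 := by
    calc C * (ν / (k * l ^ 2)) ^ 2 * (#Cs * (ν / l) ^ 2 + S / (ν / l))
        ≤ C * (ν / (k * l ^ 2)) ^ 2 * (6 * l ^ 6 * (ν / l) ^ 2 + 411 * ν ^ 3 * l ^ 3 / (ν / l)) := by
          gcongr
      _ = 417 * C * ν ^ 4 / k ^ 2 := by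
          field_simp
          ring
  have s2 : C * (ν / l ^ 2) ^ 2 * (S / (k * ν / l)) ≤ 411 * C * ν ^ 4 / k := by
    calc C * (ν / l ^ 2) ^ 2 * (S / (k * ν / l))
        ≤ C * (ν / l ^ 2) ^ 2 * (411 * ν ^ 3 * l ^ 3 / (k * ν / l)) := by gcongr
      _ = 411 * C * ν ^ 4 / k := by
          field_simp
  have s3 : (#Cs : ℝ) * (ν ^ 4 / (k ^ 3 * l ^ 6)) ≤ 6 * ν ^ 4 / k ^ 3 := by
    calc (#Cs : ℝ) * (ν ^ 4 / (k ^ 3 * l ^ 6)) ≤ 6 * l ^ 6 * (ν ^ 4 / (k ^ 3 * l ^ 6)) := by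
          gcongr
      _ = 6 * ν ^ 4 / k ^ 3 := by
          field_simp
  have hν4 : 0 < ν ^ 4 := by positivity
  have b1 : k * (417 * C * ν ^ 4 / k ^ 2) ≤ 417 * C * ν ^ 4 := by
    have : k * (417 * C * ν ^ 4 / k ^ 2) = 417 * C * ν ^ 4 / k := by field_simp
    rw [this, div_le_iff₀ hk0]
    nlinarith [mul_pos hC0 hν4]
  have b2 : k * (411 * C * ν ^ 4 / k) = 411 * C * ν ^ 4 := by field_simp
  have b3 : k * (6 * ν ^ 4 / k ^ 3) ≤ 6 * ν ^ 4 := by
    have : k * (6 * ν ^ 4 / k ^ 3) = 6 * ν ^ 4 / k ^ 2 := by field_simp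
    rw [this, div_le_iff₀ (by positivity)]
    have : 1 ≤ k ^ 2 := one_le_pow₀ hk
    nlinarith
  have b4 : k * X ≤ ν ^ 4 := by
    calc k * X ≤ k * (205 * ν ^ 3 * l ^ 3) := by gcongr
      _ = ν ^ 3 * (205 * k * l ^ 3) := by ring
      _ ≤ ν ^ 3 * ν := by gcongr
      _ = ν ^ 4 := by ring
  have b5 : k * M ≤ k * X + k * (∑ c ∈ Cs, (E c : ℝ)) := by
    rw [← mul_add]
    exact mul_le_mul_of_nonneg_left hM hk0.le
  have b6 : k * (∑ c ∈ Cs, (E c : ℝ)) ≤ 417 * C * ν ^ 4 + 411 * C * ν ^ 4 + 6 * ν ^ 4 := by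
    have := mul_le_mul_of_nonneg_left (hsum.trans (add_le_add (add_le_add s1 s2) s3)) hk0.le
    rw [mul_add, mul_add] at this
    linarith
  have b7 : ν ^ 4 ≤ C * ν ^ 4 := by nlinarith
  linarith

/-! ### cells of the whole set -/

open Classical in
/-- the touched points in the cell `c` -/
noncomputable def Qc (P : Finset Pt) (k : ℕ) (cell : Pt → ℕ × ℕ) (c : ℕ × ℕ) : Finset Pt :=
  {v ∈ Tch P k P Set.univ | cell v = c}

theorem mem_Ed {P : Finset Pt} {k : ℕ} {e : Pt × Pt} (h : e ∈ Ed P k) : e.1 ∈ P ∧ e.2 ∈ P := by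
  classical
  simp only [Ed, mem_filter, mem_product] at h
  exact h.1

theorem EdIn_all (P : Finset Pt) (k : ℕ) : EdIn P k P Set.univ = Ed P k := by
  classical
  ext e
  simp only [EdIn, mem_filter, Set.mem_univ, and_true]
  exact ⟨fun h => h.1, fun h => ⟨h, mem_Ed h⟩⟩

theorem EdBd_all (P : Finset Pt) (k : ℕ) : EdBd P k P Set.univ = ∅ := by
  classical
  ext e
  simp only [EdBd, mem_filter, Set.mem_univ, and_true, notMem_empty, iff_false]
  rintro ⟨h, h1 | h1⟩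
  · exact h1.2 (mem_Ed h).2
  · exact h1.1 (mem_Ed h).1

theorem mem_Tch_of {P : Finset Pt} {k : ℕ} {e : Pt × Pt} (h : e ∈ Ed P k) :
    e.1 ∈ Tch P k P Set.univ ∧ e.2 ∈ Tch P k P Set.univ := by
  classical
  have h1 : e ∈ EdIn P k P Set.univ := by rw [EdIn_all]; exact h
  simp only [Tch, mem_filter]
  exact ⟨⟨(mem_Ed h).1, e, h1, Or.inl rfl⟩, ⟨(mem_Ed h).2, e, h1, Or.inr rfl⟩⟩

theorem mem_Qc {P : Finset Pt} {k : ℕ} {cell : Pt → ℕ × ℕ} {c : ℕ × ℕ} {v : Pt} :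
    v ∈ Qc P k cell c ↔ v ∈ Tch P k P Set.univ ∧ cell v = c := by
  simp only [Qc, mem_filter]

theorem Qc_sub (P : Finset Pt) (k : ℕ) (cell : Pt → ℕ × ℕ) (c : ℕ × ℕ) : Qc P k cell c ⊆ P := by
  intro v hv
  exact Win266.Tch_sub (mem_Qc.1 hv).1

open Classical in
/-- edges joining different cells -/
noncomputable def Xc (P : Finset Pt) (k : ℕ) (cell : Pt → ℕ × ℕ) : Finset (Pt × Pt) :=
  {e ∈ EdIn P k P Set.univ | cell e.1 ≠ cell e.2}

theorem sum_q (P : Finset Pt) (k : ℕ) (cell : Pt → ℕ × ℕ) :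
    ∑ c ∈ (Tch P k P Set.univ).image cell, #(Qc P k cell c) ≤ #P := by
  classical
  have h1 := card_eq_sum_card_fiberwise (f := cell) (s := Tch P k P Set.univ)
    (t := (Tch P k P Set.univ).image cell) fun v hv => mem_image_of_mem _ hv
  have h2 : ∑ c ∈ (Tch P k P Set.univ).image cell, #(Qc P k cell c)
      = ∑ c ∈ (Tch P k P Set.univ).image cell, #{v ∈ Tch P k P Set.univ | cell v = c} := by
    refine sum_congr rfl fun c _ => ?_
    unfold Qc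
    congr 1
  rw [h2, ← h1]
  exact card_le_card Win266.Tch_sub

theorem sum_E (P : Finset Pt) (k : ℕ) (cell : Pt → ℕ × ℕ) :
    #(Ed P k) ≤ #(Xc P k cell) +
      ∑ c ∈ (Tch P k P Set.univ).image cell, #(EdIn P k (Qc P k cell c) Set.univ) := by
  classical
  have h1 := card_filter_add_card_filter_not (s := Ed P k) (fun e => cell e.1 ≠ cell e.2)
  have h2 : #{e ∈ Ed P k | cell e.1 ≠ cell e.2} = #(Xc P k cell) := by
    congr 1
    ext e
    simp only [Xc, EdIn_all, mem_filter]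
  rw [← h1, h2]
  refine Nat.add_le_add_left ?_ _
  rw [card_eq_sum_card_fiberwise (f := fun e : Pt × Pt => cell e.1)
    (t := (Tch P k P Set.univ).image cell) fun e he => by
      simp only [coe_filter, Set.mem_ofPred_eq] at he
      exact mem_image_of_mem _ (mem_Tch_of he.1).1]
  refine sum_le_sum fun c _ => card_le_card fun e he => ?_
  simp only [mem_filter, not_not] at he
  rw [Win266.mem_EdIn]
  exact ⟨he.1.1, mem_Qc.2 ⟨(mem_Tch_of he.1.1).1, he.2⟩,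
    mem_Qc.2 ⟨(mem_Tch_of he.1.1).2, he.1.2 ▸ he.2⟩, Set.mem_univ _⟩

theorem sum_V (P : Finset Pt) (k : ℕ) (cell : Pt → ℕ × ℕ) :
    ∑ c ∈ (Tch P k P Set.univ).image cell, #(EdBd P k (Qc P k cell c) Set.univ)
      ≤ 2 * #(Xc P k cell) := by
  classical
  set Cs := (Tch P k P Set.univ).image cell with hCs
  have h1 : ∀ c ∈ Cs, #(EdBd P k (Qc P k cell c) Set.univ)
      ≤ #{e ∈ Xc P k cell | cell e.1 = c} + #{e ∈ Xc P k cell | cell e.2 = c} := by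
    intro c _
    refine le_trans (card_le_card ?_) (card_union_le _ _)
    intro e he
    rw [Win266.mem_EdBd] at he
    have hT := mem_Tch_of he.1
    simp only [mem_union, mem_filter, Xc, EdIn_all]
    rcases he.2.1 with ⟨ha, hb⟩ | ⟨ha, hb⟩
    · have ha' := (mem_Qc.1 ha).2
      have hb' : cell e.2 ≠ c := fun h => hb (mem_Qc.2 ⟨hT.2, h⟩)
      exact Or.inl ⟨⟨he.1, fun h => hb' (h ▸ ha')⟩, ha'⟩
    · have hb' := (mem_Qc.1 hb).2
      have ha' : cell e.1 ≠ c := fun h => ha (mem_Qc.2 ⟨hT.1, h⟩)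
      exact Or.inr ⟨⟨he.1, fun h => ha' (h.trans hb')⟩, hb'⟩
  refine (sum_le_sum h1).trans ?_
  rw [sum_add_distrib]
  have h2 : ∀ f : Pt × Pt → ℕ × ℕ, (∀ e ∈ Xc P k cell, f e ∈ Cs) →
      ∑ c ∈ Cs, #{e ∈ Xc P k cell | f e = c} = #(Xc P k cell) := fun f hf =>
    (card_eq_sum_card_fiberwise fun e he => hf e he).symm
  have hmem : ∀ e ∈ Xc P k cell, e ∈ Ed P k := by
    intro e he
    simp only [Xc, EdIn_all, mem_filter] at he
    exact he.1
  rw [h2 (fun e => cell e.1) fun e he => mem_image_of_mem _ (mem_Tch_of (hmem e he)).1,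
    h2 (fun e => cell e.2) fun e he => mem_image_of_mem _ (mem_Tch_of (hmem e he)).2]
  omega

/-- numbers: cells and crossing edges -/
theorem numbers {n lam cs x h m : ℝ} (hn : 0 < n) (hl : 1 ≤ lam)
    (hh1 : n / lam / 2 ≤ h) (hh2 : h ≤ n / lam) (hm1 : n / lam ^ 2 / 2 ≤ m)
    (h1 : cs * h * m ≤ n * h + (n + 2 * h) * m)
    (h2 : x * h * m ≤ 100 * n ^ 2 * m + n * h ^ 2 + (n + 2 * h) * h * m) :
    cs ≤ 6 * lam ^ 2 ∧ x ≤ 205 * n * lam := by
  have hl0 : 0 < lam := by linarith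
  have hh0 : 0 < h := lt_of_lt_of_le (by positivity) hh1
  have hm0 : 0 < m := lt_of_lt_of_le (by positivity) hm1
  have a1 : n ≤ 2 * lam * h := by
    have : n / lam / 2 * (2 * lam) = n := by field_simp
    nlinarith
  have a2 : n ≤ 2 * lam ^ 2 * m := by
    have : n / lam ^ 2 / 2 * (2 * lam ^ 2) = n := by field_simp
    have h3 : 0 < 2 * lam ^ 2 := by positivity
    nlinarith
  have a3 : h * lam ≤ n := by rwa [le_div_iff₀ hl0] at hh2
  have hhm : 0 < h * m := by positivity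
  have hl2 : 1 ≤ lam ^ 2 := one_le_pow₀ hl
  have hll : lam ≤ lam ^ 2 := by nlinarith
  constructor
  · have b1 : cs * (h * m) ≤ (6 * lam ^ 2) * (h * m) := by
      calc cs * (h * m) = cs * h * m := by ring
        _ ≤ n * h + (n + 2 * h) * m := h1
        _ ≤ (2 * lam ^ 2 * m) * h + (2 * lam * h + 2 * h) * m := by gcongr
        _ = (2 * lam ^ 2 + 2 * lam + 2) * (h * m) := by ring
        _ ≤ (6 * lam ^ 2) * (h * m) := by
          refine mul_le_mul_of_nonneg_right ?_ hhm.le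
          linarith
    exact le_of_mul_le_mul_right b1 hhm
  · have c1 : h ≤ n := by nlinarith
    have b1 : x * (h * m) ≤ (205 * n * lam) * (h * m) := by
      calc x * (h * m) = x * h * m := by ring
        _ ≤ 100 * n ^ 2 * m + n * h ^ 2 + (n + 2 * h) * h * m := h2
        _ = 100 * n * m * n + (n * h) * h + (n + 2 * h) * h * m := by ring
        _ ≤ 100 * n * m * (2 * lam * h) + (2 * lam ^ 2 * m * h) * (n / lam)
            + (n + 2 * n) * h * m := by gcongr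
        _ = (202 * n * lam + 3 * n) * (h * m) := by
          field_simp
          ring
        _ ≤ (205 * n * lam) * (h * m) := by
          refine mul_le_mul_of_nonneg_right ?_ hhm.le
          nlinarith
    exact le_of_mul_le_mul_right b1 hhm

open Win266 in
/-- a good cell, with real parameters -/
theorem cell_of (hCells : StCells) {C : ℝ} (hC : 1 ≤ C)
    (dey : ∀ (P : Finset Pt) (k : ℕ) (Q : Finset Pt) (I : Set ℝ), Good P → Q ⊆ P →
      I.OrdConnected → (#(EdIn P k Q I) : ℝ) ≤ C *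
        ((#(Tch P k Q I) : ℝ) * (#(Tch P k Q I) + #(EdBd P k Q I))) ^ (2 / 3 : ℝ))
    (P : Finset Pt) (k : ℕ) (hP : Good P) {n lam κ ν l : ℝ} (hndef : n = #P) (hnR : 1 ≤ n)
    (hκ1 : 1 ≤ κ) (hlam1 : 1 ≤ lam) (hlamn : lam ^ 2 ≤ n) (hν0 : 0 < ν) (hν3 : ν ^ 3 = n)
    (hll1 : 1 ≤ l) (hl3 : l ^ 3 = lam) (hsmall : 205 * κ * lam ≤ ν)
    (hmany : 835 * C * ν ^ 4 < κ * #(Ed P k)) :
    ∃ Q ⊆ P, lam ^ 2 * (#Q : ℝ) ≤ n ∧ n ≤ κ ^ 3 * lam ^ 2 * #Q ∧
      (#(EdBd P k Q Set.univ) : ℝ) ≤ κ ^ 3 * n / lam ∧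
      ν ^ 4 ≤ κ ^ 3 * lam ^ 2 * #(EdIn P k Q Set.univ) := by
  classical
  have hn0 : 0 < n := by linarith
  have hlam0 : 0 < lam := by linarith
  have hκ0 : 0 < κ := by linarith
  have hll0 : 0 < l := by linarith
  have hlamn1 : lam ≤ n := by nlinarith
  set H : ℕ := ⌊n / lam⌋₊ with hH
  set N0 : ℕ := ⌊n / lam ^ 2⌋₊ with hN0
  have hd1 : 1 ≤ n / lam := by rwa [le_div_iff₀ hlam0, one_mul]
  have hd2 : 1 ≤ n / lam ^ 2 := by rwa [le_div_iff₀ (by positivity), one_mul]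
  have hH1 : 1 ≤ H := Nat.floor_pos.2 hd1
  have hN1 : 1 ≤ N0 := Nat.floor_pos.2 hd2
  have hTn : #(Tch P k P Set.univ) ≤ #P := card_le_card Tch_sub
  obtain ⟨cell, c1, c2, c3⟩ := hCells P k P Set.univ hP (Finset.Subset.refl P)
    Set.ordConnected_univ #P H N0 (by rw [EdBd_all, card_empty]; exact hTn) hH1 hN1
  set Cs := (Tch P k P Set.univ).image cell with hCs
  have hXc : #{e ∈ EdIn P k P Set.univ | cell e.1 ≠ cell e.2} = #(Xc P k cell) := by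
    unfold Xc
    congr 1
  rw [hXc] at c3
  have hTnR : (#(Tch P k P Set.univ) : ℝ) ≤ n := by rw [hndef]; exact_mod_cast hTn
  obtain ⟨m1, m2⟩ := numbers (n := n) (lam := lam) (cs := #Cs) (x := #(Xc P k cell)) (h := H)
    (m := N0) hn0 hlam1 (half_le_floor hd1) (Nat.floor_le (by positivity))
    (half_le_floor hd2)
    (by
      have : (#Cs : ℝ) * H * N0 ≤ #(Tch P k P Set.univ) * H + (n + 2 * H) * N0 := by
        rw [hndef]; exact_mod_cast c2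
      refine this.trans ?_
      gcongr)
    (by
      have : (#(Xc P k cell) : ℝ) * H * N0
          ≤ 100 * n ^ 2 * N0 + #(Tch P k P Set.univ) * H ^ 2 + (n + 2 * H) * H * N0 := by
        rw [hndef]; exact_mod_cast c3
      refine this.trans ?_
      gcongr)
  have hl6 : l ^ 6 = lam ^ 2 := by rw [← hl3]; ring
  have hqN : ∀ c, (#(Qc P k cell c) : ℝ) ≤ n / lam ^ 2 := by
    intro c
    have h1 : #(Qc P k cell c) ≤ N0 := by
      have := c1 c
      unfold Qc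
      convert this using 2
    calc (#(Qc P k cell c) : ℝ) ≤ N0 := by exact_mod_cast h1
      _ ≤ n / lam ^ 2 := Nat.floor_le (by positivity)
  have hlast : (ν / l ^ 2) ^ 3 = n / lam ^ 2 := by rw [← hν3, ← hl3]; field_simp
  have hdeyc : ∀ c ∈ Cs, (#(EdIn P k (Qc P k cell c) Set.univ) : ℝ) ≤ C *
      ((#(Qc P k cell c) : ℝ) * (#(Qc P k cell c) + #(EdBd P k (Qc P k cell c) Set.univ)))
        ^ (2 / 3 : ℝ) := by
    intro c _
    refine (dey P k (Qc P k cell c) Set.univ hP (Qc_sub P k cell c)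
      Set.ordConnected_univ).trans ?_
    have h1 : (#(Tch P k (Qc P k cell c) Set.univ) : ℝ) ≤ #(Qc P k cell c) := by
      exact_mod_cast card_le_card Tch_sub
    gcongr
  have hqV : ∑ c ∈ Cs, ((#(Qc P k cell c) : ℝ) + #(EdBd P k (Qc P k cell c) Set.univ))
      ≤ 411 * ν ^ 3 * l ^ 3 := by
    rw [sum_add_distrib]
    have h1 : (∑ c ∈ Cs, (#(Qc P k cell c) : ℝ)) ≤ n := by
      rw [hndef]; exact_mod_cast sum_q P k cell
    have h2 : (∑ c ∈ Cs, (#(EdBd P k (Qc P k cell c) Set.univ) : ℝ))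
        ≤ 2 * #(Xc P k cell) := by
      exact_mod_cast sum_V P k cell
    have h3 : n ≤ n * lam := by nlinarith
    rw [hν3, hl3]
    linarith
  obtain ⟨c, hc, s1, s2, s3⟩ := select (C := C) (ν := ν) (l := l) (k := κ) (M := #(Ed P k))
    (X := #(Xc P k cell)) hC hν0 hll1 hκ1 Cs (fun c => #(Qc P k cell c))
    (fun c => #(EdBd P k (Qc P k cell c) Set.univ))
    (fun c => #(EdIn P k (Qc P k cell c) Set.univ))
    hdeyc (fun c _ => (hqN c).trans_eq hlast.symm) hqV (by rw [hl6]; exact m1)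
    (by rw [hν3, hl3]; exact m2) (by exact_mod_cast sum_E P k cell)
    (by rw [hl3]; exact hsmall) hmany
  refine ⟨Qc P k cell c, Qc_sub P k cell c, ?_, ?_, ?_, ?_⟩
  · have h2 := hqN c
    rw [le_div_iff₀ (by positivity)] at h2
    linarith
  · have h1 : (ν / (κ * l ^ 2)) ^ 3 = n / (κ ^ 3 * lam ^ 2) := by
      rw [← hν3, ← hl3]; field_simp
    rw [h1, div_le_iff₀ (by positivity)] at s1
    linarith
  · have h1 : (κ * ν / l) ^ 3 = κ ^ 3 * n / lam := by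
      rw [← hν3, ← hl3]; field_simp
    exact s2.trans_eq h1
  · rw [hl6] at s3
    exact s3

end Pick266

open Pick266 Win266 in
/-- **PICK** -/
theorem stPick_of (hCells : StCells) (hDey : StDey) : StPick := by
  classical
  obtain ⟨C₀, hC₀, dey₀⟩ := hDey
  set C : ℝ := max C₀ 1 with hCdef
  have hC : 1 ≤ C := le_max_right _ _
  have dey : ∀ (P : Finset Pt) (k : ℕ) (Q : Finset Pt) (I : Set ℝ), Good P → Q ⊆ P →
      I.OrdConnected → (#(EdIn P k Q I) : ℝ) ≤ C *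
        ((#(Tch P k Q I) : ℝ) * (#(Tch P k Q I) + #(EdBd P k Q I))) ^ (2 / 3 : ℝ) :=
    fun P k Q I h1 h2 h3 => (dey₀ P k Q I h1 h2 h3).trans
      (mul_le_mul_of_nonneg_right (le_max_left _ _) (by positivity))
  clear_value C
  have hC0 : 0 < C := by linarith
  refine ⟨7, by norm_num, fun ε hε _ => ?_⟩
  -- large numbers
  refine ⟨max 1 ⌈((1000 * C) ^ 6) ^ (1 / ε)⌉₊, fun P k hP hn hEd lam hl1 hl2 => ?_⟩
  have hn1 : 1 ≤ #P := (le_max_left _ _).trans hn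
  have hn2 : ⌈((1000 * C) ^ 6) ^ (1 / ε)⌉₊ ≤ #P := (le_max_right _ _).trans hn
  have hn2R : ((1000 * C) ^ 6) ^ (1 / ε) ≤ (#P : ℝ) :=
    (Nat.le_ceil _).trans (by exact_mod_cast hn2)
  have hnR' : (1 : ℝ) ≤ #P := by exact_mod_cast hn1
  obtain ⟨n, hndef⟩ : ∃ n : ℝ, n = (#P : ℝ) := ⟨_, rfl⟩
  rw [← hndef] at hn2R hnR' hEd hl1 hl2
  rw [← hndef]
  have hnR : 1 ≤ n := hnR'
  have hn0 : 0 < n := by linarith
  have hmono : ∀ {x y : ℝ}, x ≤ y → n ^ x ≤ n ^ y := fun h =>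
    Real.rpow_le_rpow_of_exponent_le hnR h
  have hnε : (1000 * C) ^ 6 ≤ n ^ ε := by
    calc (1000 * C) ^ 6 = (((1000 * C) ^ 6) ^ (1 / ε)) ^ ε := by
          rw [← Real.rpow_mul (by positivity), one_div, inv_mul_cancel₀ hε.ne', Real.rpow_one]
      _ ≤ n ^ ε := Real.rpow_le_rpow (by positivity) hn2R hε.le
  obtain ⟨g, hg⟩ : ∃ g : ℝ, g = n ^ ε := ⟨_, rfl⟩
  rw [← hg] at hnε
  have hC1000 : 1 ≤ 1000 * C := by linarith
  have hg1 : 1 ≤ g := (one_le_pow₀ hC1000).trans hnε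
  have hg0 : 0 < g := by linarith
  obtain ⟨κ, hκ⟩ : ∃ κ : ℝ, κ = 1000 * C * g := ⟨_, rfl⟩
  have hκ1 : 1 ≤ κ := by rw [hκ]; exact one_le_mul_of_one_le_of_one_le hC1000 hg1
  have hκ0 : 0 < κ := by linarith
  have hg7 : n ^ (7 * ε) = g ^ 7 := by
    rw [hg, ← Real.rpow_natCast, ← Real.rpow_mul hn0.le]
    congr 1
    push_cast
    ring
  have hκ6 : κ ^ 6 ≤ n ^ (7 * ε) := by
    rw [hg7]
    calc κ ^ 6 = (1000 * C) ^ 6 * g ^ 6 := by rw [hκ]; ring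
      _ ≤ g * g ^ 6 := by gcongr
      _ = g ^ 7 := by ring
  have hκ3 : κ ^ 3 ≤ n ^ (7 * ε) := (pow_le_pow_right₀ hκ1 (by norm_num)).trans hκ6
  have hK1 : 1 ≤ n ^ (7 * ε) := by rw [hg7]; exact one_le_pow₀ hg1
  have hlam1 : 1 ≤ lam := hK1.trans hl1
  have hlam0 : 0 < lam := by linarith
  have hlam14 : lam ≤ n ^ (1 / 4 : ℝ) := hl2.trans (hmono (by linarith))
  have hlamn : lam ^ 2 ≤ n := by
    calc lam ^ 2 ≤ (n ^ (1 / 4 : ℝ)) ^ 2 := by gcongr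
      _ = n ^ (1 / 2 : ℝ) := by
        rw [← Real.rpow_natCast, ← Real.rpow_mul hn0.le]
        norm_num
      _ ≤ n ^ (1 : ℝ) := hmono (by norm_num)
      _ = n := Real.rpow_one n
  have hν0 : 0 < n ^ (1 / 3 : ℝ) := Real.rpow_pos_of_pos hn0 _
  have hν3 : (n ^ (1 / 3 : ℝ)) ^ 3 = n := by
    rw [← Real.rpow_natCast, ← Real.rpow_mul hn0.le]
    norm_num
  have hν4 : (n ^ (1 / 3 : ℝ)) ^ 4 = n ^ (4 / 3 : ℝ) := by
    rw [← Real.rpow_natCast, ← Real.rpow_mul hn0.le]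
    norm_num
  have hll1 : 1 ≤ lam ^ (1 / 3 : ℝ) := Real.one_le_rpow hlam1 (by norm_num)
  have hl3 : (lam ^ (1 / 3 : ℝ)) ^ 3 = lam := by
    rw [← Real.rpow_natCast, ← Real.rpow_mul hlam0.le]
    norm_num
  have hsmall : 205 * κ * lam ≤ n ^ (1 / 3 : ℝ) := by
    have h1 : 205 * (1000 * C) ≤ (1000 * C) ^ 6 := by
      have : (205 : ℝ) ≤ (1000 * C) ^ 5 := by
        calc (205 : ℝ) ≤ 1000 ^ 5 := by norm_num
          _ ≤ (1000 * C) ^ 5 := by gcongr; linarith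
      calc 205 * (1000 * C) ≤ (1000 * C) ^ 5 * (1000 * C) := by gcongr
        _ = _ := by ring
    calc 205 * κ * lam = (205 * (1000 * C)) * g * lam := by rw [hκ]; ring
      _ ≤ g * g * n ^ (1 / 4 - 7 * ε) := by
          gcongr
          exact h1.trans hnε
      _ = n ^ (ε + ε + (1 / 4 - 7 * ε)) := by
          rw [hg, Real.rpow_add hn0, Real.rpow_add hn0]
      _ ≤ n ^ (1 / 3 : ℝ) := hmono (by linarith)
  have hmany : 835 * C * (n ^ (1 / 3 : ℝ)) ^ 4 < κ * #(Ed P k) := by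
    rw [hν4]
    have h1 : n ^ (4 / 3 : ℝ) = g * n ^ (4 / 3 - ε) := by
      rw [hg, ← Real.rpow_add hn0]
      congr 1
      ring
    have h2 : 0 < n ^ (4 / 3 : ℝ) := Real.rpow_pos_of_pos hn0 _
    calc 835 * C * n ^ (4 / 3 : ℝ) < 1000 * C * n ^ (4 / 3 : ℝ) := by
          have : 0 < C * n ^ (4 / 3 : ℝ) := by positivity
          linarith
      _ = κ * n ^ (4 / 3 - ε) := by rw [h1, hκ]; ring
      _ ≤ κ * #(Ed P k) := by gcongr
  obtain ⟨Q, hQ, q2, q1, q3, q4⟩ := cell_of hCells hC dey P k hP hndef hnR hκ1 hlam1 hlamn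
    hν0 hν3 hll1 hl3 hsmall hmany
  refine ⟨Q, hQ, ?_, ?_, ?_, ?_⟩
  · exact q2.trans (le_mul_of_one_le_left hn0.le hK1)
  · exact q1.trans (by gcongr)
  · calc (#(EdBd P k Q Set.univ) : ℝ) ≤ κ ^ 3 * n / lam := q3
      _ ≤ κ ^ 3 * (κ ^ 3 * lam ^ 2 * #Q) / lam := by gcongr
      _ = κ ^ 6 * lam * #Q := by field_simp
      _ ≤ n ^ (7 * ε) * lam * #Q := by gcongr
  · have h1 : (#Q : ℝ) / lam ≤ n / lam ^ 3 := by
      rw [div_le_div_iff₀ hlam0 (by positivity)]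
      nlinarith
    have h3 : ((#Q : ℝ) / lam) ^ (4 / 3 : ℝ) ≤ n ^ (4 / 3 : ℝ) / lam ^ 4 := by
      calc ((#Q : ℝ) / lam) ^ (4 / 3 : ℝ) ≤ (n / lam ^ 3) ^ (4 / 3 : ℝ) :=
            Real.rpow_le_rpow (by positivity) h1 (by norm_num)
        _ = n ^ (4 / 3 : ℝ) / lam ^ 4 := by
            rw [Real.div_rpow hn0.le (by positivity)]
            congr 1
            rw [← Real.rpow_natCast, ← Real.rpow_mul hlam0.le, ← Real.rpow_natCast]
            norm_num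
    have h4 : n ^ (4 / 3 : ℝ) / lam ^ 2 ≤ κ ^ 3 * #(EdIn P k Q Set.univ) := by
      rw [div_le_iff₀ (by positivity), ← hν4]
      linarith
    calc lam ^ 2 * ((#Q : ℝ) / lam) ^ (4 / 3 : ℝ)
        ≤ lam ^ 2 * (n ^ (4 / 3 : ℝ) / lam ^ 4) := by gcongr
      _ = n ^ (4 / 3 : ℝ) / lam ^ 2 := by field_simp
      _ ≤ κ ^ 3 * #(EdIn P k Q Set.univ) := h4
      _ ≤ n ^ (7 * ε) * #(EdIn P k Q Set.univ) := by gcongr

theorem stPick : StPick := stPick_of stCells stDey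

theorem stOut1 : StOut1 := stOut1_of stPick stDey stRank

end Vale.Agent.P065.UB
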