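import Vale.Agent.P065.UB.Alt

/-!
# P065, upper bound, front end: pieces of tokens (helper410)
-/

set_option autoImplicit false

namespace Vale.Agent.P065.UB

open Finset

abbrev Eg := Pt × Pt

/-- slope of an edge -/
noncomputable def slE (e : Eg) : ℝ := sl e.1 e.2

/-- the line of an edge -/
noncomputable def Ln (e : Eg) (x : ℝ) : ℝ := ht (slE e) e.1 + slE e * x

theorem Ln_fst (e : Eg) : Ln e e.1.1 = e.1.2 := by
  unfold Ln ht
  ring

theorem Ln_snd (e : Eg) (h : e.1.1 < e.2.1) : Ln e e.2.1 = e.2.2 := by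
  have h1 := edge_ht e h
  unfold Ln slE
  rw [← h1]
  unfold ht
  ring

theorem Ln_sub (e : Eg) (x y : ℝ) : Ln e x - Ln e y = slE e * (x - y) := by
  unfold Ln
  ring

/-- two `k`-edges with the same slope are equal -/
theorem slE_inj {P : Finset Pt} (hP : Good P) {k : ℕ} {e f : Eg} (he : e ∈ Ed P k)
    (hf : f ∈ Ed P k) (h : slE e = slE f) : e = f := by
  classical
  obtain ⟨e1, e2, e3, e4⟩ := mem_Ed.mp he
  obtain ⟨f1, f2, f3, f4⟩ := mem_Ed.mp hf
  change g0 P (slE e) e.1 = k at e4
  change g0 P (slE f) f.1 = k at f4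
  rw [← h] at f4
  have e5 : ht (slE e) e.2 = ht (slE e) e.1 := edge_ht e e3
  have f5 : ht (slE e) f.2 = ht (slE e) f.1 := by
    have := edge_ht f f3
    change ht (slE f) f.2 = ht (slE f) f.1 at this
    rw [← h] at this
    exact this
  -- heights are equal
  have key : ∀ a b : Pt, a ∈ P → ht (slE e) a < ht (slE e) b →
      g0 P (slE e) a < g0 P (slE e) b := by
    intro a b ha hab
    unfold g0
    apply card_lt_card
    rw [ssubset_iff_of_subset]
    · exact ⟨a, by simp only [mem_filter]; exact ⟨ha, hab⟩,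
        by simp only [mem_filter, lt_irrefl, and_false, not_false_iff]⟩
    · intro u hu
      simp only [mem_filter] at hu ⊢
      exact ⟨hu.1, lt_trans hu.2 hab⟩
  have hh : ht (slE e) e.1 = ht (slE e) f.1 := by
    rcases lt_trichotomy (ht (slE e) e.1) (ht (slE e) f.1) with h1 | h1 | h1
    · have := key _ _ e1 h1
      omega
    · exact h1
    · have := key _ _ f1 h1
      omega
  have ee : e.1 ≠ e.2 := fun h => by rw [h] at e3; exact lt_irrefl _ e3
  have ff : f.1 ≠ f.2 := fun h => by rw [h] at f3; exact lt_irrefl _ f3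
  have hA : f.1 = e.1 ∨ f.1 = e.2 := by
    by_contra hcon
    push Not at hcon
    exact hP.gen (slE e) e.1 e1 e.2 e2 f.1 f1 ee (Ne.symm hcon.1) (Ne.symm hcon.2) e5.symm hh
  have hB : f.2 = e.1 ∨ f.2 = e.2 := by
    by_contra hcon
    push Not at hcon
    exact hP.gen (slE e) e.1 e1 e.2 e2 f.2 f2 ee (Ne.symm hcon.1) (Ne.symm hcon.2) e5.symm
      (by rw [hh, f5])
  rcases hA with hA | hA <;> rcases hB with hB | hB
  · exact absurd (hA.trans hB.symm) ff
  · exact Prod.ext hA.symm hB.symm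
  · rw [hA, hB] at f3
    linarith
  · exact absurd (hA.trans hB.symm) ff

theorem in_in' {P : Finset Pt} (hP : Good P) {k : ℕ} {f f' : Eg} (hf : f ∈ Ed P k)
    (hf' : f' ∈ Ed P k) (h : f.2 = f'.2) (hs : slE f < slE f') :
    ∃ w, (f.2, w) ∈ Ed P k ∧ slE f < sl f.2 w ∧ sl f.2 w < slE f' := by
  obtain ⟨f1, f2⟩ := f
  obtain ⟨g1, g2⟩ := f'
  change f2 = g2 at h
  subst h
  exact in_in hP hf hf' hs

theorem out_out' {P : Finset Pt} (hP : Good P) {k : ℕ} {e e' : Eg} (he : e ∈ Ed P k)
    (he' : e' ∈ Ed P k) (h : e.1 = e'.1) (hs : slE e < slE e') :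
    ∃ w, (w, e.1) ∈ Ed P k ∧ slE e < sl w e.1 ∧ sl w e.1 < slE e' := by
  obtain ⟨f1, f2⟩ := e
  obtain ⟨g1, g2⟩ := e'
  change f1 = g1 at h
  subst h
  exact out_out hP he he' hs

/-- `e` is the first outgoing edge after the incoming edge `f` -/
def Nx (P : Finset Pt) (k : ℕ) (f e : Eg) : Prop :=
  f.2 = e.1 ∧ slE f < slE e ∧ ∀ w, (f.2, w) ∈ Ed P k → ¬ (slE f < sl f.2 w ∧ sl f.2 w < slE e)

theorem Nx.left_unique {P : Finset Pt} (hP : Good P) {k : ℕ} {e f f' : Eg}
    (hf : f ∈ Ed P k) (hf' : f' ∈ Ed P k) (h : Nx P k f e) (h' : Nx P k f' e) : f = f' := by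
  have h2 : f'.2 = f.2 := by rw [h.1, h'.1]
  rcases lt_trichotomy (slE f) (slE f') with h3 | h3 | h3
  · obtain ⟨w, hw, hw1, hw2⟩ := in_in' hP hf hf' h2.symm h3
    exact absurd ⟨hw1, by linarith [h'.2.1]⟩ (h.2.2 w hw)
  · exact slE_inj hP hf hf' h3
  · obtain ⟨w, hw, hw1, hw2⟩ := in_in' hP hf' hf h2 h3
    exact absurd ⟨hw1, by linarith [h.2.1]⟩ (h'.2.2 w hw)

theorem Nx.right_unique {P : Finset Pt} (hP : Good P) {k : ℕ} {e e' f : Eg}
    (he : e ∈ Ed P k) (he' : e' ∈ Ed P k) (h : Nx P k f e) (h' : Nx P k f e') : e = e' := by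
  rcases lt_trichotomy (slE e) (slE e') with h3 | h3 | h3
  · exfalso
    have h4 : (f.2, e.2) ∈ Ed P k := by rw [h.1]; exact he
    refine h'.2.2 e.2 h4 ⟨?_, ?_⟩
    · have := h.2.1; rw [h.1]; exact this
    · rw [h.1]; exact h3
  · exact slE_inj hP he he' h3
  · exfalso
    have h4 : (f.2, e'.2) ∈ Ed P k := by rw [h'.1]; exact he'
    refine h.2.2 e'.2 h4 ⟨?_, ?_⟩
    · have := h'.2.1; rw [h'.1]; exact this
    · rw [h'.1]; exact h3

/-- no incoming edge strictly between `f` and the next outgoing edge `e` -/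
theorem Nx.no_in {P : Finset Pt} (hP : Good P) {k : ℕ} {e f g : Eg} (hf : f ∈ Ed P k)
    (hg : g ∈ Ed P k) (h : Nx P k f e) (h1 : g.2 = f.2) (h2 : slE f < slE g)
    (h3 : slE g ≤ slE e) : False := by
  obtain ⟨w, hw, hw1, hw2⟩ := in_in' hP hf hg h1.symm h2
  exact h.2.2 w hw ⟨hw1, by linarith⟩

/-- the data of one localized sweep -/
structure Loc (P : Finset Pt) (k : ℕ) (Q : Finset Pt) (I : Set ℝ) : Prop where
  good : Good P
  sub : Q ⊆ P
  conn : I.OrdConnected

variable {P : Finset Pt} {k : ℕ} {Q : Finset Pt} {I : Set ℝ}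

theorem mem_EdIn {e : Eg} : e ∈ EdIn P k Q I ↔ e ∈ Ed P k ∧ e.1 ∈ Q ∧ e.2 ∈ Q ∧ slE e ∈ I := by
  classical
  unfold EdIn slE
  rw [mem_filter]

theorem mem_EdBd {e : Eg} : e ∈ EdBd P k Q I ↔
    e ∈ Ed P k ∧ ((e.1 ∈ Q ∧ e.2 ∉ Q) ∨ (e.1 ∉ Q ∧ e.2 ∈ Q)) ∧ slE e ∈ I := by
  classical
  unfold EdBd slE
  rw [mem_filter]

theorem mem_Tch {v : Pt} : v ∈ Tch P k Q I ↔
    v ∈ Q ∧ ∃ e ∈ EdIn P k Q I, e.1 = v ∨ e.2 = v := by
  classical
  unfold Tch
  rw [mem_filter]

/-- consecutive edges of a piece -/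
def NxE (P : Finset Pt) (k : ℕ) (Q : Finset Pt) (I : Set ℝ) (f e : Eg) : Prop :=
  f ∈ EdIn P k Q I ∧ e ∈ EdIn P k Q I ∧ Nx P k f e

/-- `e` before `f` in a piece -/
def Bf (P : Finset Pt) (k : ℕ) (Q : Finset Pt) (I : Set ℝ) (e f : Eg) : Prop :=
  Relation.TransGen (NxE P k Q I) e f

theorem EdIn.lt {e : Eg} (he : e ∈ EdIn P k Q I) : e.1.1 < e.2.1 :=
  (mem_Ed.mp (mem_EdIn.mp he).1).2.2.1

theorem Bf.mem_left {e f : Eg} (h : Bf P k Q I e f) : e ∈ EdIn P k Q I := by
  obtain ⟨c, h1, h2⟩ := Relation.TransGen.head'_iff.mp h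
  exact h1.1

theorem Bf.mem_right {e f : Eg} (h : Bf P k Q I e f) : f ∈ EdIn P k Q I := by
  obtain ⟨c, h1, h2⟩ := Relation.TransGen.tail'_iff.mp h
  exact h2.2.1

theorem NxE.lines {e f : Eg} (h : NxE P k Q I e f) :
    (∀ x, x ≤ e.2.1 → Ln f x ≤ Ln e x) ∧ (∀ x, f.1.1 ≤ x → Ln e x ≤ Ln f x) := by
  have h1 := Ln_snd e (EdIn.lt h.1)
  have h2 := Ln_fst f
  have h3 := h.2.2.1
  have h4 := h.2.2.2.1
  constructor
  · intro x hx
    have h5 := Ln_sub e x e.2.1
    have h6 := Ln_sub f x f.1.1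
    rw [← h3] at h6 h2
    nlinarith
  · intro x hx
    have h5 := Ln_sub e x e.2.1
    have h6 := Ln_sub f x f.1.1
    rw [← h3] at h6 h2 hx
    nlinarith

theorem Bf.slope {e f : Eg} (h : Bf P k Q I e f) : slE e < slE f := by
  induction h with
  | single h => exact h.2.2.2.1
  | tail _ h ih => exact lt_trans ih h.2.2.2.1

theorem Bf.range {e f : Eg} (h : Bf P k Q I e f) : e.2.1 ≤ f.1.1 := by
  induction h with
  | single h => rw [h.2.2.1]
  | tail _ h ih =>
    rename_i b c hab
    have h1 := h.2.2.1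
    have h2 := EdIn.lt h.1
    rw [← h1]
    linarith

theorem Bf.range' {e f : Eg} (h : Bf P k Q I e f) : NxE P k Q I e f ∨ e.2.1 < f.1.1 := by
  obtain ⟨c, h1, h2⟩ := Relation.TransGen.tail'_iff.mp h
  rcases Relation.ReflTransGen.cases_tail_iff (NxE P k Q I) e c |>.mp h1 with h3 | ⟨d, h3, h4⟩
  · left
    rw [h3] at h2
    exact h2
  · right
    have h5 : Bf P k Q I e c := Relation.TransGen.tail' h3 h4
    have h6 := h5.range
    have h7 := EdIn.lt h2.1
    have h8 := h2.2.2.1
    rw [← h8]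
    linarith

theorem Bf.left {e f : Eg} (h : Bf P k Q I e f) : ∀ x, x ≤ e.2.1 → Ln f x ≤ Ln e x := by
  induction h with
  | single h => exact (NxE.lines h).1
  | tail hab h ih =>
    rename_i b c
    intro x hx
    have h1 := ih x hx
    have h2 := Bf.range hab
    have h3 := EdIn.lt h.1
    have h4 := (NxE.lines h).1 x (by linarith)
    linarith

theorem Bf.right {e f : Eg} (h : Bf P k Q I e f) : ∀ x, f.1.1 ≤ x → Ln e x ≤ Ln f x := by
  induction h with
  | single h => exact (NxE.lines h).2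
  | tail hab h ih =>
    rename_i b c
    intro x hx
    have h1 := h.2.2.1
    have h3 := EdIn.lt h.1
    have h4 := (NxE.lines h).2 x hx
    rw [← h1] at hx
    have h5 := ih x (by linarith)
    linarith

theorem Bf.tail {e b f : Eg} (h : Bf P k Q I e b) (h' : NxE P k Q I b f) : Bf P k Q I e f :=
  Relation.TransGen.tail h h'

/-! ### predecessors and roots -/

open Classical in
/-- the predecessor -/
noncomputable def prv (P : Finset Pt) (k : ℕ) (Q : Finset Pt) (I : Set ℝ) (e : Eg) : Eg :=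
  if h : ∃ f, NxE P k Q I f e then h.choose else e

theorem prv_cases (e : Eg) : (prv P k Q I e = e ∧ ¬ ∃ f, NxE P k Q I f e) ∨
    NxE P k Q I (prv P k Q I e) e := by
  classical
  unfold prv
  by_cases h : ∃ f, NxE P k Q I f e
  · right
    rw [dif_pos h]
    exact h.choose_spec
  · left
    rw [dif_neg h]
    exact ⟨rfl, h⟩

theorem prv_mem {e : Eg} (he : e ∈ EdIn P k Q I) : prv P k Q I e ∈ EdIn P k Q I := by
  rcases prv_cases (P := P) (k := k) (Q := Q) (I := I) e with h | h
  · rw [h.1]; exact he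
  · exact h.1

theorem prv_eq (hP : Good P) {e f : Eg} (h : NxE P k Q I f e) : prv P k Q I e = f := by
  rcases prv_cases (P := P) (k := k) (Q := Q) (I := I) e with h1 | h1
  · exact absurd ⟨f, h⟩ h1.2
  · exact Nx.left_unique hP (mem_EdIn.mp h1.1).1 (mem_EdIn.mp h.1).1 h1.2.2 h.2.2

open Classical in
/-- number of edges with smaller slope -/
noncomputable def rk (P : Finset Pt) (k : ℕ) (Q : Finset Pt) (I : Set ℝ) (e : Eg) : ℕ :=
  #{f ∈ EdIn P k Q I | slE f < slE e}

theorem rk_lt {e f : Eg} (h : NxE P k Q I f e) : rk P k Q I f < rk P k Q I e := by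
  classical
  unfold rk
  apply card_lt_card
  rw [ssubset_iff_of_subset]
  · exact ⟨f, by simp only [mem_filter]; exact ⟨h.1, h.2.2.2.1⟩,
      by simp only [mem_filter, lt_irrefl, and_false, not_false_iff]⟩
  · intro u hu
    simp only [mem_filter] at hu ⊢
    exact ⟨hu.1, lt_trans hu.2 h.2.2.2.1⟩

/-- the root -/
noncomputable def root (P : Finset Pt) (k : ℕ) (Q : Finset Pt) (I : Set ℝ) (e : Eg) : Eg :=
  (prv P k Q I)^[#(EdIn P k Q I)] e

theorem iter_mem {e : Eg} (he : e ∈ EdIn P k Q I) (n : ℕ) :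
    (prv P k Q I)^[n] e ∈ EdIn P k Q I := by
  induction n generalizing e with
  | zero => exact he
  | succ n ih =>
    rw [Function.iterate_succ_apply]
    exact ih (prv_mem he)

theorem root_mem {e : Eg} (he : e ∈ EdIn P k Q I) : root P k Q I e ∈ EdIn P k Q I :=
  iter_mem he _

theorem iter_fix : ∀ (n : ℕ) (e : Eg), rk P k Q I e ≤ n →
    prv P k Q I ((prv P k Q I)^[n] e) = (prv P k Q I)^[n] e := by
  intro n
  induction n with
  | zero =>
    intro e hn
    rcases prv_cases (P := P) (k := k) (Q := Q) (I := I) e with h | h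
    · exact h.1
    · have := rk_lt h
      omega
  | succ n ih =>
    intro e hn
    rw [Function.iterate_succ_apply]
    rcases prv_cases (P := P) (k := k) (Q := Q) (I := I) e with h | h
    · rw [h.1]
      have : (prv P k Q I)^[n] e = e := Function.iterate_fixed h.1 n
      rw [this]
      exact h.1
    · have := rk_lt h
      exact ih _ (by omega)

theorem root_fix (e : Eg) : prv P k Q I (root P k Q I e) = root P k Q I e := by
  classical
  apply iter_fix
  unfold rk
  exact card_filter_le _ _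

theorem root_prv (e : Eg) : root P k Q I (prv P k Q I e) = root P k Q I e := by
  have h : (prv P k Q I)^[#(EdIn P k Q I)] (prv P k Q I e)
      = prv P k Q I ((prv P k Q I)^[#(EdIn P k Q I)] e) := by
    rw [← Function.iterate_succ_apply, Function.iterate_succ_apply']
  unfold root
  rw [h]
  exact root_fix e

theorem root_of_fix {e : Eg} (h : prv P k Q I e = e) : root P k Q I e = e :=
  Function.iterate_fixed h _

theorem root_NxE (hP : Good P) {e f : Eg} (h : NxE P k Q I e f) :
    root P k Q I e = root P k Q I f := by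
  rw [← prv_eq hP h, root_prv]

theorem root_Bf (hP : Good P) {e f : Eg} (h : Bf P k Q I e f) :
    root P k Q I e = root P k Q I f := by
  induction h with
  | single h => exact root_NxE hP h
  | tail _ h ih => rw [ih]; exact root_NxE hP h

theorem root_root (e : Eg) : root P k Q I (root P k Q I e) = root P k Q I e :=
  root_of_fix (root_fix e)

theorem prv_root_cases (hP : Good P) {e : Eg} :
    (prv P k Q I e = e ∧ root P k Q I e = e) ∨ (NxE P k Q I (prv P k Q I e) e ∧
      root P k Q I (prv P k Q I e) = root P k Q I e) := by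
  rcases prv_cases (P := P) (k := k) (Q := Q) (I := I) e with h | h
  · left; exact ⟨h.1, root_of_fix h.1⟩
  · right; exact ⟨h, root_NxE hP h⟩

/-- edges of the same piece are comparable -/
theorem comparable (hP : Good P) : ∀ (n : ℕ) (e f : Eg),
    rk P k Q I e + rk P k Q I f = n → root P k Q I e = root P k Q I f →
    e = f ∨ Bf P k Q I e f ∨ Bf P k Q I f e := by
  intro n
  induction n using Nat.strong_induction_on with
  | _ n ih =>
    have half : ∀ e f : Eg, rk P k Q I e + rk P k Q I f = n →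
        root P k Q I e = root P k Q I f → NxE P k Q I (prv P k Q I e) e →
        e = f ∨ Bf P k Q I e f ∨ Bf P k Q I f e := by
      intro e f hn hr h
      have h1 := rk_lt h
      have h2 := root_NxE hP h
      rcases ih (rk P k Q I (prv P k Q I e) + rk P k Q I f) (by omega) (prv P k Q I e) f rfl
        (by rw [h2]; exact hr) with h3 | h3 | h3
      · right; right
        rw [← h3]
        exact Relation.TransGen.single h
      · obtain ⟨c, h4, h5⟩ := Relation.TransGen.head'_iff.mp h3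
        have h6 : c = e := Nx.right_unique hP (mem_EdIn.mp h4.2.1).1 (mem_EdIn.mp h.2.1).1
          h4.2.2 h.2.2
        rw [h6] at h5
        rcases Relation.reflTransGen_iff_eq_or_transGen.mp h5 with h7 | h7
        · left; exact h7.symm
        · right; left; exact h7
      · right; right
        exact Relation.TransGen.tail h3 h
    intro e f hn hr
    rcases prv_cases (P := P) (k := k) (Q := Q) (I := I) e with h | h
    · rcases prv_cases (P := P) (k := k) (Q := Q) (I := I) f with h' | h'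
      · left
        rw [root_of_fix h.1, root_of_fix h'.1] at hr
        exact hr
      · rcases half f e (by omega) hr.symm h' with h3 | h3 | h3
        · left; exact h3.symm
        · right; right; exact h3
        · right; left; exact h3
    · exact half e f hn hr h

theorem compar (hP : Good P) {e f : Eg} (h : root P k Q I e = root P k Q I f) :
    e = f ∨ Bf P k Q I e f ∨ Bf P k Q I f e := comparable hP _ e f rfl h

open Classical in
/-- the pieces, named by their roots -/
noncomputable def Pcs (P : Finset Pt) (k : ℕ) (Q : Finset Pt) (I : Set ℝ) : Finset Eg :=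
  {e ∈ EdIn P k Q I | prv P k Q I e = e}

theorem mem_Pcs {e : Eg} : e ∈ Pcs P k Q I ↔ e ∈ EdIn P k Q I ∧ prv P k Q I e = e := by
  classical
  unfold Pcs
  rw [mem_filter]

theorem root_mem_Pcs {e : Eg} (he : e ∈ EdIn P k Q I) : root P k Q I e ∈ Pcs P k Q I :=
  mem_Pcs.mpr ⟨root_mem he, root_fix e⟩

/-- number of pieces -/
theorem card_Pcs (hL : Loc P k Q I) : #(Pcs P k Q I) ≤ #(Tch P k Q I) + #(EdBd P k Q I) := by
  classical
  have hP := hL.good
  -- type A: there is a previous `k`-edge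
  set A : Finset Eg := {e ∈ Pcs P k Q I | ∃ f ∈ Ed P k, slE f ∈ I ∧ Nx P k f e} with hA
  set B : Finset Eg := {e ∈ Pcs P k Q I | ¬ ∃ f ∈ Ed P k, slE f ∈ I ∧ Nx P k f e} with hB
  have hAB : #(Pcs P k Q I) = #A + #B := by
    rw [hA, hB, card_filter_add_card_filter_not]
  have hAc : #A ≤ #(EdBd P k Q I) := by
    have hch : ∀ e ∈ A, ∃ f ∈ Ed P k, slE f ∈ I ∧ Nx P k f e := fun e he =>
      (mem_filter.mp he).2
    choose! φ h1 h2 h3 using hch
    refine card_le_card_of_injOn φ ?_ ?_
    · intro e he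
      have he' := (mem_filter.mp he).1
      have he2 := mem_Pcs.mp he'
      have he3 := mem_EdIn.mp he2.1
      rw [mem_coe, mem_EdBd]
      refine ⟨h1 e he, Or.inr ⟨?_, ?_⟩, h2 e he⟩
      · intro hq
        have h4 : NxE P k Q I (φ e) e :=
          ⟨mem_EdIn.mpr ⟨h1 e he, hq, by rw [(h3 e he).1]; exact he3.2.1, h2 e he⟩, he2.1,
            h3 e he⟩
        have h5 := prv_eq hP h4
        rw [he2.2] at h5
        have h6 := (h3 e he).2.1
        rw [← h5] at h6
        exact lt_irrefl _ h6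
      · rw [(h3 e he).1]; exact he3.2.1
    · intro e he e' he' heq
      have h4 := h3 e he
      have h5 := h3 e' he'
      have heq' : φ e = φ e' := heq
      rw [← heq'] at h5
      have he1 := (mem_EdIn.mp (mem_Pcs.mp (mem_filter.mp he).1).1).1
      have he1' := (mem_EdIn.mp (mem_Pcs.mp (mem_filter.mp he').1).1).1
      exact Nx.right_unique hP he1 he1' h4 h5
  have hBc : #B ≤ #(Tch P k Q I) := by
    -- no incoming edge before
    have key : ∀ e ∈ B, ∀ u, (u, e.1) ∈ Ed P k → sl u e.1 ∈ I → ¬ sl u e.1 < slE e := by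
      intro e he u hu hI hlt
      have he' := (mem_filter.mp he).1
      have he2 := mem_Pcs.mp he'
      have he3 := mem_EdIn.mp he2.1
      have hne : ({f ∈ Ed P k | f.2 = e.1 ∧ slE f ∈ I ∧ slE f < slE e} : Finset Eg).Nonempty :=
        ⟨(u, e.1), mem_filter.mpr ⟨hu, rfl, hI, hlt⟩⟩
      obtain ⟨f, hf, hmax⟩ := exists_max_image _ (fun f => slE f) hne
      simp only [mem_filter] at hf
      apply (mem_filter.mp he).2
      refine ⟨f, hf.1, hf.2.2.1, hf.2.1, hf.2.2.2, ?_⟩
      rintro w hw ⟨hw1, hw2⟩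
      rw [hf.2.1] at hw hw1 hw2
      obtain ⟨x, hx, hx1, hx2⟩ := out_out hP (u := w) (u' := e.2) (v := e.1) hw he3.1 hw2
      have hxI : sl x e.1 ∈ I := hL.conn.out hf.2.2.1 he3.2.2.2
        ⟨by show slE f ≤ sl x e.1; linarith, by show sl x e.1 ≤ slE e; exact hx2.le⟩
      have := hmax (x, e.1) (by
        refine mem_filter.mpr ⟨hx, rfl, hxI, hx2⟩)
      have h9 : slE (x, e.1) = sl x e.1 := rfl
      rw [h9] at this
      linarith
    refine card_le_card_of_injOn (fun e => e.1) ?_ ?_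
    · intro e he
      have he2 := mem_Pcs.mp (mem_filter.mp he).1
      have he3 := mem_EdIn.mp he2.1
      rw [mem_coe, mem_Tch]
      exact ⟨he3.2.1, e, he2.1, Or.inl rfl⟩
    · intro e he e' he' heq
      have heq' : e.1 = e'.1 := heq
      have he3 := mem_EdIn.mp (mem_Pcs.mp (mem_filter.mp he).1).1
      have he3' := mem_EdIn.mp (mem_Pcs.mp (mem_filter.mp he').1).1
      rcases lt_trichotomy (slE e) (slE e') with h | h | h
      · exfalso
        obtain ⟨x, hx, hx1, hx2⟩ := out_out' hP he3.1 he3'.1 heq' h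
        refine key e' he' x (by rw [← heq']; exact hx) ?_ (by rw [← heq']; exact hx2)
        rw [← heq']
        exact hL.conn.out he3.2.2.2 he3'.2.2.2 ⟨hx1.le, hx2.le⟩
      · exact slE_inj hP he3.1 he3'.1 h
      · exfalso
        obtain ⟨x, hx, hx1, hx2⟩ := out_out' hP he3'.1 he3.1 heq'.symm h
        refine key e he x (by rw [heq']; exact hx) ?_ (by rw [heq']; exact hx2)
        rw [heq']
        exact hL.conn.out he3'.2.2.2 he3.2.2.2 ⟨hx1.le, hx2.le⟩
  omega

end Vale.Agent.P065.UB
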