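import Vale.Agent.P065.UB.Defs

/-!
# P065, upper bound, front end: the windows (helper266)

The slopes are cut into windows which contain few boundary edges and few inner edges.
-/

set_option autoImplicit false

namespace Vale.Agent.P065.UB

open Finset

namespace Win266

/-! ### slopes are injective on the `k`-edges -/

theorem ht_sl {p q : Pt} (h : p.1 < q.1) : ht (sl p q) p = ht (sl p q) q := by
  have h1 : q.1 - p.1 ≠ 0 := by linarith [h] |> ne_of_gt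
  unfold ht sl
  field_simp
  ring

theorem eq_of_sl {P : Finset Pt} (hP : Good P) {k : ℕ} {e e' : Pt × Pt}
    (he : e ∈ Ed P k) (he' : e' ∈ Ed P k) (h : sl e.1 e.2 = sl e'.1 e'.2) : e = e' := by
  classical
  obtain ⟨p, q⟩ := e
  obtain ⟨p', q'⟩ := e'
  simp only [Ed, mem_filter, mem_product] at he he'
  obtain ⟨⟨hp, hq⟩, hpq, hk⟩ := he
  obtain ⟨⟨hp', hq'⟩, hpq', hk'⟩ := he'
  simp only at h hp hq hpq hk hp' hq' hpq' hk'
  have e1 := ht_sl hpq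
  have e2 := ht_sl hpq'
  rw [← h] at e2 hk'
  have key : ∀ a b c d : Pt, a ∈ P → b ∈ P → a.1 < b.1 →
      ht (sl p q) a = ht (sl p q) b → ht (sl p q) a < ht (sl p q) c →
      #{v ∈ P | ht (sl p q) v < ht (sl p q) a} = k →
      #{v ∈ P | ht (sl p q) v < ht (sl p q) c} = k → False := by
    intro a b c _ ha hb hab hab' hac h1 h2
    have hss : {v ∈ P | ht (sl p q) v < ht (sl p q) a} ⊂
        {v ∈ P | ht (sl p q) v < ht (sl p q) c} := by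
      refine ⟨fun v hv => ?_, fun hh => ?_⟩
      · simp only [mem_filter] at hv ⊢
        exact ⟨hv.1, hv.2.trans hac⟩
      · have : a ∈ ({v ∈ P | ht (sl p q) v < ht (sl p q) a} : Finset Pt) :=
          hh (by simp only [mem_filter]; exact ⟨ha, hac⟩)
        simp only [mem_filter] at this
        exact lt_irrefl _ this.2
    have := card_lt_card hss
    omega
  rcases lt_trichotomy (ht (sl p q) p) (ht (sl p q) p') with hlt | heq | hgt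
  · exact (key p q p' p' hp hq hpq e1 hlt hk hk').elim
  · -- all four points have the same height
    have hpp : p' = p ∨ p' = q := by
      by_contra hc
      push Not at hc
      exact hP.gen (sl p q) p hp q hq p' hp' (fun hh => by rw [hh] at hpq; exact lt_irrefl _ hpq)
        (fun hh => hc.1 hh.symm) (fun hh => hc.2 hh.symm) e1 heq
    have hqq : q' = p ∨ q' = q := by
      by_contra hc
      push Not at hc
      exact hP.gen (sl p q) p hp q hq q' hq' (fun hh => by rw [hh] at hpq; exact lt_irrefl _ hpq)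
        (fun hh => hc.1 hh.symm) (fun hh => hc.2 hh.symm) e1 (heq.trans e2)
    rcases hpp with rfl | rfl <;> rcases hqq with rfl | rfl
    · exact absurd hpq' (lt_irrefl _)
    · rfl
    · exact absurd (hpq.trans hpq') (lt_irrefl _)
    · exact absurd hpq' (lt_irrefl _)
  · exact (key p' q' p p hp' hq' hpq' e2 hgt hk' hk).elim

/-! ### windows as level sets of an increasing function -/

/-- number of elements of `S` with value below `m` -/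
noncomputable def cnt {α : Type*} (S : Finset α) (s : α → ℝ) (m : ℝ) : ℕ := #{e ∈ S | s e < m}

theorem cnt_mono {α : Type*} (S : Finset α) (s : α → ℝ) : Monotone (cnt S s) := by
  intro m m' h
  exact card_le_card fun e he => by
    simp only [mem_filter] at he ⊢
    exact ⟨he.1, he.2.trans_le h⟩

theorem cnt_le {α : Type*} (S : Finset α) (s : α → ℝ) (m : ℝ) : cnt S s m ≤ #S :=
  card_filter_le _ _

/-- a level set of `⌊F⌋` contains at most `v` elements if `F` grows at least like `cnt / v`. -/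
theorem card_level {α : Type*} (S : Finset α) (s : α → ℝ) (inj : ∀ e ∈ S, ∀ e' ∈ S,
    s e = s e' → e = e') (F : ℝ → ℝ) (hF0 : ∀ m, 0 ≤ F m) (v : ℕ) (hv : 0 < v)
    (hF : ∀ m m', m ≤ m' → ((cnt S s m' : ℝ) - cnt S s m) / v ≤ F m' - F m) (j : ℕ) :
    #{e ∈ S | ⌊F (s e)⌋₊ = j} ≤ v := by
  classical
  by_contra hc
  push Not at hc
  set A : Finset α := {e ∈ S | ⌊F (s e)⌋₊ = j} with hA
  have hne : A.Nonempty := card_pos.1 (by omega)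
  obtain ⟨a, haA, ha⟩ := exists_min_image A s hne
  obtain ⟨b, hbA, hb⟩ := exists_max_image A s hne
  have haS : a ∈ S ∧ ⌊F (s a)⌋₊ = j := by simpa [hA] using haA
  have hbS : b ∈ S ∧ ⌊F (s b)⌋₊ = j := by simpa [hA] using hbA
  have h1 : cnt S s (s a) + (#A - 1) ≤ cnt S s (s b) := by
    rw [← card_erase_of_mem hbA]
    unfold cnt
    rw [← card_union_of_disjoint]
    · refine card_le_card fun e he => ?_
      simp only [mem_union, mem_filter, mem_erase] at he ⊢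
      rcases he with he | he
      · exact ⟨he.1, he.2.trans_le (ha b hbA)⟩
      · have heS : e ∈ S := by have := he.2; simp only [hA, mem_filter] at this; exact this.1
        refine ⟨heS, lt_of_le_of_ne (hb e he.2) fun hh => he.1 (inj e heS b hbS.1 hh)⟩
    · rw [disjoint_left]
      intro e he he'
      simp only [mem_filter, mem_erase] at he he'
      exact absurd he.2 (not_lt.2 (ha e he'.2))
  have h2 := hF (s a) (s b) (ha b hbA)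
  have h3 : (1 : ℝ) ≤ ((cnt S s (s b) : ℝ) - cnt S s (s a)) / v := by
    rw [le_div_iff₀ (by exact_mod_cast hv), one_mul]
    have : (v : ℝ) + cnt S s (s a) ≤ cnt S s (s b) := by
      have : v + cnt S s (s a) ≤ cnt S s (s b) := by omega
      exact_mod_cast this
    linarith
  have h4 : F (s a) + 1 ≤ F (s b) := by linarith
  have h5 : ⌊F (s a)⌋₊ + 1 ≤ ⌊F (s b)⌋₊ := by
    rw [← Nat.floor_add_one (hF0 _)]
    exact Nat.floor_le_floor h4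
  omega

theorem ordConnected_level {F : ℝ → ℝ} (hF : Monotone F) (j : ℕ) :
    ({m | ⌊F m⌋₊ = j} : Set ℝ).OrdConnected := by
  refine ⟨fun x hx y hy z hz => ?_⟩
  change ⌊F x⌋₊ = j at hx
  change ⌊F y⌋₊ = j at hy
  change ⌊F z⌋₊ = j
  have h1 := Nat.floor_le_floor (hF hz.1)
  have h2 := Nat.floor_le_floor (hF hz.2)
  omega

/-! ### real arithmetic -/

theorem rp_mono {x y : ℝ} (hx : 0 ≤ x) (h : x ≤ y) (r : ℝ) (hr : 0 ≤ r) : x ^ r ≤ y ^ r :=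
  Real.rpow_le_rpow hx h hr

theorem rp23 {x c : ℝ} (hx : 0 ≤ x) (hc : 0 ≤ c) :
    (c * x ^ 2) ^ (2 / 3 : ℝ) = c ^ (2 / 3 : ℝ) * x ^ (4 / 3 : ℝ) := by
  rw [Real.mul_rpow hc (by positivity), ← Real.rpow_natCast, ← Real.rpow_mul hx]
  norm_num

theorem rp_le_self {c r : ℝ} (hc : 1 ≤ c) (hr : r ≤ 1) : c ^ r ≤ c := by
  calc c ^ r ≤ c ^ (1 : ℝ) := Real.rpow_le_rpow_of_exponent_le hc hr
    _ = c := Real.rpow_one c

theorem rp_272 : (272 : ℝ) ^ (2 / 3 : ℝ) ≤ 43 := by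
  have h1 : ((272 : ℝ) ^ (2 / 3 : ℝ)) ^ (3 : ℕ) = 272 ^ 2 := by
    rw [← Real.rpow_natCast, ← Real.rpow_mul (by norm_num)]
    norm_num
  by_contra hc
  push Not at hc
  have h2 : (43 : ℝ) ^ 3 < ((272 : ℝ) ^ (2 / 3 : ℝ)) ^ (3 : ℕ) :=
    pow_lt_pow_left₀ hc (by norm_num) (by norm_num)
  rw [h1] at h2
  norm_num at h2

/-- the upper bound on all inner edges -/
theorem arith_E {C K lam a w V : ℝ} (hC : 1 ≤ C) (hK : 2 ≤ K) (hl : 1 ≤ lam) (ha : 0 ≤ a)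
    (hw0 : 0 ≤ w) (hw : w ≤ lam * a) (hV0 : 0 ≤ V) (hV : V ≤ K * lam ^ 2 * a) :
    C * (w * (w + V)) ^ (2 / 3 : ℝ) ≤ 2 * C * K * lam ^ 2 * a ^ (4 / 3 : ℝ) := by
  have h1 : w * (w + V) ≤ (2 * K * lam ^ 3) * a ^ 2 := by
    have h2 : w + V ≤ 2 * K * lam ^ 2 * a := by
      have : lam * a ≤ K * lam ^ 2 * a := by
        have : lam ≤ K * lam ^ 2 := by nlinarith [sq_nonneg lam]
        exact mul_le_mul_of_nonneg_right this ha
      nlinarith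
    calc w * (w + V) ≤ (lam * a) * (2 * K * lam ^ 2 * a) :=
          mul_le_mul hw h2 (by positivity) (by positivity)
      _ = _ := by ring
  have h3 := rp_mono (by positivity) h1 (2 / 3) (by norm_num)
  rw [rp23 ha (by positivity),
    Real.mul_rpow (x := 2 * K) (y := lam ^ 3) (by positivity) (by positivity)] at h3
  have h4 : (lam ^ 3) ^ (2 / 3 : ℝ) = lam ^ 2 := by
    rw [← Real.rpow_natCast, ← Real.rpow_mul (by positivity), ← Real.rpow_natCast]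
    norm_num
  have h5 : (2 * K) ^ (2 / 3 : ℝ) ≤ 2 * K := rp_le_self (by linarith) (by norm_num)
  rw [h4] at h3
  have h6 : (2 * K) ^ (2 / 3 : ℝ) * lam ^ 2 * a ^ (4 / 3 : ℝ)
      ≤ 2 * K * lam ^ 2 * a ^ (4 / 3 : ℝ) := by
    have : 0 ≤ lam ^ 2 * a ^ (4 / 3 : ℝ) := by positivity
    nlinarith
  calc C * (w * (w + V)) ^ (2 / 3 : ℝ) ≤ C * (2 * K * lam ^ 2 * a ^ (4 / 3 : ℝ)) :=
        mul_le_mul_of_nonneg_left (h3.trans h6) (by linarith)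
    _ = _ := by ring

/-- Dey when the set is small compared with the boundary -/
theorem arith_small {C a κ : ℝ} {w V v0 : ℕ} (hC : 1 ≤ C) (ha : 0 < a) (hκ : 0 < κ)
    (hv0 : 1 ≤ v0) (hv : (v0 : ℝ) ≤ a / κ ^ 3) (hV : V ≤ v0) (hw : w < 8 * (V + 1)) :
    C * ((w : ℝ) * (w + V)) ^ (2 / 3 : ℝ) * κ ^ 4 ≤ 43 * C * a ^ (4 / 3 : ℝ) := by
  have h1 : (w : ℝ) * (w + V) ≤ 272 * (v0 : ℝ) ^ 2 := by
    have hw' : w ≤ 16 * v0 := by omega
    have hw1 : (w : ℝ) ≤ 16 * v0 := by exact_mod_cast hw'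
    have hw2 : (V : ℝ) ≤ v0 := by exact_mod_cast hV
    have : (w : ℝ) * (w + V) ≤ (16 * v0) * (17 * v0) :=
      mul_le_mul hw1 (by linarith) (by positivity) (by positivity)
    linarith
  have h2 := rp_mono (by positivity) h1 (2 / 3) (by norm_num)
  rw [rp23 (by positivity) (by norm_num)] at h2
  have h3 : (v0 : ℝ) ^ (4 / 3 : ℝ) ≤ (a / κ ^ 3) ^ (4 / 3 : ℝ) :=
    rp_mono (by positivity) hv _ (by norm_num)
  have h4 : (a / κ ^ 3) ^ (4 / 3 : ℝ) = a ^ (4 / 3 : ℝ) / κ ^ 4 := by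
    rw [Real.div_rpow ha.le (by positivity)]
    congr 1
    rw [← Real.rpow_natCast, ← Real.rpow_mul (by positivity), ← Real.rpow_natCast]
    norm_num
  rw [h4] at h3
  have h5 : (v0 : ℝ) ^ (4 / 3 : ℝ) * κ ^ 4 ≤ a ^ (4 / 3 : ℝ) := by
    rwa [le_div_iff₀ (by positivity)] at h3
  calc C * ((w : ℝ) * (w + V)) ^ (2 / 3 : ℝ) * κ ^ 4
      ≤ C * (43 * (v0 : ℝ) ^ (4 / 3 : ℝ)) * κ ^ 4 := by
        gcongr
        exact h2.trans (mul_le_mul_of_nonneg_right rp_272 (by positivity))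
    _ = 43 * C * ((v0 : ℝ) ^ (4 / 3 : ℝ) * κ ^ 4) := by ring
    _ ≤ 43 * C * a ^ (4 / 3 : ℝ) := mul_le_mul_of_nonneg_left h5 (by positivity)

/-- Dey when the set is large compared with the boundary -/
theorem arith_large {C : ℝ} {w V : ℕ} (hC : 1 ≤ C) (hw : V ≤ w) :
    C * ((w : ℝ) * (w + V)) ^ (2 / 3 : ℝ) ≤ 2 * C * (w : ℝ) ^ (4 / 3 : ℝ) := by
  have h1 : (w : ℝ) * (w + V) ≤ 2 * (w : ℝ) ^ 2 := by
    have : (V : ℝ) ≤ w := by exact_mod_cast hw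
    nlinarith [Nat.cast_nonneg (α := ℝ) w]
  have h2 := rp_mono (by positivity) h1 (2 / 3) (by norm_num)
  rw [rp23 (by positivity) (by norm_num)] at h2
  have h3 : (2 : ℝ) ^ (2 / 3 : ℝ) ≤ 2 := rp_le_self (by norm_num) (by norm_num)
  calc C * ((w : ℝ) * (w + V)) ^ (2 / 3 : ℝ) ≤ C * (2 * (w : ℝ) ^ (4 / 3 : ℝ)) := by
        gcongr
        exact h2.trans (mul_le_mul_of_nonneg_right h3 (by positivity))
    _ = _ := by ring

theorem arith_inv {a X w : ℝ} (_ha : 0 ≤ a) (hw : 0 ≤ w) (hX : 1 ≤ X)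
    (h : a ^ (4 / 3 : ℝ) ≤ X * w ^ (4 / 3 : ℝ)) : a ≤ X * w := by
  by_contra hc
  push Not at hc
  have h1 : (X * w) ^ (4 / 3 : ℝ) < a ^ (4 / 3 : ℝ) :=
    Real.rpow_lt_rpow (by positivity) hc (by norm_num)
  rw [Real.mul_rpow (by linarith) hw] at h1
  have h2 : X ≤ X ^ (4 / 3 : ℝ) := by
    calc X = X ^ (1 : ℝ) := (Real.rpow_one X).symm
      _ ≤ X ^ (4 / 3 : ℝ) := Real.rpow_le_rpow_of_exponent_le hX (by norm_num)
  have h3 : X * w ^ (4 / 3 : ℝ) ≤ X ^ (4 / 3 : ℝ) * w ^ (4 / 3 : ℝ) :=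
    mul_le_mul_of_nonneg_right h2 (by positivity)
  linarith

theorem arith_fwd {a X w : ℝ} (ha : 0 ≤ a) (hw : 0 ≤ w) (hX : 1 ≤ X) (h : w ≤ X * a) :
    w ^ (4 / 3 : ℝ) ≤ X ^ 2 * a ^ (4 / 3 : ℝ) := by
  have h1 := rp_mono hw h (4 / 3) (by norm_num)
  rw [Real.mul_rpow (by linarith) ha] at h1
  have h2 : X ^ (4 / 3 : ℝ) ≤ X ^ 2 := by
    rw [← Real.rpow_natCast]
    exact Real.rpow_le_rpow_of_exponent_le hX (by norm_num)
  exact h1.trans (mul_le_mul_of_nonneg_right h2 (by positivity))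

theorem half_le_floor {x : ℝ} (hx : 1 ≤ x) : x / 2 ≤ (⌊x⌋₊ : ℝ) := by
  have h1 : x < ⌊x⌋₊ + 1 := Nat.lt_floor_add_one x
  have h2 : 1 ≤ ⌊x⌋₊ := Nat.floor_pos.2 hx
  have h3 : (1 : ℝ) ≤ ⌊x⌋₊ := by exact_mod_cast h2
  linarith

/-! ### the abstract selection of good windows -/

/-- the rich windows carry half of the edges. -/
theorem rich_half (R : Finset ℕ) (Ej : ℕ → ℕ) (hRne : R.Nonempty) :
    (∑ j ∈ R, (Ej j : ℝ)) / 2
      ≤ ∑ j ∈ R with (∑ j ∈ R, (Ej j : ℝ)) ≤ 2 * #R * (Ej j : ℝ), (Ej j : ℝ) := by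
  classical
  have hRpos : (0 : ℝ) < #R := by exact_mod_cast card_pos.2 hRne
  set E : ℝ := ∑ j ∈ R, (Ej j : ℝ) with hE
  have hE0 : 0 ≤ E := by positivity
  have h1 : ∑ j ∈ R with ¬ (E ≤ 2 * #R * (Ej j : ℝ)), (Ej j : ℝ) ≤ E / 2 := by
    calc ∑ j ∈ R with ¬ (E ≤ 2 * #R * (Ej j : ℝ)), (Ej j : ℝ)
        ≤ ∑ j ∈ R with ¬ (E ≤ 2 * #R * (Ej j : ℝ)), E / (2 * #R) := by
          refine sum_le_sum fun j hj => ?_
          simp only [mem_filter, not_le] at hj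
          rw [le_div_iff₀ (by positivity)]
          linarith [hj.2]
      _ ≤ ∑ j ∈ R, E / (2 * #R) :=
          sum_le_sum_of_subset_of_nonneg (filter_subset _ _) fun _ _ _ => by positivity
      _ = E / 2 := by
          rw [sum_const, nsmul_eq_mul]
          field_simp
  have h2 := sum_filter_add_sum_filter_not R (fun j => E ≤ 2 * #R * (Ej j : ℝ))
    (fun j => (Ej j : ℝ))
  rw [← hE] at h2
  linarith

/-- few windows have many touched points -/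
theorem few_large {K lam a : ℝ} (hK : 2 ≤ K) (ha : 0 < a) (R G : Finset ℕ) (hG : G ⊆ R)
    (wj Sj : ℕ → ℕ) (hsw : ∀ j ∈ G, wj j ^ 2 ≤ 64 * Sj j)
    (hS : ((∑ j ∈ R, Sj j : ℕ) : ℝ) ≤ (lam * a) ^ 2) :
    (#{j ∈ G | ¬ ((wj j : ℝ) ≤ 16 * K * a)} : ℝ) * (4 * K ^ 2) ≤ lam ^ 2 := by
  classical
  have h1 : ∑ j ∈ G with ¬ ((wj j : ℝ) ≤ 16 * K * a), (16 * K * a) ^ 2
      ≤ 64 * (lam * a) ^ 2 := by
    calc ∑ j ∈ G with ¬ ((wj j : ℝ) ≤ 16 * K * a), (16 * K * a) ^ 2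
        ≤ ∑ j ∈ G with ¬ ((wj j : ℝ) ≤ 16 * K * a), 64 * (Sj j : ℝ) := by
          refine sum_le_sum fun j hj => ?_
          simp only [mem_filter, not_le] at hj
          have h2 : ((wj j : ℝ)) ^ 2 ≤ 64 * Sj j := by exact_mod_cast hsw j hj.1
          refine le_trans ?_ h2
          exact pow_le_pow_left₀ (by positivity) hj.2.le 2
      _ ≤ ∑ j ∈ R, 64 * (Sj j : ℝ) :=
          sum_le_sum_of_subset_of_nonneg
            ((filter_subset _ _).trans hG) fun _ _ _ => by positivity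
      _ = 64 * ((∑ j ∈ R, Sj j : ℕ) : ℝ) := by rw [← mul_sum]; push_cast; rfl
      _ ≤ _ := by linarith
  rw [sum_const, nsmul_eq_mul] at h1
  have h3 : (#{j ∈ G | ¬ ((wj j : ℝ) ≤ 16 * K * a)} : ℝ) * (4 * K ^ 2) * (64 * a ^ 2)
      ≤ lam ^ 2 * (64 * a ^ 2) := by
    calc _ = (#{j ∈ G | ¬ ((wj j : ℝ) ≤ 16 * K * a)} : ℝ) * (16 * K * a) ^ 2 := by ring
      _ ≤ _ := h1
      _ = _ := by ring
  exact le_of_mul_le_mul_right h3 (by positivity)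

/-- the comparison of the bounds for a small window -/
theorem no_small {C K a κ e : ℝ} (hC : 1 ≤ C) (hK : 2 ≤ K)
    (hκ : κ = 603 * C ^ 2 * K ^ 2) (hap : 0 < a)
    (h3 : e * κ ^ 4 ≤ 43 * C * a)
    (h4 : a ≤ 14 * C * K ^ 2 * κ ^ 3 * e) : False := by
  have hκ0 : 0 < κ := by rw [hκ]; positivity
  have he : 0 < e := by
    by_contra hh
    push Not at hh
    have h6 : 0 ≤ 14 * C * K ^ 2 * κ ^ 3 := by positivity
    have : 14 * C * K ^ 2 * κ ^ 3 * e ≤ 0 := mul_nonpos_of_nonneg_of_nonpos h6 hh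
    linarith
  have h5 : e * κ ^ 4 ≤ 43 * C * (14 * C * K ^ 2 * κ ^ 3 * e) :=
    h3.trans (mul_le_mul_of_nonneg_left h4 (by positivity))
  have h6 : κ * (e * κ ^ 3) ≤ (602 * C ^ 2 * K ^ 2) * (e * κ ^ 3) := by
    calc κ * (e * κ ^ 3) = e * κ ^ 4 := by ring
      _ ≤ _ := h5
      _ = _ := by ring
  have h7 : κ ≤ 602 * C ^ 2 * K ^ 2 := le_of_mul_le_mul_right h6 (by positivity)
  rw [hκ] at h7
  have : 0 < C ^ 2 * K ^ 2 := by positivity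
  linarith

/-- the pure counting part of the windows. -/
theorem pick_windows {C K lam a : ℝ} (hC : 1 ≤ C) (hK : 2 ≤ K) (hl : 1 ≤ lam) (ha : 0 < a)
    {κ : ℝ} (hκ : κ = 603 * C ^ 2 * K ^ 2) (R : Finset ℕ) (Vj Ej wj Sj : ℕ → ℕ) (v0 : ℕ)
    (hv1 : 1 ≤ v0) (hv0 : (v0 : ℝ) ≤ a / κ ^ 3)
    (hV : ∀ j ∈ R, Vj j ≤ v0) (hE : ∀ j ∈ R, (Ej j : ℝ) ≤ a ^ (4 / 3 : ℝ))
    (dey : ∀ j ∈ R, (Ej j : ℝ) ≤ C * ((wj j : ℝ) * (wj j + Vj j)) ^ (2 / 3 : ℝ))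
    (rank : ∀ j ∈ R, 8 * (Vj j + 1) ≤ wj j → wj j ^ 2 ≤ 64 * Sj j)
    (hS : ((∑ j ∈ R, Sj j : ℕ) : ℝ) ≤ (lam * a) ^ 2)
    (hR : (#R : ℝ) ≤ 7 * C * K * κ ^ 3 * lam ^ 2)
    (hsum : lam ^ 2 * a ^ (4 / 3 : ℝ) ≤ K * ((∑ j ∈ R, Ej j : ℕ) : ℝ)) :
    ∃ G ⊆ R, lam ^ 2 ≤ 4 * K * (#G : ℝ) ∧ ∀ j ∈ G, 8 * (Vj j + 1) ≤ wj j ∧
      wj j ^ 2 ≤ 64 * Sj j ∧ (wj j : ℝ) ≤ 16 * K * a ∧ a ≤ 28 * C ^ 2 * K ^ 2 * κ ^ 3 * wj j ∧
      (wj j : ℝ) ^ (4 / 3 : ℝ) ≤ 3584 * C * K ^ 4 * κ ^ 3 * Ej j := by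
  classical
  have hκ0 : 0 < κ := by rw [hκ]; positivity
  have hCK : 1 ≤ C ^ 2 * K ^ 2 :=
    one_le_mul_of_one_le_of_one_le (one_le_pow₀ hC) (one_le_pow₀ (by linarith))
  have hκ1 : 1 ≤ κ := by
    rw [hκ]
    linarith
  have hap : 0 < a ^ (4 / 3 : ℝ) := Real.rpow_pos_of_pos ha _
  set E : ℝ := ((∑ j ∈ R, Ej j : ℕ) : ℝ) with hEdef
  have hEpos : 0 < E := by
    by_contra hc
    push Not at hc
    have : 0 < lam ^ 2 * a ^ (4 / 3 : ℝ) := by positivity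
    nlinarith
  have hEsum : E = ∑ j ∈ R, (Ej j : ℝ) := by rw [hEdef]; push_cast; rfl
  have hRne : R.Nonempty := by
    rw [nonempty_iff_ne_empty]
    rintro rfl
    simp [hEsum] at hEpos
  set G1 : Finset ℕ := {j ∈ R | (∑ j ∈ R, (Ej j : ℝ)) ≤ 2 * #R * (Ej j : ℝ)} with hG1
  have hhalf : E / 2 ≤ ∑ j ∈ G1, (Ej j : ℝ) := by
    rw [hEsum]
    exact rich_half R Ej hRne
  have hG1card : lam ^ 2 ≤ 2 * K * #G1 := by
    have h1 : ∑ j ∈ G1, (Ej j : ℝ) ≤ #G1 * a ^ (4 / 3 : ℝ) := by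
      rw [← nsmul_eq_mul, ← sum_const]
      exact sum_le_sum fun j hj => hE j (mem_filter.1 hj).1
    have h2 : lam ^ 2 * a ^ (4 / 3 : ℝ) ≤ (2 * K * #G1) * a ^ (4 / 3 : ℝ) := by
      nlinarith
    exact le_of_mul_le_mul_right h2 hap
  -- the least number of edges
  have hmin : ∀ j ∈ G1, a ^ (4 / 3 : ℝ) ≤ 14 * C * K ^ 2 * κ ^ 3 * Ej j := by
    intro j hj
    have h1 : E ≤ 2 * #R * (Ej j : ℝ) := by
      rw [hEsum]
      exact (mem_filter.1 hj).2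
    have h2 : lam ^ 2 * a ^ (4 / 3 : ℝ) ≤ K * (2 * (7 * C * K * κ ^ 3 * lam ^ 2) * Ej j) := by
      refine hsum.trans (mul_le_mul_of_nonneg_left (h1.trans ?_) (by linarith))
      gcongr
    have h3 : a ^ (4 / 3 : ℝ) * lam ^ 2 ≤ (14 * C * K ^ 2 * κ ^ 3 * Ej j) * lam ^ 2 := by
      linarith
    exact le_of_mul_le_mul_right h3 (by positivity)
  -- boundary
  have hbd : ∀ j ∈ G1, 8 * (Vj j + 1) ≤ wj j := by
    intro j hj
    by_contra hc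
    push Not at hc
    have hjR := (mem_filter.1 hj).1
    have h1 := arith_small (C := C) (a := a) (κ := κ) hC ha hκ0 hv1 hv0 (hV j hjR) hc
    have h2 := dey j hjR
    have h3 : (Ej j : ℝ) * κ ^ 4 ≤ 43 * C * a ^ (4 / 3 : ℝ) :=
      (mul_le_mul_of_nonneg_right h2 (by positivity)).trans h1
    exact no_small hC hK hκ hap h3 (hmin j hj)
  have hsw : ∀ j ∈ G1, wj j ^ 2 ≤ 64 * Sj j := fun j hj =>
    rank j (mem_filter.1 hj).1 (hbd j hj)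
  set G2 : Finset ℕ := {j ∈ G1 | (wj j : ℝ) ≤ 16 * K * a} with hG2
  have hG2sub : G2 ⊆ G1 := filter_subset _ _
  refine ⟨G2, hG2sub.trans (filter_subset _ _), ?_, ?_⟩
  · have h2 := few_large hK ha R G1 (filter_subset _ _) wj Sj hsw hS
    have h4 : (#G2 : ℝ) + #{j ∈ G1 | ¬ ((wj j : ℝ) ≤ 16 * K * a)} = #G1 := by
      exact_mod_cast card_filter_add_card_filter_not (s := G1)
        (fun j => (wj j : ℝ) ≤ 16 * K * a)
    have h5 : 0 ≤ (#{j ∈ G1 | ¬ ((wj j : ℝ) ≤ 16 * K * a)} : ℝ) := by positivity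
    set B : ℝ := (#{j ∈ G1 | ¬ ((wj j : ℝ) ≤ 16 * K * a)} : ℝ) with hB
    have h6 : 0 ≤ (K * B) * (K - 2) := mul_nonneg (mul_nonneg (by linarith) h5) (by linarith)
    have h7 : 8 * (K * B) ≤ lam ^ 2 := by
      calc 8 * (K * B) ≤ B * (4 * K ^ 2) := by linarith
        _ ≤ lam ^ 2 := h2
    have h8 : (#G1 : ℝ) = #G2 + B := h4.symm
    rw [h8] at hG1card
    have h9 : 0 ≤ K * (#G2 : ℝ) := by positivity
    linarith
  · intro j hj
    have hj1 : j ∈ G1 := hG2sub hj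
    have hjR := (mem_filter.1 hj1).1
    have hw : (wj j : ℝ) ≤ 16 * K * a := (mem_filter.1 hj).2
    have hb := hbd j hj1
    refine ⟨hb, hsw j hj1, hw, ?_, ?_⟩
    · have h1 := (dey j hjR).trans (arith_large hC (show Vj j ≤ wj j by omega))
      have h2 := hmin j hj1
      have h3 : a ^ (4 / 3 : ℝ)
          ≤ (28 * C ^ 2 * K ^ 2 * κ ^ 3) * (wj j : ℝ) ^ (4 / 3 : ℝ) := by
        calc a ^ (4 / 3 : ℝ) ≤ 14 * C * K ^ 2 * κ ^ 3 * Ej j := h2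
          _ ≤ 14 * C * K ^ 2 * κ ^ 3 * (2 * C * (wj j : ℝ) ^ (4 / 3 : ℝ)) := by gcongr
          _ = _ := by ring
      refine arith_inv ha.le (by positivity) ?_ h3
      have e3 : (1 : ℝ) ≤ κ ^ 3 := one_le_pow₀ hκ1
      have e5 : 1 ≤ C ^ 2 * K ^ 2 * κ ^ 3 := one_le_mul_of_one_le_of_one_le hCK e3
      linarith
    · have h1 := arith_fwd ha.le (Nat.cast_nonneg (wj j)) (show 1 ≤ 16 * K by linarith) hw
      have h2 := hmin j hj1
      calc (wj j : ℝ) ^ (4 / 3 : ℝ) ≤ (16 * K) ^ 2 * a ^ (4 / 3 : ℝ) := h1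
        _ ≤ (16 * K) ^ 2 * (14 * C * K ^ 2 * κ ^ 3 * Ej j) := by gcongr
        _ = _ := by ring

/-! ### the windows of a cell -/

theorem mem_EdIn {P : Finset Pt} {k : ℕ} {Q : Finset Pt} {I : Set ℝ} {e : Pt × Pt} :
    e ∈ EdIn P k Q I ↔ e ∈ Ed P k ∧ e.1 ∈ Q ∧ e.2 ∈ Q ∧ sl e.1 e.2 ∈ I := by
  simp only [EdIn, mem_filter]

theorem mem_EdBd {P : Finset Pt} {k : ℕ} {Q : Finset Pt} {I : Set ℝ} {e : Pt × Pt} :
    e ∈ EdBd P k Q I ↔
      e ∈ Ed P k ∧ ((e.1 ∈ Q ∧ e.2 ∉ Q) ∨ (e.1 ∉ Q ∧ e.2 ∈ Q)) ∧ sl e.1 e.2 ∈ I := by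
  simp only [EdBd, mem_filter]

theorem Tch_sub {P : Finset Pt} {k : ℕ} {Q : Finset Pt} {I : Set ℝ} : Tch P k Q I ⊆ Q := by
  classical
  unfold Tch
  exact filter_subset _ _

/-- the increasing function whose level sets are the windows -/
noncomputable def Fw (S1 S2 : Finset (Pt × Pt)) (v0 e0 : ℕ) (m : ℝ) : ℝ :=
  (cnt S1 (fun e => sl e.1 e.2) m : ℝ) / v0 + (cnt S2 (fun e => sl e.1 e.2) m : ℝ) / e0

theorem Fw_mono (S1 S2 : Finset (Pt × Pt)) (v0 e0 : ℕ) : Monotone (Fw S1 S2 v0 e0) := by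
  intro m m' h
  have h1 := cnt_mono S1 (fun e => sl e.1 e.2) h
  have h2 := cnt_mono S2 (fun e => sl e.1 e.2) h
  unfold Fw
  gcongr

theorem Fw_nonneg (S1 S2 : Finset (Pt × Pt)) (v0 e0 : ℕ) (m : ℝ) : 0 ≤ Fw S1 S2 v0 e0 m := by
  unfold Fw
  positivity

theorem Fw_le (S1 S2 : Finset (Pt × Pt)) (v0 e0 : ℕ) (m : ℝ) :
    Fw S1 S2 v0 e0 m ≤ (#S1 : ℝ) / v0 + (#S2 : ℝ) / e0 := by
  have h1 := cnt_le S1 (fun e => sl e.1 e.2) m
  have h2 := cnt_le S2 (fun e => sl e.1 e.2) m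
  unfold Fw
  gcongr

/-- the window number `j` -/
def Iw (S1 S2 : Finset (Pt × Pt)) (v0 e0 : ℕ) (j : ℕ) : Set ℝ := {m | ⌊Fw S1 S2 v0 e0 m⌋₊ = j}

theorem Iw_conn (S1 S2 : Finset (Pt × Pt)) (v0 e0 : ℕ) (j : ℕ) :
    (Iw S1 S2 v0 e0 j).OrdConnected := ordConnected_level (Fw_mono _ _ _ _) j

theorem Iw_disj (S1 S2 : Finset (Pt × Pt)) (v0 e0 : ℕ) {i j : ℕ} (h : i ≠ j) :
    Disjoint (Iw S1 S2 v0 e0 i) (Iw S1 S2 v0 e0 j) := by
  rw [Set.disjoint_left]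
  intro x hx hy
  exact h (hx.symm.trans hy)

theorem card_Iw1 {P : Finset Pt} {k : ℕ} (hP : Good P) (Q : Finset Pt) (v0 e0 : ℕ)
    (hv : 0 < v0) (j : ℕ) :
    #(EdBd P k Q (Iw (EdBd P k Q Set.univ) (EdIn P k Q Set.univ) v0 e0 j)) ≤ v0 := by
  classical
  refine le_trans (card_le_card ?_) (card_level (EdBd P k Q Set.univ) (fun e => sl e.1 e.2)
    (fun e he e' he' h => eq_of_sl hP (mem_EdBd.1 he).1 (mem_EdBd.1 he').1 h)
    (Fw (EdBd P k Q Set.univ) (EdIn P k Q Set.univ) v0 e0) (Fw_nonneg _ _ _ _) v0 hv ?_ j)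
  · intro e he
    rw [mem_EdBd] at he
    simp only [mem_filter]
    exact ⟨mem_EdBd.2 ⟨he.1, he.2.1, Set.mem_univ _⟩, he.2.2⟩
  · intro m m' h
    have h2 := cnt_mono (EdIn P k Q Set.univ) (fun e => sl e.1 e.2) h
    have h3 : (cnt (EdIn P k Q Set.univ) (fun e => sl e.1 e.2) m : ℝ) / e0
        ≤ (cnt (EdIn P k Q Set.univ) (fun e => sl e.1 e.2) m' : ℝ) / e0 := by gcongr
    unfold Fw
    rw [sub_div]
    linarith

theorem card_Iw2 {P : Finset Pt} {k : ℕ} (hP : Good P) (Q : Finset Pt) (v0 e0 : ℕ)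
    (he0 : 0 < e0) (j : ℕ) :
    #(EdIn P k Q (Iw (EdBd P k Q Set.univ) (EdIn P k Q Set.univ) v0 e0 j)) ≤ e0 := by
  classical
  refine le_trans (card_le_card ?_) (card_level (EdIn P k Q Set.univ) (fun e => sl e.1 e.2)
    (fun e he e' he' h => eq_of_sl hP (mem_EdIn.1 he).1 (mem_EdIn.1 he').1 h)
    (Fw (EdBd P k Q Set.univ) (EdIn P k Q Set.univ) v0 e0) (Fw_nonneg _ _ _ _) e0 he0 ?_ j)
  · intro e he
    rw [mem_EdIn] at he
    simp only [mem_filter]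
    exact ⟨mem_EdIn.2 ⟨he.1, he.2.1, he.2.2.1, Set.mem_univ _⟩, he.2.2.2⟩
  · intro m m' h
    have h2 := cnt_mono (EdBd P k Q Set.univ) (fun e => sl e.1 e.2) h
    have h3 : (cnt (EdBd P k Q Set.univ) (fun e => sl e.1 e.2) m : ℝ) / v0
        ≤ (cnt (EdBd P k Q Set.univ) (fun e => sl e.1 e.2) m' : ℝ) / v0 := by gcongr
    unfold Fw
    rw [sub_div]
    linarith

/-- the windows cover all inner edges -/
theorem sum_Iw {P : Finset Pt} {k : ℕ} (Q : Finset Pt) (S1 S2 : Finset (Pt × Pt)) (v0 e0 r : ℕ)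
    (hr : ∀ m, ⌊Fw S1 S2 v0 e0 m⌋₊ < r) :
    ∑ j ∈ range r, #(EdIn P k Q (Iw S1 S2 v0 e0 j)) = #(EdIn P k Q Set.univ) := by
  classical
  rw [card_eq_sum_card_fiberwise (f := fun e => ⌊Fw S1 S2 v0 e0 (sl e.1 e.2)⌋₊)
    (t := range r) fun e _ => mem_range.2 (hr _)]
  refine sum_congr rfl fun j _ => ?_
  congr 1
  ext e
  simp only [mem_filter, mem_EdIn, Set.mem_univ, and_true]
  exact ⟨fun h => ⟨⟨h.1, h.2.1, h.2.2.1⟩, h.2.2.2⟩, fun h => ⟨h.1.1, h.1.2.1, h.1.2.2, h.2⟩⟩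

/-- the pairs of touched points swapped in different windows are different -/
theorem sum_Sw {P : Finset Pt} {k : ℕ} (Q : Finset Pt) (S1 S2 : Finset (Pt × Pt))
    (v0 e0 r : ℕ) (hr : ∀ m, ⌊Fw S1 S2 v0 e0 m⌋₊ < r) :
    ∑ j ∈ range r, #(Sw (Tch P k Q (Iw S1 S2 v0 e0 j)) (Iw S1 S2 v0 e0 j)) ≤ #Q ^ 2 := by
  classical
  rw [sq, ← card_product,
    card_eq_sum_card_fiberwise (f := fun e : Pt × Pt => ⌊Fw S1 S2 v0 e0 (sl e.1 e.2)⌋₊)
    (s := Q ×ˢ Q) (t := range r) fun e _ => mem_range.2 (hr _)]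
  refine sum_le_sum fun j _ => card_le_card fun e he => ?_
  simp only [Sw, mem_filter, mem_product] at he ⊢
  exact ⟨⟨Tch_sub he.1.1, Tch_sub he.1.2⟩, he.2.2⟩

/-- comparison of all the constants with one power of `K`. -/
theorem arith_const {C : ℝ} (_hC : 1 ≤ C) : ∃ A : ℕ, ∀ K : ℝ, 2 ≤ K →
    3584 * C ^ 2 * K ^ 4 * (603 * C ^ 2 * K ^ 2) ^ 3 ≤ K ^ A := by
  obtain ⟨B, hB⟩ := pow_unbounded_of_one_lt (3584 * 603 ^ 3 * C ^ 8) (show (1 : ℝ) < 2 by norm_num)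
  refine ⟨B + 10, fun K hK => ?_⟩
  have h1 : (2 : ℝ) ^ B ≤ K ^ B := pow_le_pow_left₀ (by norm_num) hK B
  have h2 : 0 < K ^ 10 := by positivity
  calc 3584 * C ^ 2 * K ^ 4 * (603 * C ^ 2 * K ^ 2) ^ 3 = (3584 * 603 ^ 3 * C ^ 8) * K ^ 10 := by
        ring
    _ ≤ K ^ B * K ^ 10 := mul_le_mul_of_nonneg_right (hB.le.trans h1) h2.le
    _ = K ^ (B + 10) := (pow_add K B 10).symm

end Win266

open Win266 in
/-- **WINDOWS**: a cell whose boundary and inner edges are of the right order has the structure of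
a projective plane of order `lam`. -/
theorem windows (hDey : StDey) (hRank : StRank) : ∃ A : ℕ, ∀ (K lam : ℝ) (P : Finset Pt) (k : ℕ)
    (Q : Finset Pt), Good P → Q ⊆ P → 2 ≤ K → 1 ≤ lam → K ^ A ≤ #Q / lam →
    (#(EdBd P k Q Set.univ) : ℝ) ≤ K * lam ^ 2 * (#Q / lam) →
    lam ^ 2 * (#Q / lam) ^ (4 / 3 : ℝ) ≤ K * #(EdIn P k Q Set.univ) →
    ∃ (W : Finset ℕ) (I : ℕ → Set ℝ) (T : ℕ → Finset Pt),
      (∀ w ∈ W, (I w).OrdConnected) ∧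
      (∀ w ∈ W, ∀ w' ∈ W, w ≠ w' → Disjoint (I w) (I w')) ∧
      (#W : ℝ) ≤ K ^ A * lam ^ 2 ∧
      lam ^ 2 ≤ K ^ A * #W ∧
      (∀ w ∈ W, T w ⊆ Q) ∧
      (∀ w ∈ W, T w = Tch P k Q (I w)) ∧
      (∀ w ∈ W, 8 * (#(EdBd P k Q (I w)) + 1) ≤ #(T w)) ∧
      (∀ w ∈ W, lam * #(T w) ≤ K ^ A * #Q) ∧
      (∀ w ∈ W, (#Q : ℝ) ≤ K ^ A * lam * #(T w)) ∧
      (∀ w ∈ W, (#(T w) : ℝ) ^ (4 / 3 : ℝ) ≤ K ^ A * #(EdIn P k Q (I w))) ∧
      (∀ w ∈ W, (#(T w)) ^ 2 ≤ 64 * #(Sw (T w) (I w))) := by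
  classical
  obtain ⟨C₀, hC₀, dey₀⟩ := hDey
  set C : ℝ := max C₀ 1 with hCdef
  have hC : 1 ≤ C := le_max_right _ _
  have dey : ∀ (P : Finset Pt) (k : ℕ) (Q : Finset Pt) (I : Set ℝ), Good P → Q ⊆ P →
      I.OrdConnected → (#(EdIn P k Q I) : ℝ) ≤ C *
        ((#(Tch P k Q I) : ℝ) * (#(Tch P k Q I) + #(EdBd P k Q I))) ^ (2 / 3 : ℝ) :=
    fun P k Q I h1 h2 h3 => (dey₀ P k Q I h1 h2 h3).trans
      (mul_le_mul_of_nonneg_right (le_max_left _ _) (by positivity))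
  clear_value C
  obtain ⟨A, hA⟩ := arith_const hC
  refine ⟨A, fun K lam P k Q hP hQ hK hl hKA hV hE => ?_⟩
  have hX := hA K hK
  set κ : ℝ := 603 * C ^ 2 * K ^ 2 with hκ
  have hκ0 : 0 < κ := by rw [hκ]; positivity
  have hκ1 : 1 ≤ κ := by
    have : 1 ≤ C ^ 2 * K ^ 2 :=
      one_le_mul_of_one_le_of_one_le (one_le_pow₀ hC) (one_le_pow₀ (by linarith))
    rw [hκ]
    linarith
  set X : ℝ := K ^ A with hXdef
  set a : ℝ := #Q / lam with ha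
  have hN : lam * a = #Q := by rw [ha]; field_simp
  -- comparison of constants
  have hK3 : 1 ≤ κ ^ 3 := one_le_pow₀ hκ1
  have hC2 : 1 ≤ C ^ 2 := one_le_pow₀ hC
  have hCC : C ≤ C ^ 2 := by nlinarith
  have hK4 : 1 ≤ K ^ 4 := one_le_pow₀ (by linarith)
  have hKK4 : K ≤ K ^ 4 := by
    calc K = K ^ 1 := (pow_one K).symm
      _ ≤ K ^ 4 := pow_le_pow_right₀ (by linarith) (by norm_num)
  have hKK2 : K ^ 2 ≤ K ^ 4 := pow_le_pow_right₀ (by linarith) (by norm_num)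
  have hX1 : 4 * K ≤ X := by
    calc 4 * K = 4 * 1 * K * 1 := by ring
      _ ≤ 3584 * C ^ 2 * K ^ 4 * κ ^ 3 := by gcongr; norm_num
      _ ≤ X := hX
  have hX2 : 7 * C * K * κ ^ 3 ≤ X := by
    calc 7 * C * K * κ ^ 3 ≤ 3584 * C ^ 2 * K ^ 4 * κ ^ 3 := by gcongr; norm_num
      _ ≤ X := hX
  have hX3 : 16 * K ≤ X := by
    calc 16 * K = 16 * 1 * K * 1 := by ring
      _ ≤ 3584 * C ^ 2 * K ^ 4 * κ ^ 3 := by gcongr; norm_num
      _ ≤ X := hX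
  have hX4 : 28 * C ^ 2 * K ^ 2 * κ ^ 3 ≤ X := by
    calc 28 * C ^ 2 * K ^ 2 * κ ^ 3 ≤ 3584 * C ^ 2 * K ^ 4 * κ ^ 3 := by gcongr; norm_num
      _ ≤ X := hX
  have hX5 : 3584 * C * K ^ 4 * κ ^ 3 ≤ X := by
    calc 3584 * C * K ^ 4 * κ ^ 3 ≤ 3584 * C ^ 2 * K ^ 4 * κ ^ 3 := by gcongr
      _ ≤ X := hX
  have hX6 : 2 * κ ^ 3 ≤ X := by
    calc 2 * κ ^ 3 = 2 * 1 * 1 * κ ^ 3 := by ring
      _ ≤ 3584 * C ^ 2 * K ^ 4 * κ ^ 3 := by gcongr; norm_num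
      _ ≤ X := hX
  have haX : X ≤ a := hKA
  have ha0 : 0 < a := by linarith
  have ha1 : 1 ≤ a := by linarith
  have hap1 : 1 ≤ a ^ (4 / 3 : ℝ) := Real.one_le_rpow ha1 (by norm_num)
  -- the parameters
  set v0 : ℕ := ⌊a / κ ^ 3⌋₊ with hv0
  set e0 : ℕ := ⌊a ^ (4 / 3 : ℝ)⌋₊ with he0
  have hak : 1 ≤ a / κ ^ 3 := by
    rw [le_div_iff₀ (by positivity)]
    linarith
  have hv1 : 1 ≤ v0 := Nat.floor_pos.2 hak
  have he1 : 1 ≤ e0 := Nat.floor_pos.2 hap1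
  have hv2 : (v0 : ℝ) ≤ a / κ ^ 3 := Nat.floor_le (by positivity)
  have he2 : (e0 : ℝ) ≤ a ^ (4 / 3 : ℝ) := Nat.floor_le (by positivity)
  have hv3 : a / κ ^ 3 / 2 ≤ (v0 : ℝ) := half_le_floor hak
  have he3 : a ^ (4 / 3 : ℝ) / 2 ≤ (e0 : ℝ) := half_le_floor hap1
  have hv4 : (0 : ℝ) < v0 := by exact_mod_cast hv1
  have he4 : (0 : ℝ) < e0 := by exact_mod_cast he1
  set S1 := EdBd P k Q Set.univ with hS1
  set S2 := EdIn P k Q Set.univ with hS2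
  have hup : (#S2 : ℝ) ≤ 2 * C * K * lam ^ 2 * a ^ (4 / 3 : ℝ) := by
    refine (dey P k Q Set.univ hP hQ Set.ordConnected_univ).trans ?_
    refine arith_E hC hK hl ha0.le (by positivity) ?_ (by positivity) hV
    rw [hN]
    exact_mod_cast card_le_card Tch_sub
  set r : ℕ := ⌊(#S1 : ℝ) / v0 + (#S2 : ℝ) / e0⌋₊ + 1 with hr
  have hrF : ∀ m, ⌊Fw S1 S2 v0 e0 m⌋₊ < r := fun m =>
    Nat.lt_succ_of_le (Nat.floor_le_floor (Fw_le S1 S2 v0 e0 m))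
  have hlam2 : 1 ≤ lam ^ 2 := one_le_pow₀ hl
  have hrcard : (r : ℝ) ≤ 7 * C * K * κ ^ 3 * lam ^ 2 := by
    have h1 : (#S1 : ℝ) / v0 ≤ 2 * K * κ ^ 3 * lam ^ 2 := by
      rw [div_le_iff₀ hv4]
      calc (#S1 : ℝ) ≤ K * lam ^ 2 * a := hV
        _ = 2 * K * κ ^ 3 * lam ^ 2 * (a / κ ^ 3 / 2) := by field_simp
        _ ≤ 2 * K * κ ^ 3 * lam ^ 2 * v0 := by gcongr
    have h2 : (#S2 : ℝ) / e0 ≤ 4 * C * K * lam ^ 2 := by
      rw [div_le_iff₀ he4]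
      calc (#S2 : ℝ) ≤ 2 * C * K * lam ^ 2 * a ^ (4 / 3 : ℝ) := hup
        _ = 4 * C * K * lam ^ 2 * (a ^ (4 / 3 : ℝ) / 2) := by ring
        _ ≤ 4 * C * K * lam ^ 2 * e0 := by gcongr
    have h3 : (r : ℝ) ≤ (#S1 : ℝ) / v0 + (#S2 : ℝ) / e0 + 1 := by
      rw [hr]
      push_cast
      have := Nat.floor_le (show 0 ≤ (#S1 : ℝ) / v0 + (#S2 : ℝ) / e0 by positivity)
      linarith
    have h4 : 2 * K * κ ^ 3 * lam ^ 2 ≤ 2 * (C * K * κ ^ 3 * lam ^ 2) := by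
      have : 1 * (K * κ ^ 3 * lam ^ 2) ≤ C * (K * κ ^ 3 * lam ^ 2) := by gcongr
      linarith
    have h5 : 4 * C * K * lam ^ 2 ≤ 4 * (C * K * κ ^ 3 * lam ^ 2) := by
      have : C * K * 1 * lam ^ 2 ≤ C * K * κ ^ 3 * lam ^ 2 := by gcongr
      linarith
    have h6 : 1 ≤ C * K * κ ^ 3 * lam ^ 2 :=
      one_le_mul_of_one_le_of_one_le (one_le_mul_of_one_le_of_one_le
        (one_le_mul_of_one_le_of_one_le hC (by linarith)) hK3) hlam2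
    linarith
  obtain ⟨G, hGR, hG1, hG2⟩ := pick_windows (C := C) (K := K) (lam := lam) (a := a) hC hK hl ha0
    hκ (range r) (fun j => #(EdBd P k Q (Iw S1 S2 v0 e0 j)))
    (fun j => #(EdIn P k Q (Iw S1 S2 v0 e0 j)))
    (fun j => #(Tch P k Q (Iw S1 S2 v0 e0 j)))
    (fun j => #(Sw (Tch P k Q (Iw S1 S2 v0 e0 j)) (Iw S1 S2 v0 e0 j))) v0 hv1 hv2
    (fun j _ => card_Iw1 hP Q v0 e0 hv1 j)
    (fun j _ => le_trans (by exact_mod_cast card_Iw2 hP Q v0 e0 he1 j) he2)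
    (fun j _ => dey P k Q _ hP hQ (Iw_conn _ _ _ _ j))
    (fun j _ h => hRank P k Q _ hP hQ (Iw_conn _ _ _ _ j) h)
    (by rw [hN]; exact_mod_cast sum_Sw Q S1 S2 v0 e0 r hrF)
    (by rw [card_range]; exact hrcard)
    (by rw [sum_Iw Q S1 S2 v0 e0 r hrF]; exact hE)
  refine ⟨G, Iw S1 S2 v0 e0, fun j => Tch P k Q (Iw S1 S2 v0 e0 j),
    fun j _ => Iw_conn _ _ _ _ j, fun i _ j _ hij => Iw_disj _ _ _ _ hij, ?_, ?_,
    fun j _ => Tch_sub, fun j _ => rfl, fun j hj => (hG2 j hj).1, ?_, ?_, ?_,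
    fun j hj => (hG2 j hj).2.1⟩
  · have h1 : (#G : ℝ) ≤ r := by
      have := card_le_card hGR
      rw [card_range] at this
      exact_mod_cast this
    calc (#G : ℝ) ≤ 7 * C * K * κ ^ 3 * lam ^ 2 := h1.trans hrcard
      _ ≤ X * lam ^ 2 := by gcongr
  · exact hG1.trans (by gcongr)
  · intro j hj
    have h1 := (hG2 j hj).2.2.1
    calc lam * (#(Tch P k Q (Iw S1 S2 v0 e0 j)) : ℝ) ≤ lam * (16 * K * a) := by gcongr
      _ = 16 * K * (lam * a) := by ring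
      _ ≤ X * (lam * a) := by gcongr
      _ = X * #Q := by rw [hN]
  · intro j hj
    have h1 := (hG2 j hj).2.2.2.1
    calc (#Q : ℝ) = lam * a := hN.symm
      _ ≤ lam * (28 * C ^ 2 * K ^ 2 * κ ^ 3 * #(Tch P k Q (Iw S1 S2 v0 e0 j))) := by gcongr
      _ ≤ lam * (X * #(Tch P k Q (Iw S1 S2 v0 e0 j))) := by gcongr
      _ = _ := by ring
  · intro j hj
    exact ((hG2 j hj).2.2.2.2).trans (by gcongr)

end Vale.Agent.P065.UB
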